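import Vale.Agent.P210.Cx.Defs
import Vale.Agent.P210.R2.H265.Tws
import Vale.Agent.P210.R2.H973.Ricf

/-!
# Closed manifolds have bounded Ricci curvature
-/

open scoped Manifold ContDiff Topology Bundle ENNReal NNReal
open Set Metric Filter Bundle IsManifold MeasureTheory Manifold Asymptotics

set_option maxSynthPendingDepth 3
set_option linter.all false

noncomputable section

namespace Vale.Agent.P210.Cw.Om

open Vale.Agent.P210.R2 Vale.Agent.P210.R2.H53 Vale.Agent.P210.R2.H973 Vale.Agent.P210.R2.H265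

section Loc

variable {E : Type} [NormedAddCommGroup E] [NormedSpace ℝ E] [FiniteDimensional ℝ E]

theorem exists_low {B : E →L[ℝ] E →L[ℝ] ℝ} (hpos : ∀ v, v ≠ 0 → 0 < B v v) :
    ∃ c > 0, ∀ v, c * ‖v‖ ^ 2 ≤ B v v := by
  rcases (sphere (0 : E) 1).eq_empty_or_nonempty with h | h
  · refine ⟨1, one_pos, fun v => ?_⟩
    have hv : v = 0 := by
      by_contra hne
      have hn : ‖v‖ ≠ 0 := norm_ne_zero_iff.2 hne
      have : (‖v‖⁻¹ • v : E) ∈ sphere (0 : E) 1 := by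
        rw [mem_sphere_zero_iff_norm, norm_smul, norm_inv, norm_norm, inv_mul_cancel₀ hn]
      rw [h] at this
      exact this
    simp [hv]
  · obtain ⟨v₀, hv₀, hmin⟩ := (isCompact_sphere (0 : E) 1).exists_isMinOn h
      (f := fun v => B v v) (by fun_prop)
    have hv₀' : ‖v₀‖ = 1 := mem_sphere_zero_iff_norm.1 hv₀
    have hne : v₀ ≠ 0 := fun h0 => by rw [h0, norm_zero] at hv₀'; exact zero_ne_one hv₀'
    refine ⟨B v₀ v₀, hpos v₀ hne, fun v => ?_⟩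
    by_cases hv : v = 0
    · simp [hv]
    · have hn : ‖v‖ ≠ 0 := norm_ne_zero_iff.2 hv
      have hs : (‖v‖⁻¹ • v : E) ∈ sphere (0 : E) 1 := by
        rw [mem_sphere_zero_iff_norm, norm_smul, norm_inv, norm_norm, inv_mul_cancel₀ hn]
      have h1 : B v₀ v₀ ≤ B (‖v‖⁻¹ • v) (‖v‖⁻¹ • v) := hmin hs
      rw [map_smul, map_smul, smul_apply, smul_eq_mul, smul_eq_mul] at h1
      have h2 : 0 < ‖v‖ := norm_pos_iff.2 hv
      have h3 : ‖v‖ ^ 2 * (‖v‖⁻¹ * (‖v‖⁻¹ * B v v)) = B v v := by field_simp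
      nlinarith [sq_nonneg ‖v‖]

theorem sec_bd {G : E → E →L[ℝ] E →L[ℝ] ℝ} {z : E} {A : ℝ} (hA : 0 ≤ A) (h0 : ‖G z‖ ≤ A)
    (h1 : ‖chris G z‖ ≤ A) (h2 : ‖fderiv ℝ (fderiv ℝ G) z‖ ≤ A) (a b : E) :
    |secG G z a b| ≤ (2 * A + 2 * A ^ 3) * (‖a‖ ^ 2 * ‖b‖ ^ 2) := by
  have hD : ∀ u v x y : E, |fderiv ℝ (fderiv ℝ G) z u v x y| ≤ A * ‖u‖ * ‖v‖ * ‖x‖ * ‖y‖ := by
    intro u v x y
    have k1 : ‖fderiv ℝ (fderiv ℝ G) z u v x y‖ ≤ ‖fderiv ℝ (fderiv ℝ G) z u v x‖ * ‖y‖ :=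
      ContinuousLinearMap.le_opNorm _ _
    have k2 : ‖fderiv ℝ (fderiv ℝ G) z u v x‖ ≤ ‖fderiv ℝ (fderiv ℝ G) z u v‖ * ‖x‖ :=
      ContinuousLinearMap.le_opNorm _ _
    have k3 : ‖fderiv ℝ (fderiv ℝ G) z u v‖ ≤ ‖fderiv ℝ (fderiv ℝ G) z u‖ * ‖v‖ :=
      ContinuousLinearMap.le_opNorm _ _
    have k4 : ‖fderiv ℝ (fderiv ℝ G) z u‖ ≤ ‖fderiv ℝ (fderiv ℝ G) z‖ * ‖u‖ :=
      ContinuousLinearMap.le_opNorm _ _
    rw [← Real.norm_eq_abs]
    calc ‖fderiv ℝ (fderiv ℝ G) z u v x y‖ ≤ ‖fderiv ℝ (fderiv ℝ G) z u v x‖ * ‖y‖ := k1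
      _ ≤ ‖fderiv ℝ (fderiv ℝ G) z u v‖ * ‖x‖ * ‖y‖ := by gcongr
      _ ≤ ‖fderiv ℝ (fderiv ℝ G) z u‖ * ‖v‖ * ‖x‖ * ‖y‖ := by gcongr
      _ ≤ ‖fderiv ℝ (fderiv ℝ G) z‖ * ‖u‖ * ‖v‖ * ‖x‖ * ‖y‖ := by gcongr
      _ ≤ A * ‖u‖ * ‖v‖ * ‖x‖ * ‖y‖ := by gcongr
  have hC : ∀ u v : E, ‖chris G z u v‖ ≤ A * ‖u‖ * ‖v‖ := by
    intro u v
    calc ‖chris G z u v‖ ≤ ‖chris G z u‖ * ‖v‖ := ContinuousLinearMap.le_opNorm _ _
      _ ≤ ‖chris G z‖ * ‖u‖ * ‖v‖ := by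
        gcongr
        exact ContinuousLinearMap.le_opNorm _ _
      _ ≤ A * ‖u‖ * ‖v‖ := by gcongr
  have hG : ∀ x y : E, |G z x y| ≤ A * ‖x‖ * ‖y‖ := by
    intro x y
    rw [← Real.norm_eq_abs]
    calc ‖G z x y‖ ≤ ‖G z x‖ * ‖y‖ := ContinuousLinearMap.le_opNorm _ _
      _ ≤ ‖G z‖ * ‖x‖ * ‖y‖ := by
        gcongr
        exact ContinuousLinearMap.le_opNorm _ _
      _ ≤ A * ‖x‖ * ‖y‖ := by gcongr
  have g1 : |G z (chris G z a b) (chris G z a b)| ≤ A ^ 3 * (‖a‖ ^ 2 * ‖b‖ ^ 2) := by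
    calc |G z (chris G z a b) (chris G z a b)| ≤ A * ‖chris G z a b‖ * ‖chris G z a b‖ := hG _ _
      _ ≤ A * (A * ‖a‖ * ‖b‖) * (A * ‖a‖ * ‖b‖) := by
        have := hC a b
        gcongr
      _ = _ := by ring
  have g2 : |G z (chris G z a a) (chris G z b b)| ≤ A ^ 3 * (‖a‖ ^ 2 * ‖b‖ ^ 2) := by
    calc |G z (chris G z a a) (chris G z b b)| ≤ A * ‖chris G z a a‖ * ‖chris G z b b‖ := hG _ _
      _ ≤ A * (A * ‖a‖ * ‖a‖) * (A * ‖b‖ * ‖b‖) := by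
        have := hC a a
        have := hC b b
        gcongr
      _ = _ := by ring
  have d1 := hD a a b b
  have d2 := hD b b a a
  have d3 := hD b a a b
  have e1 : A * ‖a‖ * ‖a‖ * ‖b‖ * ‖b‖ = A * (‖a‖ ^ 2 * ‖b‖ ^ 2) := by ring
  have e2 : A * ‖b‖ * ‖b‖ * ‖a‖ * ‖a‖ = A * (‖a‖ ^ 2 * ‖b‖ ^ 2) := by ring
  have e3 : A * ‖b‖ * ‖a‖ * ‖a‖ * ‖b‖ = A * (‖a‖ ^ 2 * ‖b‖ ^ 2) := by ring
  rw [e1] at d1
  rw [e2] at d2
  rw [e3] at d3
  rw [abs_le] at d1 d2 d3 g1 g2 ⊢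
  unfold secG
  constructor <;> nlinarith [d1.1, d1.2, d2.1, d2.2, d3.1, d3.2, g1.1, g1.2, g2.1, g2.2]

theorem ev_norm {F : Type} [NormedAddCommGroup F] {f : E → F} {z₀ : E} (h : ContinuousAt f z₀) :
    ∀ᶠ z in 𝓝 z₀, ‖f z‖ ≤ ‖f z₀‖ + 1 := by
  filter_upwards [(continuous_norm.continuousAt.comp h) (Iio_mem_nhds (lt_add_one ‖f z₀‖))]
    with z hz
  exact le_of_lt hz

theorem fd_bd {F : Type} [NormedAddCommGroup F] [NormedSpace ℝ F] {g : E → F} {U : Set E}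
    (hU : IsOpen U) (hg : ContDiffOn ℝ ∞ g U) {z₀ : E} (hz₀ : z₀ ∈ U) :
    ∃ A, ∀ᶠ z in 𝓝 z₀, ‖fderiv ℝ g z‖ ≤ A := by
  have c2 : ContinuousAt (fderiv ℝ g) z₀ :=
    ((hg.contDiffAt (hU.mem_nhds hz₀)).fderiv_right (m := 0) (by simp)).continuousAt
  exact ⟨_, ev_norm c2⟩

theorem fd2_bd {G : E → E →L[ℝ] E →L[ℝ] ℝ} {U : Set E} (hR : LocalRiem G U) {z₀ : E}
    (hz₀ : z₀ ∈ U) : ∃ A, ∀ᶠ z in 𝓝 z₀, ‖fderiv ℝ (fderiv ℝ G) z‖ ≤ A :=
  fd_bd hR.isOpen hR.contDiffOn_fderiv hz₀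

theorem chr_bd {G : E → E →L[ℝ] E →L[ℝ] ℝ} {U : Set E} (hR : LocalRiem G U) {z₀ : E}
    (hz₀ : z₀ ∈ U) : ∃ A, ∀ᶠ z in 𝓝 z₀, ‖chris G z‖ ≤ A := by
  have hU : U ∈ 𝓝 z₀ := hR.isOpen.mem_nhds hz₀
  have c1 : ContinuousAt (chris G) z₀ := (hR.contDiffOn_chris.contDiffAt hU).continuousAt
  exact ⟨_, ev_norm c1⟩

/-- local bounds of the Ricci curvature -/
theorem ric_loc {G : E → E →L[ℝ] E →L[ℝ] ℝ} {U : Set E} (hR : LocalRiem G U) {z₀ : E}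
    (hz₀ : z₀ ∈ U) : ∃ κ, 0 ≤ κ ∧ ∀ᶠ z in 𝓝 z₀, z ∈ U ∧ ∀ v, |ric G z v| ≤ κ * G z v v := by
  obtain ⟨c, hc, hlow⟩ := exists_low (hR.pos z₀ hz₀)
  have hU : U ∈ 𝓝 z₀ := hR.isOpen.mem_nhds hz₀
  have c0 : ContinuousAt G z₀ := (hR.smooth.contDiffAt hU).continuousAt
  obtain ⟨A₁, n1⟩ := chr_bd hR hz₀
  obtain ⟨A₂, n2⟩ := fd2_bd hR hz₀
  set A := max (max (‖G z₀‖ + 1) A₁) A₂ with hA
  have hA1 : ‖G z₀‖ + 1 ≤ A := (le_max_left _ _).trans (le_max_left _ _)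
  have hA2 : A₁ ≤ A := (le_max_right _ _).trans (le_max_left _ _)
  have hA3 : A₂ ≤ A := le_max_right _ _
  have hA0 : 0 ≤ A := le_trans (by positivity) hA1
  set m : ℝ := ((Module.finrank ℝ E : ℕ) : ℝ) with hm
  refine ⟨m * ((2 * A + 2 * A ^ 3) * (2 / c)) * (2 / c), by positivity, ?_⟩
  have n0 := ev_norm c0
  have c3 : ContinuousAt (fun z => ‖G z - G z₀‖) z₀ :=
    continuous_norm.continuousAt.comp (c0.sub continuousAt_const)
  have n3 : ∀ᶠ z in 𝓝 z₀, ‖G z - G z₀‖ < c / 2 :=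
    c3 (Iio_mem_nhds (by simpa using half_pos hc))
  filter_upwards [hU, n0, n1, n2, n3] with z hz h0 h1 h2 h3
  refine ⟨hz, fun v => ?_⟩
  have hlz : ∀ v, c / 2 * ‖v‖ ^ 2 ≤ G z v v := by
    intro v
    have k1 : |(G z - G z₀) v v| ≤ c / 2 * ‖v‖ * ‖v‖ := by
      rw [← Real.norm_eq_abs]
      calc ‖(G z - G z₀) v v‖ ≤ ‖(G z - G z₀) v‖ * ‖v‖ := ContinuousLinearMap.le_opNorm _ _
        _ ≤ ‖G z - G z₀‖ * ‖v‖ * ‖v‖ := by
          gcongr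
          exact ContinuousLinearMap.le_opNorm _ _
        _ ≤ c / 2 * ‖v‖ * ‖v‖ := by gcongr
    have k2 := hlow v
    have k3 : (G z - G z₀) v v = G z v v - G z₀ v v := by simp
    rw [k3, abs_le] at k1
    nlinarith [k1.1]
  obtain ⟨b, hb⟩ := exists_onb (G z) (hR.symm z hz) (hR.pos z hz)
  rw [← ric_eq hb]
  have hbn : ∀ i, ‖b i‖ ^ 2 ≤ 2 / c := by
    intro i
    have k1 := hlz (b i)
    have k2 : G z (b i) (b i) = 1 := by simpa using hb i i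
    rw [k2] at k1
    rw [le_div_iff₀ hc]
    linarith
  have hvn : ‖v‖ ^ 2 ≤ 2 / c * G z v v := by
    have k1 := hlz v
    rw [div_mul_eq_mul_div, le_div_iff₀ hc]
    linarith
  have hK : 0 ≤ 2 * A + 2 * A ^ 3 := by positivity
  calc |∑ i, secG G z (b i) v| ≤ ∑ i, |secG G z (b i) v| := Finset.abs_sum_le_sum_abs _ _
    _ ≤ ∑ _i : Fin (Module.finrank ℝ E), (2 * A + 2 * A ^ 3) * (2 / c * (2 / c * G z v v)) := by
      refine Finset.sum_le_sum fun i _ => (sec_bd hA0 (h0.trans hA1) (h1.trans hA2)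
        (h2.trans hA3) _ _).trans ?_
      have := hbn i
      gcongr
    _ = _ := by
      rw [Finset.sum_const, Finset.card_univ, Fintype.card_fin, nsmul_eq_mul, ← hm]
      ring

end Loc

section Clo

variable {E : Type} [NormedAddCommGroup E] [NormedSpace ℝ E] [FiniteDimensional ℝ E]
  {M : Type} [MetricSpace M] [ChartedSpace E M]
  [RiemannianBundle (fun x : M => TangentSpace 𝓘(ℝ, E) x)]
  [IsManifold 𝓘(ℝ, E) ∞ M]
  [IsContMDiffRiemannianBundle 𝓘(ℝ, E) ∞ E (fun x : M => TangentSpace 𝓘(ℝ, E) x)]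

variable (E M) in
/-- the Ricci curvature of a closed manifold is bounded -/
theorem ric_clo [CompactSpace M] : ∃ κ, 0 ≤ κ ∧ ∀ e ∈ maximalAtlas 𝓘(ℝ, E) ∞ M,
    ∀ z ∈ e.target, ∀ v, |ric (chartG e) z v| ≤ κ * chartG e z v v := by
  classical
  have hloc : ∀ p : M, ∃ κ, 0 ≤ κ ∧ ∀ᶠ q in 𝓝 p, q ∈ (chartAt E p).source ∧
      ∀ v, |ric (chartG (chartAt E p)) (chartAt E p q) v| ≤
        κ * chartG (chartAt E p) (chartAt E p q) v v := by
    intro p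
    obtain ⟨κ, hκ, h⟩ := ric_loc (localRiem_chartG (e := chartAt E p) (chart_mem_maximalAtlas p))
      (mem_chart_target E p)
    refine ⟨κ, hκ, ?_⟩
    have h1 : Tendsto (chartAt E p) (𝓝 p) (𝓝 (chartAt E p p)) :=
      (chartAt E p).continuousAt (mem_chart_source E p)
    filter_upwards [h1.eventually h, (chartAt E p).open_source.mem_nhds (mem_chart_source E p)]
      with q hq hqs
    exact ⟨hqs, hq.2⟩
  choose κ hκ hU using hloc
  obtain ⟨t, -, ht⟩ := isCompact_univ.elim_nhds_subcover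
    (fun p : M => {q | q ∈ (chartAt E p).source ∧
      ∀ v, |ric (chartG (chartAt E p)) (chartAt E p q) v| ≤
        κ p * chartG (chartAt E p) (chartAt E p q) v v}) (fun p _ => hU p)
  refine ⟨∑ p ∈ t, κ p, Finset.sum_nonneg fun p _ => hκ p, fun e' he' z hz v => ?_⟩
  have hq := ht (mem_univ (e'.symm z))
  rw [mem_iUnion₂] at hq
  obtain ⟨p, hp, hqs, hqb⟩ := hq
  have he := (chart_mem_maximalAtlas p : chartAt E p ∈ maximalAtlas 𝓘(ℝ, E) ∞ M)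
  have hx' : e'.symm z ∈ e'.source := e'.map_target hz
  have e1 := ric_chart he' he hx' hqs v
  have e2 := chartG_change he' he hx' hqs v v
  rw [e'.right_inv hz] at e1 e2
  rw [e1, ← e2]
  refine (hqb _).trans ?_
  have h0 : 0 ≤ chartG (chartAt E p) (chartAt E p (e'.symm z))
      (fderiv ℝ (chartAt E p ∘ e'.symm) z v) (fderiv ℝ (chartAt E p ∘ e'.symm) z v) := by
    rw [chartG_apply, chartMetric]
    exact real_inner_self_nonneg
  gcongr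
  exact Finset.single_le_sum (fun p _ => hκ p) hp

variable (E M) in
theorem ricGE_clo [CompactSpace M] : ∃ κ, 0 ≤ κ ∧ RicGE E M (-κ) ∧
    ∀ Ω : Set M, ScalLEOn E M Ω fun _ => Module.finrank ℝ E * κ := by
  obtain ⟨κ, hκ, h⟩ := ric_clo E M
  refine ⟨κ, hκ, fun e he z hz => ?_, fun Ω e he z hz _ => ?_⟩
  · refine ⟨_, isChristoffel_chris he hz, fun b hb v => ?_⟩
    have h1 : ONB (chartG e z) b := hb
    have h2 := h e he z hz v
    rw [abs_le] at h2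
    have h3 : ∑ i, sectNum e z (fun u v => chris (chartG e) z u v) (b i) v =
        ric (chartG e) z v := by
      rw [← ric_eq h1]
      exact Finset.sum_congr rfl fun i _ => sectNum_eq he hz (isChristoffel_chris he hz) _ _
    rw [h3]
    have h4 : chartMetric e z v v = chartG e z v v := rfl
    rw [h4]
    linarith [h2.1]
  · refine ⟨_, isChristoffel_chris he hz, fun b hb => ?_⟩
    have h1 : ONB (chartG e z) b := hb
    rw [Finset.sum_comm]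
    have h3 : ∀ j, ∑ i, sectNum e z (fun u v => chris (chartG e) z u v) (b i) (b j) ≤ κ := by
      intro j
      have h2 := h e he z hz (b j)
      rw [abs_le] at h2
      have h5 : ∑ i, sectNum e z (fun u v => chris (chartG e) z u v) (b i) (b j) =
          ric (chartG e) z (b j) := by
        rw [← ric_eq h1]
        exact Finset.sum_congr rfl fun i _ => sectNum_eq he hz (isChristoffel_chris he hz) _ _
      have h6 : chartG e z (b j) (b j) = 1 := by simpa using h1 j j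
      rw [h6, mul_one] at h2
      rw [h5]
      exact h2.2
    calc ∑ j, ∑ i, sectNum e z (fun u v => chris (chartG e) z u v) (b i) (b j)
        ≤ ∑ _j : Fin (Module.finrank ℝ E), κ := Finset.sum_le_sum fun j _ => h3 j
      _ = _ := by rw [Finset.sum_const, Finset.card_univ, Fintype.card_fin, nsmul_eq_mul]

end Clo

end Vale.Agent.P210.Cw.Om
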