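import Vale.Agent.P210.Cx.Sel
import Vale.Agent.P210.Cw.Core

/-!
# The map to a complex
-/

open scoped ENNReal NNReal Topology
open MeasureTheory Set Metric Filter

set_option linter.all false

noncomputable section

namespace Vale.Agent.P210.Cw.Om

variable {X : Type} [MetricSpace X] {okl : ℤ → Prop} {Ω : Set X}

/-- the multi-scale functions -/
def Uf (V : Vs X okl) (T : Ω → ℝ) (c : V.ι → ℝ) (p : V.ι) (x : Ω) : ℝ :=
  max 0 (1 - |T x - ((V.lv p : ℝ) - 1)|) * max 0 (V.hat p x - c p)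

theorem Uf_nonneg (V : Vs X okl) (T : Ω → ℝ) (c : V.ι → ℝ) (p : V.ι) (x : Ω) :
    0 ≤ Uf V T c p x := mul_nonneg (le_max_left _ _) (le_max_left _ _)

theorem Uf_pos {V : Vs X okl} {T : Ω → ℝ} {c : V.ι → ℝ} {p : V.ι} {x : Ω}
    (h : 0 < Uf V T c p x) : |T x - ((V.lv p : ℝ) - 1)| < 1 ∧ c p < V.hat p x := by
  unfold Uf at h
  constructor
  · by_contra hcon
    rw [max_eq_left (by linarith), zero_mul] at h
    exact lt_irrefl _ h
  · by_contra hcon
    rw [max_eq_left (a := (0 : ℝ)) (b := V.hat p x - c p) (by linarith), mul_zero] at h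
    exact lt_irrefl _ h

theorem Uf_eq {V : Vs X okl} {T : Ω → ℝ} {c : V.ι → ℝ} {p : V.ι} {x : Ω}
    (h : 0 < Uf V T c p x) :
    Uf V T c p x = (1 - |T x - ((V.lv p : ℝ) - 1)|) * (V.hat p x - c p) := by
  obtain ⟨h1, h2⟩ := Uf_pos h
  unfold Uf
  rw [max_eq_right (by linarith), max_eq_right (by linarith)]

theorem continuous_Uf (V : Vs X okl) {T : Ω → ℝ} (hT : Continuous T) (c : V.ι → ℝ) (p : V.ι) :
    Continuous (Uf V T c p) := by
  have h1 := V.continuous_hat p
  unfold Uf
  fun_prop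

theorem exists_Uf_pos (V : Vs X okl) (T : Ω → ℝ) (c : V.ι → ℝ)
    (hc : ∀ p, c p ∈ Icc (0 : ℝ) (1 / 4)) (x : Ω) (hx : okl (round (T x) + 1)) :
    ∃ p, 0 < Uf V T c p x := by
  obtain ⟨p, hp, hh⟩ := V.exists_hat hx x
  refine ⟨p, ?_⟩
  have h1 : |T x - ((V.lv p : ℝ) - 1)| ≤ 1 / 2 := by
    have := abs_sub_round (T x)
    rw [hp]
    simpa using this
  have h4 := (hc p).2
  unfold Uf
  apply mul_pos
  · rw [lt_max_iff]; right; linarith
  · rw [lt_max_iff]; right; linarith

section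

variable [ProperSpace X] [MeasurableSpace X] [BorelSpace X]
variable {μ : Measure X} {ρ : X → ℝ} {n : ℕ} {b A Cd : ℝ} {ok : ℝ → Prop}

theorem Dat.locallyFinite_Uf (h : Dat μ Ω ρ n b A Cd ok) (V : Vs X okl)
    (hokl : ∀ j, okl j → ok (1024 * (2 : ℝ) ^ j)) {T : Ω → ℝ} (hT : Continuous T) (c : V.ι → ℝ)
    (hc : ∀ p, c p ∈ Icc (0 : ℝ) (1 / 4)) :
    LocallyFinite fun p => Function.support (Uf V T c p) := by
  classical
  intro x₀
  let a : ℤ := ⌊T x₀⌋ - 2
  let e : ℤ := ⌈T x₀⌉ + 4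
  -- vertices of level `j` near `x₀`
  have hfinj : ∀ j : ℤ, {p : V.ι | V.lv p = j ∧ dist (V.ps p) (x₀ : X) ≤ 1 + 2 * (2 : ℝ) ^ j}.Finite := by
    intro j
    have hcomp : IsCompact (closedBall (x₀ : X) (1 + 2 * (2 : ℝ) ^ j)) := isCompact_closedBall _ _
    by_contra hcon
    have hinf : ({p : V.ι | V.lv p = j ∧ dist (V.ps p) (x₀ : X) ≤ 1 + 2 * (2 : ℝ) ^ j} :
      Set V.ι).Infinite := hcon
    have hinj : InjOn V.ps {p : V.ι | V.lv p = j ∧ dist (V.ps p) (x₀ : X) ≤ 1 + 2 * (2 : ℝ) ^ j} := by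
      intro p hp q hq h
      exact V.inj p q (hp.1.trans hq.1.symm) h
    have hinf2 := hinf.image hinj
    obtain ⟨z, hz, hacc⟩ := hinf2.exists_accPt_of_subset_isCompact hcomp (by
      rintro _ ⟨p, hp, rfl⟩
      exact hp.2)
    rw [accPt_iff_frequently] at hacc
    have h2j : (0 : ℝ) < (2 : ℝ) ^ j := by positivity
    have h1 := hacc.and_eventually (ball_mem_nhds z (ε := (2 : ℝ) ^ j / 2) (by positivity))
    obtain ⟨y, ⟨hyz, p, hp, rfl⟩, hy2⟩ := h1.exists
    have hd : 0 < dist (V.ps p) z := dist_pos.2 hyz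
    have h2 := hacc.and_eventually (ball_mem_nhds z (ε := min ((2 : ℝ) ^ j / 2)
      (dist (V.ps p) z)) (lt_min (by positivity) hd))
    obtain ⟨y', ⟨hyz', q, hq, rfl⟩, hy2'⟩ := h2.exists
    have hne : p ≠ q := by
      rintro rfl
      exact absurd (hy2'.trans_le (min_le_right _ _)) (lt_irrefl _)
    have hs := V.sep p q (hp.1.trans hq.1.symm) hne
    rw [hp.1] at hs
    have := dist_triangle_right (V.ps p) (V.ps q) z
    have h5 := hy2'.trans_le (min_le_left _ _)
    linarith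
  refine ⟨{x | |T x - T x₀| < 1} ∩ {x | dist x x₀ < 1}, ?_, ?_⟩
  · apply Filter.inter_mem
    · have : Continuous (fun x : Ω => |T x - T x₀|) := (hT.sub continuous_const).abs
      apply (isOpen_lt this continuous_const).mem_nhds
      simp
    · have : Continuous (fun x : Ω => dist x x₀) := by fun_prop
      apply (isOpen_lt this continuous_const).mem_nhds
      simp
  · apply Set.Finite.subset (Set.Finite.biUnion (Finset.finite_toSet (Finset.Icc a e))
      (fun j _ => hfinj j))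
    rintro p ⟨x, hx1, hx2, hx3⟩
    simp only [mem_ofPred_eq] at hx2 hx3
    have hx1' : Uf V T c p x ≠ 0 := hx1
    have hpos : 0 < Uf V T c p x := lt_of_le_of_ne (Uf_nonneg _ _ _ _ _) (Ne.symm hx1')
    obtain ⟨h1, h2⟩ := Uf_pos hpos
    have h3 : 0 < V.hat p x := lt_of_le_of_lt (hc p).1 h2
    have h4 := V.dist_of_hat p h3
    rw [abs_lt] at h1 hx2
    have ha : a ≤ V.lv p := by
      have : ((a : ℤ) : ℝ) ≤ V.lv p := by
        have := Int.floor_le (T x₀)
        simp only [a]; push_cast; linarith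
      exact_mod_cast this
    have hb : V.lv p ≤ e := by
      have : (V.lv p : ℝ) ≤ e := by
        have := Int.le_ceil (T x₀)
        simp only [e]; push_cast; linarith
      exact_mod_cast this
    rw [mem_iUnion₂]
    refine ⟨V.lv p, Finset.mem_coe.2 (Finset.mem_Icc.2 ⟨ha, hb⟩), rfl, ?_⟩
    have := dist_triangle_left (V.ps p) (x₀ : X) (x : X)
    have hx3' : dist (x : X) (x₀ : X) < 1 := hx3
    linarith

/-- existence of the scale function -/
theorem Dat.exists_scale (h : Dat μ Ω ρ n b A Cd ok) {Lam : ℝ} (hLam : 0 < Lam) (Js : Set ℝ)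
    (hJ : ∀ s ∈ Js, ∀ t, s ≤ t → t ∈ Js)
    (hne : ∀ x : Ω, ∃ t : ℝ, t ∈ Js ∨ Lam ≤ pot μ ρ x (192 * (2 : ℝ) ^ t))
    (hJb : BddBelow Js) :
    ∃ T : Ω → ℝ, Continuous T ∧ ∀ x, ∀ t : ℝ,
      (T x < t → t ∈ Js ∨ Lam < pot μ ρ x (192 * (2 : ℝ) ^ t)) ∧
      (t < T x → t ∉ Js ∧ pot μ ρ x (192 * (2 : ℝ) ^ t) < Lam) := by
  set S : Ω → Set ℝ := fun x => {t | t ∈ Js ∨ Lam ≤ pot μ ρ x (192 * (2 : ℝ) ^ t)} with hS
  have hR : ∀ R : ℝ, 0 < R → ∃ t : ℝ, 192 * (2 : ℝ) ^ t = R := by
    intro R hR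
    refine ⟨Real.logb 2 (R / 192), ?_⟩
    rw [Real.rpow_logb (by norm_num) (by norm_num) (by positivity)]
    field_simp
  have hmono : ∀ t t' : ℝ, t ≤ t' → 192 * (2 : ℝ) ^ t ≤ 192 * (2 : ℝ) ^ t' := by
    intro t t' htt
    gcongr
    norm_num
  have hsmono : ∀ t t' : ℝ, t < t' → 192 * (2 : ℝ) ^ t < 192 * (2 : ℝ) ^ t' := by
    intro t t' htt
    have := Real.rpow_lt_rpow_of_exponent_lt (by norm_num : (1 : ℝ) < 2) htt
    linarith
  obtain ⟨β, hβ⟩ := hJb
  have hbdd : ∀ x, BddBelow (S x) := by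
    intro x
    obtain ⟨R, hR0, hRL⟩ := h.pot_small x.2 hLam
    obtain ⟨t, ht⟩ := hR R hR0
    refine ⟨min β t, fun t' ht' => ?_⟩
    rcases ht' with ht' | ht'
    · exact (min_le_left _ _).trans (hβ ht')
    · by_contra hcon
      push Not at hcon
      have h1 := hcon.trans_le (min_le_right _ _)
      have h2 := ht'.trans (h.pot_mono x.2 (by positivity) (hmono _ _ h1.le))
      rw [ht] at h2
      linarith
  set T : Ω → ℝ := fun x => sInf (S x) with hT
  have hprop : ∀ x, ∀ t : ℝ,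
      (T x < t → t ∈ Js ∨ Lam < pot μ ρ x (192 * (2 : ℝ) ^ t)) ∧
      (t < T x → t ∉ Js ∧ pot μ ρ x (192 * (2 : ℝ) ^ t) < Lam) := by
    intro x t
    constructor
    · intro ht
      obtain ⟨t', ht', ht't⟩ := exists_lt_of_csInf_lt (hne x) ht
      rcases ht' with ht' | ht'
      · exact Or.inl (hJ t' ht' t ht't.le)
      · exact Or.inr (lt_of_le_of_lt ht' (h.pot_strict x.2 (by positivity) (hsmono _ _ ht't)))
    · intro ht
      have h1 : t ∉ S x := fun hcon => absurd ht (not_lt.2 (csInf_le (hbdd x) hcon))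
      rw [hS] at h1
      simp only [mem_ofPred_eq, not_or, not_le] at h1
      exact h1
  refine ⟨T, ?_, hprop⟩
  rw [continuous_iff_continuousAt]
  intro x
  rw [Metric.continuousAt_iff']
  intro ε hε
  have a1 : ∀ᶠ y in 𝓝 x, T y ≤ T x + ε / 2 := by
    rcases (hprop x (T x + ε / 2)).1 (by linarith) with h1 | h1
    · exact Eventually.of_forall fun y => csInf_le (hbdd y) (Or.inl h1)
    · have e1 := ((continuousOn_iff_continuous_restrict.1
        (h.cont_pot (192 * (2 : ℝ) ^ (T x + ε / 2)))).continuousAt (x := x)).eventually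
        (lt_mem_nhds h1)
      filter_upwards [e1] with y hy
      exact csInf_le (hbdd y) (Or.inr hy.le)
  have a2 : ∀ᶠ y in 𝓝 x, T x - ε / 2 ≤ T y := by
    have h2 := (hprop x (T x - ε / 2)).2 (by linarith)
    have e2 := ((continuousOn_iff_continuous_restrict.1
      (h.cont_pot (192 * (2 : ℝ) ^ (T x - ε / 2)))).continuousAt (x := x)).eventually
      (gt_mem_nhds h2.2)
    filter_upwards [e2] with y hy
    by_contra hcon
    push Not at hcon
    rcases (hprop y _).1 hcon with h3 | h3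
    · exact h2.1 h3
    · exact absurd h3 (not_lt.2 (le_of_lt hy))
  filter_upwards [a1, a2] with y hy1 hy2
  rw [Real.dist_eq, abs_lt]
  constructor <;> linarith

/-- the core: a map whose fibres are small or in the same cap -/
theorem Dat.core (h : Dat μ Ω ρ n b A Cd ok) (V : Vs X okl)
    (hokl : ∀ j, okl j → ok (1024 * (2 : ℝ) ^ j)) {k : ℕ} (hk : 0 < k) {η : ℝ} (hη : 0 < η)
    (hη1 : η < 1) (hηb : (n : ℝ) - k * (1 - η) < b) {T : Ω → ℝ} (hT : Continuous T)
    (hT1 : ∀ x : Ω, ∀ j : ℤ, okl j → T x < j → LamC n k b A Cd η < pot μ ρ x (192 * (2 : ℝ) ^ j))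
    {Y : Type} (τ : Y → Ω → ℝ) (hτc : ∀ y, Continuous (τ y))
    (hτf : LocallyFinite fun y => Function.support (τ y)) (hτ0 : ∀ y x, 0 ≤ τ y x)
    (hτ1 : ∀ y y' x, 0 < τ y x → 0 < τ y' x → y = y')
    (J : ℤ) (hJ : ∀ y x, 0 < τ y x → ∀ i : ℤ, okl i → |T x - ((i : ℝ) - 1)| < 1 → i = J)
    (hcov : ∀ x, okl (round (T x) + 1) ∨ ∃ y, 0 < τ y x) :
    ∃ lam : V.ι ⊕ Y → Ω → ℝ, TP.Bary Ω (V.ι ⊕ Y) k lam ∧ ∀ v x y, 0 < lam v x → 0 < lam v y →
      (∃ p : V.ι, |T x - ((V.lv p : ℝ) - 1)| < 1 ∧ |T y - ((V.lv p : ℝ) - 1)| < 1 ∧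
        dist (x : X) (V.ps p) < 2 * (2 : ℝ) ^ V.lv p ∧ dist (y : X) (V.ps p) < 2 * (2 : ℝ) ^ V.lv p) ∨
      ∃ z : Y, 0 < τ z x ∧ 0 < τ z y := by
  classical
  obtain ⟨c, hc, hgen⟩ := h.generic V hokl hk hη hη1 hηb
  set U : V.ι ⊕ Y → Ω → ℝ := fun v => Sum.elim (Uf V T c) τ v with hU
  have hUl : ∀ p, U (Sum.inl p) = Uf V T c p := fun p => rfl
  have hUr : ∀ y, U (Sum.inr y) = τ y := fun y => rfl
  obtain ⟨lam, hB, hlU⟩ := exists_bary k U
    (by
      rintro (p | y)
      · exact continuous_Uf V hT c p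
      · exact hτc y)
    (by
      have h1 := h.locallyFinite_Uf V hokl hT c hc
      intro x
      obtain ⟨N₁, hN₁, hf₁⟩ := h1 x
      obtain ⟨N₂, hN₂, hf₂⟩ := hτf x
      refine ⟨N₁ ∩ N₂, Filter.inter_mem hN₁ hN₂, ?_⟩
      refine ((hf₁.image Sum.inl).union (hf₂.image Sum.inr)).subset ?_
      rintro (p | y) ⟨z, hz1, hz2, hz3⟩
      · exact Or.inl ⟨p, ⟨z, hz1, hz2⟩, rfl⟩
      · exact Or.inr ⟨y, ⟨z, hz1, hz3⟩, rfl⟩)
    (by
      intro x
      rcases hcov x with h1 | ⟨y, hy⟩
      · obtain ⟨p, hp⟩ := exists_Uf_pos V T c hc x h1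
        exact ⟨Sum.inl p, hp⟩
      · exact ⟨Sum.inr y, hy⟩)
    (by
      intro x S hS hpos heq
      -- the general contradiction
      have hcontra : ∀ (j : ℤ) (P B : Fin k → V.ι), okl j → T x < j → Function.Injective P →
          (∀ i l, B i ≠ P l) → (∀ i, Sum.inl (P i) ∈ S) → (∀ i, Sum.inl (B i) ∈ S) →
          (∀ i, V.lv (P i) = V.lv (B i)) →
          (∀ q, (∃ i, q = P i ∨ q = B i) → V.lv q = j ∨ V.lv q = j - 1) → False := by
        intro j P B hj hTj hinj hne hP hB hPB hlev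
        have hle := hgen x x.2 j P B hj hinj hne hlev
          (by
            rintro q ⟨i, rfl | rfl⟩
            · exact lt_of_le_of_lt (hc _).1 (Uf_pos (hpos _ (hP i))).2
            · exact lt_of_le_of_lt (hc _).1 (Uf_pos (hpos _ (hB i))).2)
          (by
            intro i
            have e1 := heq _ (hP i) _ (hB i)
            rw [hUl, hUl, Uf_eq (hpos _ (hP i)), Uf_eq (hpos _ (hB i)), ← hPB i] at e1
            have h1 := (Uf_pos (hpos _ (hP i))).1
            exact mul_left_cancel₀ (by linarith) e1)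
        exact absurd hle (not_le.2 (hT1 x j hj hTj))
      by_cases hcap : ∃ y, Sum.inr y ∈ S
      · obtain ⟨y, hy⟩ := hcap
        have hτy : 0 < τ y x := hpos _ hy
        -- all other vertices are ordinary
        set S' : Finset V.ι := (S.erase (Sum.inr y)).preimage Sum.inl
          (Sum.inl_injective.injOn) with hS'
        have himg : S'.image Sum.inl = S.erase (Sum.inr y) := by
          rw [hS', Finset.image_preimage]
          apply Finset.filter_true_of_mem
          intro v hv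
          rcases v with p | y'
          · exact ⟨p, rfl⟩
          · exfalso
            have h2 := (Finset.mem_erase.1 hv)
            exact h2.1 (by rw [hτ1 y' y x (hpos _ h2.2) hτy])
        have hcard : S'.card = k + 1 := by
          rw [← Finset.card_image_of_injective S' (f := (Sum.inl : V.ι → V.ι ⊕ Y))
            Sum.inl_injective, himg, Finset.card_erase_of_mem hy, hS]
          rfl
        have hmem : ∀ p ∈ S', Sum.inl p ∈ S := by
          intro p hp
          have : (Sum.inl p : V.ι ⊕ Y) ∈ S'.image Sum.inl := Finset.mem_image_of_mem _ hp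
          rw [himg] at this
          exact (Finset.mem_erase.1 this).2
        have hlev : ∀ p ∈ S', V.lv p = J := by
          intro p hp
          exact hJ y x hτy (V.lv p) (V.okv p) (Uf_pos (hpos _ (hmem p hp))).1
        obtain ⟨P, B, hinj, hne, hPS, hBS, hPB⟩ := exists_bases_one V.lv k S' hcard J hlev
        have hJok : okl J := by
          rw [← hlev _ (hPS ⟨0, hk⟩)]
          exact V.okv _
        refine hcontra J P B hJok ?_ hinj hne (fun i => hmem _ (hPS i)) (fun i => hmem _ (hBS i))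
          hPB ?_
        · have h1 := (Uf_pos (hpos _ (hmem _ (hPS ⟨0, hk⟩)))).1
          rw [hlev _ (hPS ⟨0, hk⟩), abs_lt] at h1
          linarith
        · rintro q ⟨i, rfl | rfl⟩
          · exact Or.inl (hlev _ (hPS i))
          · exact Or.inl (hlev _ (hBS i))
      · push Not at hcap
        set S' : Finset V.ι := S.preimage Sum.inl (Sum.inl_injective.injOn) with hS'
        have himg : S'.image Sum.inl = S := by
          rw [hS', Finset.image_preimage]
          apply Finset.filter_true_of_mem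
          intro v hv
          rcases v with p | y'
          · exact ⟨p, rfl⟩
          · exact absurd hv (hcap y')
        have hcard : S'.card = k + 2 := by
          rw [← Finset.card_image_of_injective S' (f := (Sum.inl : V.ι → V.ι ⊕ Y))
            Sum.inl_injective, himg, hS]
        have hmem : ∀ p ∈ S', Sum.inl p ∈ S := by
          intro p hp
          rw [← himg]
          exact Finset.mem_image_of_mem _ hp
        have hne' : S'.Nonempty := by rw [← Finset.card_pos]; omega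
        obtain ⟨q, hq, hqmax⟩ := Finset.exists_max_image S' (fun p => V.lv p) hne'
        have hTq := (Uf_pos (hpos _ (hmem q hq))).1
        rw [abs_lt] at hTq
        have hlev : ∀ p ∈ S', V.lv p = V.lv q ∨ V.lv p = V.lv q - 1 := by
          intro p hp
          have hTp := (Uf_pos (hpos _ (hmem p hp))).1
          rw [abs_lt] at hTp
          have h1 : V.lv p ≤ V.lv q := hqmax p hp
          have h2 : (V.lv q : ℝ) - V.lv p < 2 := by linarith
          have h3 : V.lv q - V.lv p < 2 := by exact_mod_cast h2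
          omega
        obtain ⟨P, B, hinj, hne, hPS, hBS, hPB⟩ := exists_bases' V.lv k S' hcard (V.lv q) hlev
        refine hcontra (V.lv q) P B (V.okv q) (by linarith) hinj hne (fun i => hmem _ (hPS i))
          (fun i => hmem _ (hBS i)) hPB ?_
        rintro q' ⟨i, rfl | rfl⟩
        · exact hlev _ (hPS i)
        · exact hlev _ (hBS i))
  refine ⟨lam, hB, fun v x y hv hv' => ?_⟩
  have hUx := hlU x v hv
  have hUy := hlU y v hv'
  rcases v with p | z
  · left
    refine ⟨p, (Uf_pos hUx).1, (Uf_pos hUy).1, ?_, ?_⟩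
    · exact V.dist_of_hat p (lt_of_le_of_lt (hc p).1 (Uf_pos hUx).2)
    · exact V.dist_of_hat p (lt_of_le_of_lt (hc p).1 (Uf_pos hUy).2)
  · exact Or.inr ⟨z, hUx, hUy⟩

end

end Vale.Agent.P210.Cw.Om
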