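import Vale.Agent.P210.Cx.Core

/-!
# The map to a complex, with clusters of vertices of the last level
-/

open scoped ENNReal NNReal Topology
open MeasureTheory Set Metric Filter

set_option linter.all false

noncomputable section

namespace Vale.Agent.P210.Cw.Om

variable {X : Type} [MetricSpace X] {okl : ℤ → Prop} {Ω : Set X}

theorem iSup_lip {ι : Type} (f : ι → X → ℝ) {K : ℝ} (hK : 0 ≤ K) (h1 : ∀ i x, f i x ≤ 1)
    (hf : ∀ i x y, |f i y - f i x| ≤ K * dist x y) (x y : X) :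
    |(⨆ i, f i y) - ⨆ i, f i x| ≤ K * dist x y := by
  rcases isEmpty_or_nonempty ι with h | h
  · rw [Real.iSup_of_isEmpty, Real.iSup_of_isEmpty, sub_zero, abs_zero]
    positivity
  · have hb : ∀ x, BddAbove (range fun i => f i x) := fun x => ⟨1, by
      rintro _ ⟨i, rfl⟩
      exact h1 i x⟩
    have key : ∀ x y, (⨆ i, f i y) ≤ (⨆ i, f i x) + K * dist x y := by
      intro x y
      apply ciSup_le
      intro i
      have h2 := le_ciSup (hb x) i
      have h3 := (abs_le.1 (hf i x y)).2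
      linarith
    have h4 := key x y
    have h5 := key y x
    rw [dist_comm y x] at h5
    rw [abs_le]
    constructor <;> linarith

/-- the function of a cluster -/
def Gc {Y : Type} (V : Vs X okl) (J : ℤ) (cl : V.ι → Option Y) (c : V.ι → ℝ) (y : Y) (x : X) : ℝ :=
  ⨆ p : {p : V.ι // V.lv p = J ∧ cl p = some y}, max 0 (V.hat p x - c p)

theorem hat_le_one (V : Vs X okl) (p : V.ι) (x : X) : V.hat p x ≤ 1 := by
  unfold Vs.hat
  apply max_le zero_le_one
  have : 0 ≤ dist x (V.ps p) / (2 * (2 : ℝ) ^ V.lv p) := by positivity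
  linarith

theorem Gc_lip {Y : Type} (V : Vs X okl) (J : ℤ) (cl : V.ι → Option Y) {c : V.ι → ℝ}
    (hc : ∀ p, c p ∈ Icc (0 : ℝ) (1 / 4)) (y : Y) (x x' : X) :
    |Gc V J cl c y x' - Gc V J cl c y x| ≤ ((2 : ℝ) ^ J)⁻¹ * dist x x' := by
  unfold Gc
  apply iSup_lip (fun (p : {p : V.ι // V.lv p = J ∧ cl p = some y}) x => max 0 (V.hat p x - c p))
  · positivity
  · intro p x
    apply max_le zero_le_one
    have h1 := hat_le_one V p x
    have h2 := (hc p).1
    linarith
  · intro p x y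
    have h1 := V.hat_lip p (j := J) (by rw [p.2.1]; omega) x y
    refine le_trans ?_ h1
    have h2 := abs_max_sub_max_le_abs (V.hat p y - c p) (V.hat p x - c p) 0
    rw [max_comm _ (0 : ℝ), max_comm _ (0 : ℝ)] at h2
    rwa [show V.hat p y - c p - (V.hat p x - c p) = V.hat p y - V.hat p x by ring] at h2

theorem continuous_Gc {Y : Type} (V : Vs X okl) (J : ℤ) (cl : V.ι → Option Y) {c : V.ι → ℝ}
    (hc : ∀ p, c p ∈ Icc (0 : ℝ) (1 / 4)) (y : Y) : Continuous (Gc V J cl c y) := by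
  have h : LipschitzWith (Real.toNNReal (((2 : ℝ) ^ J)⁻¹)) (Gc V J cl c y) := by
    apply LipschitzWith.of_dist_le_mul
    intro a b
    rw [Real.coe_toNNReal _ (by positivity), Real.dist_eq, dist_comm a b]
    exact Gc_lip V J cl hc y b a
  exact h.continuous

theorem Gc_nonneg {Y : Type} (V : Vs X okl) (J : ℤ) (cl : V.ι → Option Y) (c : V.ι → ℝ)
    (y : Y) (x : X) : 0 ≤ Gc V J cl c y x := Real.iSup_nonneg fun _ => le_max_left _ _

theorem Gc_ge {Y : Type} (V : Vs X okl) {J : ℤ} {cl : V.ι → Option Y} {c : V.ι → ℝ}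
    (hc : ∀ p, c p ∈ Icc (0 : ℝ) (1 / 4)) {y : Y} {p : V.ι} (hp : V.lv p = J)
    (hy : cl p = some y) (x : X) : V.hat p x - c p ≤ Gc V J cl c y x := by
  have hb : BddAbove (range fun p : {p : V.ι // V.lv p = J ∧ cl p = some y} =>
      max 0 (V.hat p x - c p)) := ⟨1, by
    rintro _ ⟨i, rfl⟩
    apply max_le zero_le_one
    have h1 := hat_le_one V i x
    have h2 := (hc i).1
    linarith⟩
  exact (le_max_right _ _).trans (le_ciSup hb ⟨p, hp, hy⟩)

section

variable [ProperSpace X]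

theorem finite_near (V : Vs X okl) (j : ℤ) (x₀ : X) (R : ℝ) :
    {p : V.ι | V.lv p = j ∧ dist (V.ps p) x₀ ≤ R}.Finite := by
  have hcomp : IsCompact (closedBall x₀ R) := isCompact_closedBall _ _
  by_contra hcon
  have hinf : ({p : V.ι | V.lv p = j ∧ dist (V.ps p) x₀ ≤ R} : Set V.ι).Infinite := hcon
  have hinj : InjOn V.ps {p : V.ι | V.lv p = j ∧ dist (V.ps p) x₀ ≤ R} := by
    intro p hp q hq h
    exact V.inj p q (hp.1.trans hq.1.symm) h
  have hinf2 := hinf.image hinj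
  obtain ⟨z, hz, hacc⟩ := hinf2.exists_accPt_of_subset_isCompact hcomp (by
    rintro _ ⟨p, hp, rfl⟩
    exact hp.2)
  rw [accPt_iff_frequently] at hacc
  have h2j : (0 : ℝ) < (2 : ℝ) ^ j := by positivity
  have h1 := hacc.and_eventually (ball_mem_nhds z (ε := (2 : ℝ) ^ j / 2) (by positivity))
  obtain ⟨y, ⟨hyz, p, hp, rfl⟩, hy2⟩ := h1.exists
  have hd : 0 < dist (V.ps p) z := dist_pos.2 hyz
  have h2 := hacc.and_eventually (ball_mem_nhds z (ε := min ((2 : ℝ) ^ j / 2)
    (dist (V.ps p) z)) (lt_min (by positivity) hd))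
  obtain ⟨y', ⟨hyz', q, hq, rfl⟩, hy2'⟩ := h2.exists
  have hne : p ≠ q := by
    rintro rfl
    exact absurd (hy2'.trans_le (min_le_right _ _)) (lt_irrefl _)
  have hs := V.sep p q (hp.1.trans hq.1.symm) hne
  rw [hp.1] at hs
  have := dist_triangle_right (V.ps p) (V.ps q) z
  have h5 := hy2'.trans_le (min_le_left _ _)
  linarith

theorem Gc_att {Y : Type} (V : Vs X okl) {J : ℤ} {cl : V.ι → Option Y} {c : V.ι → ℝ}
    (hc : ∀ p, c p ∈ Icc (0 : ℝ) (1 / 4)) {y : Y} {x : X} (h : 0 < Gc V J cl c y x) :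
    ∃ p, V.lv p = J ∧ cl p = some y ∧ Gc V J cl c y x = V.hat p x - c p ∧ 0 < V.hat p x - c p := by
  classical
  have hfin : {p : V.ι | V.lv p = J ∧ cl p = some y ∧ 0 < V.hat p x}.Finite := by
    refine (finite_near V J x (2 * (2 : ℝ) ^ J)).subset fun p hp => ⟨hp.1, ?_⟩
    have := V.dist_of_hat p hp.2.2
    rw [dist_comm, ← hp.1]
    exact this.le
  set P0 := hfin.toFinset with hP0
  have hmem : ∀ p, p ∈ P0 ↔ V.lv p = J ∧ cl p = some y ∧ 0 < V.hat p x := by
    intro p
    simp [hP0]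
  obtain ⟨⟨p₁, hp₁J, hp₁y⟩, hp₁⟩ : ∃ p : {p : V.ι // V.lv p = J ∧ cl p = some y},
      0 < max 0 (V.hat p x - c p) := by
    by_contra hcon
    push Not at hcon
    have : Gc V J cl c y x ≤ 0 := Real.iSup_nonpos hcon
    linarith
  have h1 : 0 < V.hat p₁ x - c p₁ := by
    rcases lt_max_iff.1 hp₁ with h2 | h2
    · exact absurd h2 (lt_irrefl _)
    · exact h2
  have hne : P0.Nonempty := ⟨p₁, (hmem _).2 ⟨hp₁J, hp₁y, by linarith [(hc p₁).1]⟩⟩
  obtain ⟨p, hp, hmax⟩ := Finset.exists_max_image P0 (fun p => V.hat p x - c p) hne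
  have hp' := (hmem p).1 hp
  have h2 : V.hat p₁ x - c p₁ ≤ V.hat p x - c p :=
    hmax p₁ ((hmem _).2 ⟨hp₁J, hp₁y, by linarith [(hc p₁).1]⟩)
  refine ⟨p, hp'.1, hp'.2.1, le_antisymm ?_ (Gc_ge V hc hp'.1 hp'.2.1 x), by linarith⟩
  haveI : Nonempty {p : V.ι // V.lv p = J ∧ cl p = some y} := ⟨⟨p, hp'.1, hp'.2.1⟩⟩
  apply ciSup_le
  rintro ⟨q, hqJ, hqy⟩
  apply max_le (by linarith)
  show V.hat q x - c q ≤ _
  by_cases hq : 0 < V.hat q x
  · exact hmax q ((hmem _).2 ⟨hqJ, hqy, hq⟩)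
  · have := (hc q).1
    linarith

variable [MeasurableSpace X] [BorelSpace X]
variable {μ : Measure X} {ρ : X → ℝ} {n : ℕ} {b A Cd : ℝ} {ok : ℝ → Prop}

/-- the core: a map whose fibres are small or in the same cluster -/
theorem Dat.coreM (h : Dat μ Ω ρ n b A Cd ok) (V : Vs X okl)
    (hokl : ∀ j, okl j → ok (1024 * (2 : ℝ) ^ j)) {k : ℕ} (hk : 0 < k) {η : ℝ} (hη : 0 < η)
    (hη1 : η < 1) (hηb : (n : ℝ) - k * (1 - η) < b) {T : Ω → ℝ} (hT : Continuous T)
    (hT1 : ∀ x : Ω, ∀ j : ℤ, okl j → T x < j → LamC n k b A Cd η < pot μ ρ x (192 * (2 : ℝ) ^ j))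
    {Y : Type} (J : ℤ) (τ : Ω → ℝ) (hτc : Continuous τ) (hτ0 : ∀ x, 0 ≤ τ x)
    (hτJ : ∀ x, 0 < τ x → (J : ℝ) - 2 < T x) (cl : V.ι → Option Y)
    (hmul : ∀ x (S : Finset Y), 0 < τ x →
      (∀ y ∈ S, ∃ p, V.lv p = J ∧ cl p = some y ∧ 0 < V.hat p x) → S.card ≤ k + 1)
    (hcov : ∀ x, (okl (round (T x) + 1) ∧ round (T x) + 1 < J) ∨
      (0 < τ x ∧ ∃ p y, V.lv p = J ∧ cl p = some y ∧ 1 / 2 < V.hat p x)) :
    ∃ lam : V.ι ⊕ Y → Ω → ℝ, TP.Bary Ω (V.ι ⊕ Y) k lam ∧ ∀ v x y, 0 < lam v x → 0 < lam v y →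
      (∃ p : V.ι, |T x - ((V.lv p : ℝ) - 1)| < 1 ∧ |T y - ((V.lv p : ℝ) - 1)| < 1 ∧
        dist (x : X) (V.ps p) < 2 * (2 : ℝ) ^ V.lv p ∧ dist (y : X) (V.ps p) < 2 * (2 : ℝ) ^ V.lv p) ∨
      ∃ z : Y, (0 < τ x ∧ ∃ p, V.lv p = J ∧ cl p = some z ∧ 0 < V.hat p x) ∧
        0 < τ y ∧ ∃ p, V.lv p = J ∧ cl p = some z ∧ 0 < V.hat p y := by
  classical
  obtain ⟨c, hc, hgen⟩ := h.generic V hokl hk hη hη1 hηb
  set U₁ : V.ι → Ω → ℝ := fun p => if V.lv p < J then Uf V T c p else fun _ => 0 with hU₁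
  set U₂ : Y → Ω → ℝ := fun y x => τ x * Gc V J cl c y x with hU₂
  set U : V.ι ⊕ Y → Ω → ℝ := fun v => Sum.elim U₁ U₂ v with hU
  have hUl : ∀ p, U (Sum.inl p) = U₁ p := fun p => rfl
  have hUr : ∀ y, U (Sum.inr y) = U₂ y := fun y => rfl
  have hU₁p : ∀ p x, 0 < U₁ p x → V.lv p < J ∧ 0 < Uf V T c p x ∧ U₁ p x = Uf V T c p x := by
    intro p x hp
    simp only [hU₁] at hp ⊢
    split_ifs at hp ⊢ with h1
    · exact ⟨h1, hp, rfl⟩
    · exact absurd hp (lt_irrefl _)
  have hU₂p : ∀ y x, 0 < U₂ y x → 0 < τ x ∧ 0 < Gc V J cl c y x := by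
    intro y x hp
    simp only [hU₂] at hp
    have h1 := hτ0 x
    have h2 := Gc_nonneg V J cl c y (x : X)
    constructor
    · exact pos_of_mul_pos_left hp h2
    · exact pos_of_mul_pos_right hp h1
  -- representatives
  have hrep : ∀ (x : Ω) (v : V.ι ⊕ Y), 0 < U v x → ∃ q : V.ι, 0 < V.hat q x - c q ∧
      ((v = Sum.inl q ∧ V.lv q < J ∧ |T x - ((V.lv q : ℝ) - 1)| < 1 ∧
          U v x = (1 - |T x - ((V.lv q : ℝ) - 1)|) * (V.hat q x - c q)) ∨
        (∃ y, v = Sum.inr y ∧ cl q = some y ∧ V.lv q = J ∧ 0 < τ x ∧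
          U v x = τ x * (V.hat q x - c q))) := by
    rintro x (p | y) hv
    · obtain ⟨h1, h2, h3⟩ := hU₁p p x hv
      obtain ⟨h4, h5⟩ := Uf_pos h2
      exact ⟨p, by linarith, Or.inl ⟨rfl, h1, h4, h3.trans (Uf_eq h2)⟩⟩
    · obtain ⟨h1, h2⟩ := hU₂p y x hv
      obtain ⟨q, hq1, hq2, hq3, hq4⟩ := Gc_att V hc h2
      refine ⟨q, hq4, Or.inr ⟨y, rfl, hq2, hq1, h1, ?_⟩⟩
      show τ x * Gc V J cl c y x = _
      rw [hq3]
  obtain ⟨lam, hB, hlU⟩ := exists_bary k U
    (by
      rintro (p | y)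
      · show Continuous (U₁ p)
        simp only [hU₁]
        split_ifs
        · exact continuous_Uf V hT c p
        · exact continuous_const
      · exact hτc.mul ((continuous_Gc V J cl hc y).comp continuous_subtype_val))
    (by
      have h1 := h.locallyFinite_Uf V hokl hT c hc
      intro x
      obtain ⟨N₁, hN₁, hf₁⟩ := h1 x
      have hf₂ := finite_near V J (x : X) (1 + 2 * (2 : ℝ) ^ J)
      refine ⟨N₁ ∩ ball x 1, Filter.inter_mem hN₁ (ball_mem_nhds x one_pos), ?_⟩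
      refine ((hf₁.image Sum.inl).union (((hf₂.image cl).preimage
        (Option.some_injective Y).injOn).image Sum.inr)).subset ?_
      rintro (p | y) ⟨z, hz1, hz2, hz3⟩
      · refine Or.inl ⟨p, ⟨z, ?_, hz2⟩, rfl⟩
        rw [Function.mem_support] at hz1 ⊢
        intro hcon
        apply hz1
        show U₁ p z = 0
        simp only [hU₁]
        split_ifs
        · exact hcon
        · rfl
      · refine Or.inr ⟨y, ?_, rfl⟩
        have h0 : U₂ y z ≠ 0 := hz1
        have h2 : 0 < U₂ y z := lt_of_le_of_ne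
          (mul_nonneg (hτ0 z) (Gc_nonneg V J cl c y _)) (Ne.symm h0)
        obtain ⟨q, hq1, hq2, hq3, hq4⟩ := Gc_att V hc (hU₂p y z h2).2
        refine ⟨q, ⟨hq1, ?_⟩, hq2⟩
        have h3 := V.dist_of_hat q (x := (z : X)) (by linarith [(hc q).1])
        rw [hq1] at h3
        have h4 : dist (z : X) x < 1 := hz3
        have := dist_triangle_left (V.ps q) (x : X) (z : X)
        linarith)
    (by
      intro x
      rcases hcov x with ⟨h1, h2⟩ | ⟨h1, p, y, h2, h3, h4⟩
      · obtain ⟨p, hp, hh⟩ := V.exists_hat h1 (x : X)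
        refine ⟨Sum.inl p, ?_⟩
        show 0 < U₁ p x
        simp only [hU₁]
        rw [if_pos (by omega)]
        have h3 : |T x - ((V.lv p : ℝ) - 1)| ≤ 1 / 2 := by
          have := abs_sub_round (T x)
          rw [hp]
          simpa using this
        have h4 := (hc p).2
        unfold Uf
        apply mul_pos
        · rw [lt_max_iff]; right; linarith
        · rw [lt_max_iff]; right; linarith
      · refine ⟨Sum.inr y, ?_⟩
        show 0 < τ x * Gc V J cl c y x
        have h5 := Gc_ge V hc h2 h3 (x : X)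
        have h6 := (hc p).2
        exact mul_pos h1 (by linarith))
    (by
      intro x S hS hpos heq
      have hrep' : ∀ v : V.ι ⊕ Y, ∃ q : V.ι, v ∈ S → (0 < V.hat q x - c q ∧
          ((v = Sum.inl q ∧ V.lv q < J ∧ |T x - ((V.lv q : ℝ) - 1)| < 1 ∧
            U v x = (1 - |T x - ((V.lv q : ℝ) - 1)|) * (V.hat q x - c q)) ∨
          (∃ y, v = Sum.inr y ∧ cl q = some y ∧ V.lv q = J ∧ 0 < τ x ∧
            U v x = τ x * (V.hat q x - c q)))) := by
        intro v
        by_cases hv : v ∈ S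
        · obtain ⟨q, hq⟩ := hrep x v (hpos v hv)
          exact ⟨q, fun _ => hq⟩
        · obtain ⟨v₀, hv₀⟩ : S.Nonempty := by rw [← Finset.card_pos]; omega
          obtain ⟨q, hq⟩ := hrep x v₀ (hpos v₀ hv₀)
          exact ⟨q, fun hh => absurd hh hv⟩
      choose f hf using hrep'
      have hinjf : Set.InjOn f S := by
        intro v hv v' hv' hff
        obtain ⟨-, h1⟩ := hf v hv
        obtain ⟨-, h2⟩ := hf v' hv'
        rw [← hff] at h2
        rcases h1 with ⟨a1, a2, -⟩ | ⟨y, a1, a2, a3, -⟩ <;>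
          rcases h2 with ⟨b1, b2, -⟩ | ⟨y', b1, b2, b3, -⟩
        · rw [a1, b1]
        · omega
        · omega
        · rw [a1, b1]
          rw [a2] at b2
          rw [Option.some_injective Y b2]
      set S' : Finset V.ι := S.image f with hS'
      have hcard : S'.card = k + 2 := by
        rw [hS', Finset.card_image_of_injOn hinjf, hS]
      -- there is an ordinary vertex
      obtain ⟨q₀, hq₀S, hq₀J, hq₀T⟩ : ∃ q₀ ∈ S', V.lv q₀ < J ∧
          |T x - ((V.lv q₀ : ℝ) - 1)| < 1 := by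
        by_contra hcon
        push Not at hcon
        have hall : ∀ v ∈ S, ∃ y, v = Sum.inr y ∧ cl (f v) = some y ∧ V.lv (f v) = J ∧ 0 < τ x := by
          intro v hv
          obtain ⟨-, h1⟩ := hf v hv
          rcases h1 with ⟨a1, a2, a3, -⟩ | ⟨y, a1, a2, a3, a4, -⟩
          · exact absurd a3 (not_lt.2 (hcon _ (Finset.mem_image_of_mem _ hv) a2))
          · exact ⟨y, a1, a2, a3, a4⟩
        set SY : Finset Y := S.preimage Sum.inr (Sum.inr_injective.injOn) with hSY
        have himg : SY.image Sum.inr = S := by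
          rw [hSY, Finset.image_preimage]
          apply Finset.filter_true_of_mem
          intro v hv
          obtain ⟨y, hy, -⟩ := hall v hv
          exact ⟨y, hy.symm⟩
        have hSYc : SY.card = k + 2 := by
          rw [← Finset.card_image_of_injective SY (f := (Sum.inr : Y → V.ι ⊕ Y))
            Sum.inr_injective, himg, hS]
        have hτx : 0 < τ x := by
          obtain ⟨v₀, hv₀⟩ : S.Nonempty := by rw [← Finset.card_pos]; omega
          obtain ⟨y, -, -, -, h4⟩ := hall v₀ hv₀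
          exact h4
        have := hmul x SY hτx (by
          intro y hy
          have hyS : Sum.inr y ∈ S := by
            rw [← himg]
            exact Finset.mem_image_of_mem _ hy
          obtain ⟨y', h1, h2, h3, -⟩ := hall _ hyS
          have h4 := (hf _ hyS).1
          refine ⟨f (Sum.inr y), h3, ?_, by linarith [(hc (f (Sum.inr y))).1]⟩
          rw [h2, Sum.inr_injective h1])
        omega
      -- levels and the equations
      have hprop : ∀ q ∈ S', 0 < V.hat q x - c q ∧ V.lv q ≤ J ∧ T x < V.lv q ∧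
          ((V.lv q : ℝ) - 2 < T x) := by
        intro q hq
        rw [hS', Finset.mem_image] at hq
        obtain ⟨v, hv, rfl⟩ := hq
        obtain ⟨h0, h1⟩ := hf v hv
        rw [abs_lt] at hq₀T
        rcases h1 with ⟨a1, a2, a3, -⟩ | ⟨y, a1, a2, a3, a4, -⟩
        · rw [abs_lt] at a3
          exact ⟨h0, a2.le, by linarith, by linarith⟩
        · have h5 := hτJ x a4
          have h6 : (V.lv q₀ : ℝ) < J := by exact_mod_cast hq₀J
          rw [a3]
          exact ⟨h0, le_refl J, by linarith, h5⟩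
      have heq' : ∀ q ∈ S', ∀ q' ∈ S', V.lv q = V.lv q' →
          V.hat q x - c q = V.hat q' x - c q' := by
        intro q hq q' hq' hll
        rw [hS', Finset.mem_image] at hq hq'
        obtain ⟨v, hv, rfl⟩ := hq
        obtain ⟨v', hv', rfl⟩ := hq'
        obtain ⟨-, h1⟩ := hf v hv
        obtain ⟨-, h2⟩ := hf v' hv'
        have e := heq v hv v' hv'
        rcases h1 with ⟨a1, a2, a3, a4⟩ | ⟨y, a1, a2, a3, a4, a5⟩ <;>
          rcases h2 with ⟨b1, b2, b3, b4⟩ | ⟨y', b1, b2, b3, b4, b5⟩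
        · rw [a4, b4, ← hll] at e
          exact mul_left_cancel₀ (by linarith) e
        · omega
        · omega
        · rw [a5, b5] at e
          exact mul_left_cancel₀ (by linarith) e
      obtain ⟨q, hq, hqmax⟩ := Finset.exists_max_image S' (fun p => V.lv p) ⟨q₀, hq₀S⟩
      have hlev : ∀ p ∈ S', V.lv p = V.lv q ∨ V.lv p = V.lv q - 1 := by
        intro p hp
        have h1 : V.lv p ≤ V.lv q := hqmax p hp
        have h2 : (V.lv q : ℝ) - V.lv p < 2 := by
          have := (hprop p hp).2.2.1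
          have := (hprop q hq).2.2.2
          linarith
        have h3 : V.lv q - V.lv p < 2 := by exact_mod_cast h2
        omega
      obtain ⟨P, B, hinj, hne, hPS, hBS, hPB⟩ := exists_bases' V.lv k S' hcard (V.lv q) hlev
      have hle := hgen x x.2 (V.lv q) P B (V.okv q) hinj hne
        (by
          rintro q' ⟨i, rfl | rfl⟩
          · exact hlev _ (hPS i)
          · exact hlev _ (hBS i))
        (by
          rintro q' ⟨i, rfl | rfl⟩
          · have h1 := (hprop _ (hPS i)).1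
            have h2 := (hc (P i)).1
            linarith
          · have h1 := (hprop _ (hBS i)).1
            have h2 := (hc (B i)).1
            linarith)
        (fun i => heq' _ (hPS i) _ (hBS i) (hPB i))
      exact absurd hle (not_le.2 (hT1 x _ (V.okv q) (hprop q hq).2.2.1)))
  refine ⟨lam, hB, fun v x y hv hv' => ?_⟩
  have hUx := hlU x v hv
  have hUy := hlU y v hv'
  rcases v with p | z
  · left
    obtain ⟨-, h1, -⟩ := hU₁p p x hUx
    obtain ⟨-, h2, -⟩ := hU₁p p y hUy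
    refine ⟨p, (Uf_pos h1).1, (Uf_pos h2).1, ?_, ?_⟩
    · exact V.dist_of_hat p (lt_of_le_of_lt (hc p).1 (Uf_pos h1).2)
    · exact V.dist_of_hat p (lt_of_le_of_lt (hc p).1 (Uf_pos h2).2)
  · right
    obtain ⟨h1, h2⟩ := hU₂p z x hUx
    obtain ⟨h3, h4⟩ := hU₂p z y hUy
    obtain ⟨q, hq1, hq2, -, hq4⟩ := Gc_att V hc h2
    obtain ⟨q', hq1', hq2', -, hq4'⟩ := Gc_att V hc h4
    exact ⟨z, ⟨h1, q, hq1, hq2, by linarith [(hc q).1]⟩, h3, q', hq1', hq2',
      by linarith [(hc q').1]⟩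

end

end Vale.Agent.P210.Cw.Om
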