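import Vale.Agent.P210.R2.H53.TAll

/-!
# The width with the spectral condition: small stars
-/

open scoped Manifold ContDiff Topology Bundle ENNReal NNReal
open Set Metric Filter Bundle IsManifold MeasureTheory Manifold

set_option maxSynthPendingDepth 3
set_option linter.all false

noncomputable section

namespace Vale.Agent.P210.Cw.Om

open Vale.Agent.P210 Vale.Agent.P210.R2 Vale.Agent.P210.R2.H53 Vale.Agent.P210.R2.H912

/-- width in terms of barycentric coordinates with small stars -/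
def BWS (X : Type) [MetricSpace X] (d : ℕ) (C : ℝ) : Prop :=
  ∃ (V : Type) (lam : V → X → ℝ), TP.Bary X V d lam ∧
    ∀ v x y, lam v x ≠ 0 → lam v y ≠ 0 → dist x y ≤ C

/-- FINALS with small stars -/
def FINALSS : Prop := ∀ n : ℕ, 3 ≤ n → ∀ γ > 0, ∀ c > 0, ∃ δ > 0, ∃ C : ℝ,
  H53.Stmt.ForR fun E _ _ _ _ _ M _ _ _ _ _ _ _ _ _ => Module.finrank ℝ E = n →
  ∀ μ : Measure M, IsVol E μ → RicGE E M (-δ) → PropS γ c E M μ → BWS M (n - 2) C

/-- [COVC], barycentric form -/
theorem covcS {X : Type} [MetricSpace X] (d D J : ℕ) (R B : ℝ) (S : X → Finset (X × ℝ))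
    (hJ1 : 1 ≤ J) (hJR : (J : ℝ) ≤ R) (hB : 0 ≤ B)
    (hS : ∀ q, ∀ c ∈ S q, 1 ≤ c.2 ∧ 5 * c.2 ≤ J)
    (hSB : ∀ q, ∑ c ∈ S q, c.2 ^ (d + 1) ≤ B)
    (hcov : ∀ q x, dist x q ≤ R → ∃ c ∈ S q, dist x c.1 ≤ c.2)
    (hD : ∀ (q : X) (F : Finset X), (∀ x ∈ F, dist x q ≤ 6 * R) → Sep R (F : Set X) → F.card ≤ D)
    (hlt : (2 * D) ^ D * B < ((J : ℝ) / 5) ^ (d + 1)) :
    ∃ (V : Type) (lam : V → X → ℝ), TP.Bary X V d lam ∧
      ∀ v x y, lam v x ≠ 0 → lam v y ≠ 0 → dist x y ≤ 4 * R := by
  classical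
  have hJ' : (1 : ℝ) ≤ J := by exact_mod_cast hJ1
  have hR0 : 0 < R := by linarith
  obtain ⟨C, -, hCsep, hCmax⟩ := exists_max_sep hR0 (univ : Set X)
  obtain ⟨r, hr, hcount⟩ := exists_radiiC hJ1 hJR hB hS hSB hCsep hcov
    (fun x => hCmax x (mem_univ _)) hD hlt
  have hCfin : ∀ q : X, {i : C | dist (i : X) q ≤ 6 * R}.Finite := by
    intro q
    have h1 : {i : X | i ∈ C ∧ dist i q ≤ 6 * R}.Finite :=
      finite_of_card_le (D := D) fun F hF =>
        hD q F (fun x hx => (hF hx).2) (hCsep.mono fun x hx => (hF hx).1)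
    refine (h1.preimage (f := ((↑) : C → X)) Subtype.val_injective.injOn).subset ?_
    intro i hi
    exact ⟨i.2, hi⟩
  -- the bump covering
  let u : C → X → ℝ := fun i x => max 0 (min 1 (r i + 1 - dist x i))
  have hucont : ∀ i, Continuous (u i) := fun i => by
    simp only [u]
    fun_prop
  have hupos : ∀ (i : C) (x : X), u i x ≠ 0 → dist x i < r i + 1 := by
    intro i x h
    by_contra hcon
    push Not at hcon
    apply h
    simp only [u]
    rw [max_eq_left]
    exact (min_le_right _ _).trans (by linarith)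
  have huone : ∀ (i : C) (x : X), dist x i ≤ r i → u i x = 1 := by
    intro i x h
    simp only [u]
    have : 1 ≤ r i + 1 - dist x i := by linarith
    rw [min_eq_left this, max_eq_right zero_le_one]
  have hule : ∀ i x, u i x ≤ 1 := by
    intro i x
    simp only [u]
    exact max_le zero_le_one (min_le_left _ _)
  have hu0 : ∀ i x, 0 ≤ u i x := fun i x => le_max_left _ _
  have hlf : LocallyFinite fun i : C => Function.support (u i) := by
    intro x
    refine ⟨ball x R, ball_mem_nhds _ hR0, (hCfin x).subset ?_⟩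
    rintro i ⟨y, hy, hyx⟩
    have h1 := hupos i y hy
    have h2 := (hr i i.2).2
    rw [mem_ball] at hyx
    have h3 := dist_triangle_left (i : X) x y
    show dist (i : X) x ≤ 6 * R
    linarith
  let f : BumpCovering C X univ :=
    { toFun := fun i => ⟨u i, hucont i⟩
      locallyFinite' := hlf
      nonneg' := fun i x => hu0 i x
      le_one' := fun i x => hule i x
      eventuallyEq_one' := by
        intro x _
        obtain ⟨c, hcC, hc⟩ := hCmax x (mem_univ _)
        refine ⟨⟨c, hcC⟩, ?_⟩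
        have : ∀ᶠ y in 𝓝 x, dist y c < R :=
          (continuous_id.dist continuous_const).continuousAt.eventually (gt_mem_nhds hc)
        filter_upwards [this] with y hy
        exact huone ⟨c, hcC⟩ y (by
          have := (hr c hcC).1
          exact hy.le.trans this) }
  have hfu : ∀ i x, f i x = u i x := fun i x => rfl
  set ρ := f.toPartitionOfUnity with hρ
  have hρne : ∀ i x, ρ i x ≠ 0 → u i x ≠ 0 ∧ ∀ j, WellOrderingRel j i → u j x ≠ 1 := by
    intro i x hne
    have hne' : f.toPOUFun i x ≠ 0 := hne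
    have hui : u i x ≠ 0 := fun h0 => hne' (f.toPOUFun_zero_of_zero h0)
    refine ⟨hui, fun j hj h1 => hne' ?_⟩
    have hfin : {j | f j x ≠ 0}.Finite := f.point_finite x
    rw [f.toPOUFun_eq_mul_prod i x hfin.toFinset (fun j _ hj => by simpa using hj)]
    have : ∏ j ∈ hfin.toFinset with WellOrderingRel j i, (1 - f j x) = 0 := by
      refine Finset.prod_eq_zero (i := j) ?_ ?_
      · rw [Finset.mem_filter]
        refine ⟨?_, hj⟩
        rw [Finite.mem_toFinset]
        show f j x ≠ 0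
        rw [hfu, h1]
        exact one_ne_zero
      · rw [hfu, h1, sub_self]
    rw [this, mul_zero]
  refine ⟨C, fun i x => ρ i x, ⟨fun i => (ρ i).continuous, fun i x => ρ.nonneg i x,
    ρ.locallyFinite, fun x => ρ.sum_eq_one (mem_univ x), ?_⟩, ?_⟩
  · intro x
    by_contra hcon
    push Not at hcon
    have hfin : {v | ρ v x ≠ 0}.Finite := ρ.locallyFinite.point_finite x
    rw [Set.ncard_eq_toFinset_card _ hfin] at hcon
    set G := hfin.toFinset with hG
    letI : LinearOrder C := linearOrderOfSTO WellOrderingRel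
    have hGne : G.Nonempty := Finset.card_pos.1 (by omega)
    set i₀ := G.max' hGne with hi₀
    have hi₀G : i₀ ∈ G := Finset.max'_mem _ _
    have hi₀' : ρ i₀ x ≠ 0 := by
      have := hi₀G
      rw [hG, Finite.mem_toFinset] at this
      exact this
    set G' := G.erase i₀ with hG'
    have hG'c : d + 1 ≤ G'.card := by
      rw [hG', Finset.card_erase_of_mem hi₀G]
      omega
    have := hcount x (G'.map ⟨Subtype.val, Subtype.val_injective⟩) (by
      intro y hy
      rw [Finset.coe_map] at hy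
      obtain ⟨i, _, rfl⟩ := hy
      exact i.2) (by
      intro y hy
      rw [Finset.mem_map] at hy
      obtain ⟨i, hi, rfl⟩ := hy
      show |dist x (i : X) - r i| ≤ 1
      rw [hG', Finset.mem_erase] at hi
      have hi' : ρ i x ≠ 0 := by
        have := hi.2
        rw [hG, Finite.mem_toFinset] at this
        exact this
      have hlt : i < i₀ := lt_of_le_of_ne (Finset.le_max' _ _ hi.2) hi.1
      have h1 := (hρne i₀ x hi₀').2 i hlt
      have h2 := hupos i x (hρne i x hi').1
      have h3 : r i < dist x i := by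
        by_contra hh
        exact h1 (huone i x (not_lt.1 hh))
      rw [abs_le]
      constructor <;> linarith)
    rw [Finset.card_map] at this
    omega
  · intro i x y hi hi2
    have h1 := hupos i x (hρne i x hi).1
    have h2 := hupos i y (hρne i y hi2).1
    have h3 := (hr i i.2).2
    have h4 := dist_triangle_right x y i
    linarith

/-- COVC with a barycentric conclusion -/
def COVCS : Prop := ∀ n D : ℕ, 3 ≤ n → ∃ ε > 0, ∃ C : ℝ, ∀ (X : Type) [MetricSpace X]
  [ProperSpace X] (R : ℝ), 0 < R →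
  (∀ (x : X) (s : Finset X), (∀ y ∈ s, dist y x ≤ 8 * R) →
    (∀ y ∈ s, ∀ z ∈ s, y ≠ z → R ≤ dist y z) → s.card ≤ D) →
  (∀ x : X, ¬ HCge n 1 (closedBall x (8 * R)) (ε * R ^ (n - 1))) →
  BWS X (n - 2) (C * R)

/-- the width for the class `Q`, barycentric form -/
def FINALQS (n : ℕ) (Q : PropMu) : Prop := ∃ δ > 0, ∃ C : ℝ,
  H53.Stmt.ForR fun E _ _ _ _ _ M _ _ _ _ _ _ _ _ _ => Module.finrank ℝ E = n →
  ∀ μ : Measure M, IsVol E μ → RicGE E M (-δ) → Q E M μ → BWS M (n - 2) C

theorem bws_of_isEmpty {X : Type} [MetricSpace X] [IsEmpty X] (d : ℕ) (C : ℝ) : BWS X d C :=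
  ⟨Empty, fun _ _ => 0, ⟨fun v => v.elim, fun v => v.elim, fun x => isEmptyElim x,
    fun x => isEmptyElim x, fun x => isEmptyElim x⟩, fun v => v.elim⟩

/-- the covering theorem, barycentric form -/
theorem covcs : COVCS := by
  classical
  intro n D hn
  set Q : ℝ := (2 * (D : ℝ)) ^ D + 1 with hQ
  have hQ0 : 0 < Q := by positivity
  have hQ1 : 1 ≤ Q := by
    have : (0 : ℝ) ≤ (2 * (D : ℝ)) ^ D := by positivity
    linarith
  refine ⟨1 / (Q * 10 ^ (n - 1)), by positivity, 4, ?_⟩
  intro X _ _ R hR hD hA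
  rcases isEmpty_or_nonempty X with hX | hX
  · exact bws_of_isEmpty _ _
  set ε : ℝ := 1 / (Q * 10 ^ (n - 1)) with hε
  have hε0 : 0 < ε := by rw [hε]; positivity
  have hA' : ∀ x : X, ∃ S : Finset (X × ℝ), (∀ c ∈ S, 1 ≤ c.2) ∧
      closedBall x (8 * R) ⊆ ⋃ c ∈ S, closedBall c.1 c.2 ∧
      ∑ c ∈ S, c.2 ^ (n - 1) < ε * R ^ (n - 1) := by
    intro x
    have := hA x
    unfold H53.HCge at this
    push Not at this
    exact this
  choose S hS1 hScov hSB using hA'
  have hεQ : ε * R ^ (n - 1) = (R / 10) ^ (n - 1) / Q := by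
    rw [hε, div_pow]
    field_simp
  have hεle : ε * R ^ (n - 1) ≤ (R / 10) ^ (n - 1) := by
    rw [hεQ]
    exact div_le_self (by positivity) hQ1
  have hn1 : n - 1 ≠ 0 := by omega
  have hc10 : ∀ q, ∀ c ∈ S q, c.2 < R / 10 := by
    intro q c hc
    have h1 : c.2 ^ (n - 1) ≤ ∑ c ∈ S q, c.2 ^ (n - 1) :=
      Finset.single_le_sum (f := fun c : X × ℝ => c.2 ^ (n - 1))
        (fun c' hc' => pow_nonneg (by linarith [hS1 q c' hc']) _) hc
    have h2 : c.2 ^ (n - 1) < (R / 10) ^ (n - 1) := by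
      have := hSB q
      linarith
    exact lt_of_pow_lt_pow_left₀ (n - 1) (by positivity) h2
  have hcov : ∀ q x, dist x q ≤ R → ∃ c ∈ S q, dist x c.1 ≤ c.2 := by
    intro q x hx
    have h1 := hScov q (show x ∈ closedBall q (8 * R) by
      rw [mem_closedBall]; linarith)
    rw [mem_iUnion₂] at h1
    obtain ⟨c, hc, hxc⟩ := h1
    exact ⟨c, hc, by rwa [mem_closedBall] at hxc⟩
  have hR10 : 10 < R := by
    obtain ⟨x₀⟩ := hX
    obtain ⟨c, hc, -⟩ := hcov x₀ x₀ (by rw [dist_self]; exact hR.le)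
    have h1 := hS1 x₀ c hc
    have h2 := hc10 x₀ c hc
    linarith
  set J : ℕ := ⌊R⌋₊ with hJ
  have hJ1 : (J : ℝ) ≤ R := Nat.floor_le hR.le
  have hJ2 : R - 1 < J := by
    have := Nat.lt_floor_add_one R
    rw [← hJ] at this
    linarith
  have hJ3 : 1 ≤ J := by
    have : (1 : ℝ) ≤ J := by linarith
    exact_mod_cast this
  have hlt : (2 * (D : ℝ)) ^ D * (ε * R ^ (n - 1)) < ((J : ℝ) / 5) ^ (n - 2 + 1) := by
    have h1 : n - 2 + 1 = n - 1 := by omega
    rw [h1, hεQ]
    have h3 : (R / 10) ^ (n - 1) ≤ ((J : ℝ) / 5) ^ (n - 1) :=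
      pow_le_pow_left₀ (by positivity) (by linarith) _
    have h4 : 0 < (R / 10) ^ (n - 1) := by positivity
    calc (2 * (D : ℝ)) ^ D * ((R / 10) ^ (n - 1) / Q)
        < Q * ((R / 10) ^ (n - 1) / Q) := by
          refine mul_lt_mul_of_pos_right ?_ (by positivity)
          rw [hQ]; linarith
      _ = (R / 10) ^ (n - 1) := by field_simp
      _ ≤ _ := h3
  have h21 : n - 2 + 1 = n - 1 := by omega
  obtain ⟨V, lam, hB, hd⟩ := covcS (X := X) (n - 2) D J R (ε * R ^ (n - 1)) S hJ3 hJ1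
    (by positivity) (fun q c hc => ⟨hS1 q c hc, by linarith [hc10 q c hc]⟩)
    (fun q => by rw [h21]; exact (hSB q).le) hcov
    (fun q F h1 h2 => hD q F (fun x hx => (h1 x hx).trans (by linarith))
      (fun x hx y hy hne => h2 hx hy hne)) hlt
  exact ⟨V, lam, hB, hd⟩


variable {n : ℕ} {Q : PropMu}

/-- the width for the class `Q` -/
theorem finalQS (hn : 3 ≤ n) (hCALA : H53.Stmt.CALA) (hBG : H53.Stmt.BG)
    (hCONT : CONTENTQ n Q) (hCOVC : COVCS) : FINALQS n Q := by
  classical
  obtain ⟨ε, hε, C, hcov⟩ := hCOVC n (36 ^ n * 3) hn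
  obtain ⟨R', hR', δ₀, hδ₀, hcont⟩ := hCONT (ε / 8 ^ (n - 1)) (by positivity)
  set R : ℝ := R' / 8 with hR
  have hR0 : 0 < R := by positivity
  set δ : ℝ := min δ₀ (1 / (18 * R) ^ 2) with hδ
  have hδ1 : 0 < δ := lt_min hδ₀ (by positivity)
  have hδR : δ * (18 * R) ^ 2 ≤ 1 := by
    have h1 : δ ≤ 1 / (18 * R) ^ 2 := min_le_right _ _
    rwa [le_div_iff₀ (by positivity)] at h1
  refine ⟨δ, hδ1, C * R, ?_⟩
  intro E _ _ _ _ _ M _ _ _ _ _ _ _ _ _ h1 hdim μ hμ hRic hQ
  obtain ⟨hfin, hpos, -⟩ := hCALA E M h1 μ hμ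
  have hfinb : ∀ (x : M) (s : ℝ), μ (ball x s) ≠ ⊤ := fun x s =>
    ((measure_mono ball_subset_closedBall).trans_lt (hfin _ (isCompact_closedBall x s))).ne
  refine hcov M R hR0 ?_ ?_
  · intro x s hs hsep
    have hb : ∀ y ∈ s, μ.real (ball x (9 * R)) ≤ 36 ^ n * 3 * μ.real (ball y (R / 2)) := by
      intro y hy
      have h2 := hBG n (by omega) E M h1 hdim μ δ hμ hδ1 hRic y (R / 2) (18 * R)
        (by positivity) (by linarith)
      have h3 : (18 * R / (R / 2)) ^ n = 36 ^ n := by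
        congr 1
        field_simp
        norm_num
      rw [h3] at h2
      have h4 : Real.exp (δ * (18 * R) ^ 2) ≤ 3 :=
        (Real.exp_le_exp.2 hδR).trans Real.exp_one_lt_three.le
      have h5 : ball x (9 * R) ⊆ ball y (18 * R) := by
        intro z hz
        rw [mem_ball] at hz ⊢
        have := hs y hy
        have := dist_triangle_right z y x
        linarith
      calc μ.real (ball x (9 * R)) ≤ μ.real (ball y (18 * R)) :=
            measureReal_mono h5 (hfinb _ _)
        _ ≤ _ := h2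
        _ ≤ 36 ^ n * 3 * μ.real (ball y (R / 2)) := by
            gcongr
    have hdisj : (s : Set M).PairwiseDisjoint fun y => ball y (R / 2) := by
      intro y hy z hz hne
      refine ball_disjoint_ball ?_
      have := hsep y hy z hz hne
      linarith
    have hsum : ∑ y ∈ s, μ.real (ball y (R / 2)) ≤ μ.real (ball x (9 * R)) := by
      rw [← measureReal_biUnion_finset hdisj (fun y _ => measurableSet_ball)
        (fun y _ => hfinb _ _)]
      refine measureReal_mono ?_ (hfinb _ _)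
      intro z hz
      rw [mem_iUnion₂] at hz
      obtain ⟨y, hy, hz⟩ := hz
      rw [mem_ball] at hz ⊢
      have := hs y hy
      have := dist_triangle z y x
      linarith
    have hpos' : 0 < μ.real (ball x (9 * R)) :=
      ENNReal.toReal_pos (hpos _ isOpen_ball ⟨x, mem_ball_self (by positivity)⟩).ne' (hfinb _ _)
    have h6 : (s.card : ℝ) * μ.real (ball x (9 * R)) ≤
        36 ^ n * 3 * μ.real (ball x (9 * R)) := by
      calc (s.card : ℝ) * μ.real (ball x (9 * R)) = ∑ y ∈ s, μ.real (ball x (9 * R)) := by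
            rw [Finset.sum_const, nsmul_eq_mul]
        _ ≤ ∑ y ∈ s, 36 ^ n * 3 * μ.real (ball y (R / 2)) := Finset.sum_le_sum hb
        _ = 36 ^ n * 3 * ∑ y ∈ s, μ.real (ball y (R / 2)) := by rw [Finset.mul_sum]
        _ ≤ _ := mul_le_mul_of_nonneg_left hsum (by positivity)
    have h7 := le_of_mul_le_mul_right h6 hpos'
    exact_mod_cast h7
  · intro x hx
    refine hcont E M h1 hdim μ δ hμ hδ1 hRic (min_le_left _ _) hQ x ?_
    have h8 : 8 * R = R' := by rw [hR]; ring
    have h9 : ε / 8 ^ (n - 1) * R' ^ (n - 1) = ε * R ^ (n - 1) := by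
      rw [hR, div_pow]
      field_simp
    rw [h9, ← h8]
    exact hx

/-- FINALS -/
theorem finalsS (hCALA : H53.Stmt.CALA) (hCALB : H53.Stmt.CALB) (hBG : H53.Stmt.BG)
    (hM : H53.Stmt.MASS) (hC : H53.Stmt.CONI) (hSl : H53.Stmt.SLOPE) (hE : H53.Stmt.ENDS)
    (hAbs : H401.Stmt.ABS) : FINALSS := by
  intro n hn γ hγ c hc
  exact finalQS hn hCALA hBG
    (contentQ (by omega) hBG hM hC hSl (hE n hn γ hγ c hc) hCALA hCALB hAbs) covcs


theorem finals_star : FINALSS :=
  finalsS H934.cala H34.calb bg' mass' coni' slope' ends' abs'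

end Vale.Agent.P210.Cw.Om
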