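import Vale.Agent.P210.R2.H53.TwDefs
import Mathlib.MeasureTheory.Integral.Bochner.Basic

/-!
# Products over open subsets: definitions
-/

open scoped Manifold ContDiff Topology
open Bundle IsManifold Set

set_option maxSynthPendingDepth 3

noncomputable section

namespace Vale.Agent.P210.Cw.Om

open Vale.Agent.P210.R2.H53

section Sc

variable (E : Type) [NormedAddCommGroup E] [NormedSpace ℝ E]

/-- The scalar curvature of `M` is at most the function `S` on the set `Ω`. -/
def ScalLEOn (M : Type) [MetricSpace M] [ChartedSpace E M]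
    [RiemannianBundle (fun x : M => TangentSpace 𝓘(ℝ, E) x)] [IsManifold 𝓘(ℝ, E) ∞ M]
    (Ω : Set M) (S : M → ℝ) : Prop :=
  ∀ e ∈ maximalAtlas 𝓘(ℝ, E) ∞ M, ∀ z ∈ e.target, e.symm z ∈ Ω → ∃ Γ, IsChristoffel e z Γ ∧
    ∀ b : Module.Basis (Fin (Module.finrank ℝ E)) ℝ E,
      (∀ i j, chartMetric e z (b i) (b j) = if i = j then 1 else 0) →
      ∑ i, ∑ j, sectNum e z Γ (b i) (b j) ≤ S (e.symm z)

end Sc

section Twist

variable (E : Type) [NormedAddCommGroup E] [NormedSpace ℝ E]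
  (V : Type) [NormedAddCommGroup V] [NormedSpace ℝ V]
  {N : Type} [MetricSpace N] [ChartedSpace E N]
  {F : Type} [TopologicalSpace F] [ChartedSpace V F]
  {M : Type} [MetricSpace M] [ChartedSpace (E × V) M]

/-- The restriction of `Ψ` to `Ω × F` is a diffeomorphism onto `M`. -/
def IsProductDiffeoOn (Ω : Set N) (Ψ : N × F → M) : Prop :=
  ∃ Φ : OpenPartialHomeomorph (N × F) M, Φ.source = Ω ×ˢ univ ∧ Φ.target = univ ∧
    ContMDiffOn (𝓘(ℝ, E).prod 𝓘(ℝ, V)) 𝓘(ℝ, E × V) ∞ Φ (Ω ×ˢ univ) ∧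
    ContMDiff 𝓘(ℝ, E × V) (𝓘(ℝ, E).prod 𝓘(ℝ, V)) ∞ Φ.symm ∧ ⇑Φ = Ψ

variable [RiemannianBundle (fun x : N => TangentSpace 𝓘(ℝ, E) x)]
  [RiemannianBundle (fun x : M => TangentSpace 𝓘(ℝ, E × V) x)]

/-- In the parametrization `Ψ` of `M` by `Ω × F` and the charts of `N` and `F` the metric of `M`
has the blocks `w h` and `0`, with `h` the metric of `N`; the block of `F` is arbitrary. -/
def IsTwistedProductOn (Ω : Set N) (w : N → ℝ) (Ψ : N × F → M) : Prop :=
  ∀ e ∈ atlas E N, ∀ f ∈ atlas V F, ∀ z ∈ e.target, e.symm z ∈ Ω → ∀ y ∈ f.target,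
    ∀ (v : E) (v' : E × V),
    pullMetric (E × V) (fun q : E × V => Ψ (e.symm q.1, f.symm q.2)) (z, y) (v, 0) v' =
      w (e.symm z) * chartMetric e z v v'.1

end Twist

section Fibre

variable {V : Type} [NormedAddCommGroup V] [NormedSpace ℝ V] {N F : Type}

/-- The square of the volume density at `v` of the metric `g` on an open set of `V`: the
determinant of its coefficients in the standard basis of `V`. -/
def densSq [FiniteDimensional ℝ V] (g : V → V → V → ℝ) (v : V) : ℝ :=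
  Matrix.det (Matrix.of fun i j => g v (Module.finBasis ℝ V i) (Module.finBasis ℝ V j))

/-- Let `k x y` be the metric of the fibre over `x` in the chart at `y` and `c y` the coordinates
of `y` in this chart. On the set `Y` the volume densities of the fibres over any two points of `Ω`
are proportional. -/
def PropOn [FiniteDimensional ℝ V] (Ω : Set N) (k : N → F → V → V → V → ℝ) (c : F → V)
    (Y : Set F) : Prop :=
  ∀ y ∈ Y, ∀ y' ∈ Y, ∀ x ∈ Ω, ∀ x' ∈ Ω, densSq (k x y) (c y) * densSq (k x' y') (c y') =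
    densSq (k x' y) (c y) * densSq (k x y') (c y')

/-- There are weights `p_j ≥ 0` with sum `1` and sets `Y_j`, on each of which the volume densities
of the fibres are proportional, and for every `x` in `Ω` points `y_j` of `Y_j` at which the fibre
over `x` has scalar curvatures at most `s_j` with `∑ p_j s_j ≤ σ x`. -/
def FibreScalLEOn [FiniteDimensional ℝ V] (Ω : Set N) (σ : N → ℝ)
    (k : N → F → V → V → V → ℝ) (c : F → V) : Prop :=
  ∃ (r : ℕ) (p : Fin r → ℝ) (Y : Fin r → Set F), (∀ j, 0 ≤ p j) ∧ ∑ j, p j = 1 ∧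
    (∀ j, PropOn Ω k c (Y j)) ∧ ∀ x ∈ Ω, ∃ (y : Fin r → F) (s : Fin r → ℝ),
      (∀ j, y j ∈ Y j ∧ ScalLEAt (k x (y j)) (c (y j)) (s j)) ∧ ∑ j, p j * s j ≤ σ x

/-- There is a compactly supported probability measure `ν` on `F` and a continuous upper bound `T`
of the scalar curvatures of the fibres over `Ω` (such as the scalar curvature) with
`∫ T (x, y) ∂ν(y) ≤ σ x` for every `x` in `Ω`. -/
def MeanScalLEOn [TopologicalSpace N] [TopologicalSpace F] (Ω : Set N) (σ : N → ℝ)
    (k : N → F → V → V → V → ℝ) (c : F → V) : Prop :=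
  ∃ (ν : @MeasureTheory.Measure F (borel F)) (L : Set F) (T : N × F → ℝ),
    MeasureTheory.IsProbabilityMeasure ν ∧ IsCompact L ∧ ν Lᶜ = 0 ∧
    ContinuousOn T (Ω ×ˢ univ) ∧ (∀ x ∈ Ω, ∀ y, ScalLEAt (k x y) (c y) (T (x, y))) ∧
    ∀ x ∈ Ω, ∫ y, T (x, y) ∂ν ≤ σ x

end Fibre

end Vale.Agent.P210.Cw.Om
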