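import Mathlib.MeasureTheory.Integral.Average

/-!
# Doubling and Poincaré inequality: definitions
-/

open scoped Topology
open MeasureTheory Metric

noncomputable section

namespace Vale.Agent.P210.Cw.Om

/-- On the scales in `ok`, the measure `μ` is doubling with dimension `n` and satisfies the
Poincaré inequality for all functions `u` and continuous functions `g ≥ 0` with
`limsup_{y → z} |u y - u z| / d(y, z) ≤ g z` for every `z`. -/
structure IsPI {X : Type} [MetricSpace X] [MeasurableSpace X] (μ : Measure X) (n : ℕ) (K : ℝ)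
    (ok : ℝ → Prop) : Prop where
  doubling : ∀ x s t, 0 < s → s ≤ t → ok t →
    μ.real (ball x t) ≤ K * (t / s) ^ n * μ.real (ball x s)
  poincare : ∀ x r, 0 < r → ok r → ∀ u g : X → ℝ, Continuous g → (∀ y, 0 ≤ g y) →
    (∀ z, ∀ ε > 0, ∀ᶠ y in 𝓝 z, |u y - u z| ≤ (g z + ε) * dist y z) →
    ∫ z in ball x r, |u z - ⨍ y in ball x r, u y ∂μ| ∂μ ≤ K * r * ∫ y in ball x (K * r), g y ∂μ

end Vale.Agent.P210.Cw.Om
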