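import Vale.Agent.P210.Cx.Defs

/-!
# The widths of products over an open subset and of the open subset: definition
-/

open scoped Manifold ContDiff Topology
open Bundle IsManifold

set_option maxSynthPendingDepth 3

namespace Vale.Agent.P210.Cw.Om

open Vale.Agent.P210.R2 Vale.Agent.P210.R2.H53

/-- Let `M` be any complete Riemannian manifold with scalar curvature at least `1` which is a product
`Ω × F` with metric `w h + k`, where `h` is the metric of `N`, `F` any `k`-manifold, and the metrics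
`k` on the fibres are arbitrary, except that `k ≤ 1` and `σ ≥ 0` on `Ω`, or `FibreScalLEOn` or
`MeanScalLEOn` holds with `σ`. Then, with `n = dim N`, `UW_{n+k-2}(M) ≤ C`, and for every `y` in `F`
`UW_{n-2}(Ω × {y}) ≤ C` for the metric of `M`, and `UW_{n-2}(M₀) ≤ C` for the Riemannian manifold
`M₀ = Ω` with the metric `w h` (formally, `M₀` is the product of `Ω` and a point `F₀`). -/
def ProductWidthsLE (E : Type) [NormedAddCommGroup E] [NormedSpace ℝ E]
    (N : Type) [MetricSpace N] [ChartedSpace E N]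
    [RiemannianBundle (fun x : N => TangentSpace 𝓘(ℝ, E) x)] (k : ℕ) (Ω : Set N)
    (w σ : N → ℝ) (C : ℝ) : Prop :=
  ∀ (V : Type) [NormedAddCommGroup V] [NormedSpace ℝ V] [FiniteDimensional ℝ V]
    (F : Type) [TopologicalSpace F] [ChartedSpace V F] [IsManifold 𝓘(ℝ, V) ∞ F]
    (M : Type) [MetricSpace M] [ChartedSpace (E × V) M]
    [RiemannianBundle (fun x : M => TangentSpace 𝓘(ℝ, E × V) x)]
    [IsManifold 𝓘(ℝ, E × V) ∞ M] (Ψ : N × F → M),
    IsProductDiffeoOn E V Ω Ψ → IsRiem (E × V) M → CompleteSpace M →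
    Module.finrank ℝ V = k → IsTwistedProductOn E V Ω w Ψ → ScalGE (E × V) M 1 →
    ((k ≤ 1 ∧ ∀ x ∈ Ω, 0 ≤ σ x) ∨
      FibreScalLEOn Ω σ
        (fun (x : N) (y : F) => pullMetric (E × V) fun v => Ψ (x, (chartAt V y).symm v))
        (fun y => chartAt V y y) ∨
      MeanScalLEOn Ω σ
        (fun (x : N) (y : F) => pullMetric (E × V) fun v => Ψ (x, (chartAt V y).symm v))
        (fun y => chartAt V y y)) →
    H53.UrysohnWidthLE M (Module.finrank ℝ E + k - 2) C ∧
      ∀ y : F, H53.UrysohnWidthLE ↥((fun x => Ψ (x, y)) '' Ω) (Module.finrank ℝ E - 2) C ∧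
        ∀ (V₀ : Type) [NormedAddCommGroup V₀] [NormedSpace ℝ V₀] [FiniteDimensional ℝ V₀]
          (F₀ : Type) [TopologicalSpace F₀] [ChartedSpace V₀ F₀] [IsManifold 𝓘(ℝ, V₀) ∞ F₀]
          (M₀ : Type) [MetricSpace M₀] [ChartedSpace (E × V₀) M₀]
          [RiemannianBundle (fun x : M₀ => TangentSpace 𝓘(ℝ, E × V₀) x)]
          [IsManifold 𝓘(ℝ, E × V₀) ∞ M₀] (Ψ₀ : N × F₀ → M₀), Subsingleton F₀ →
          IsProductDiffeoOn E V₀ Ω Ψ₀ → IsRiem (E × V₀) M₀ → IsTwistedProductOn E V₀ Ω w Ψ₀ →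
          H53.UrysohnWidthLE M₀ (Module.finrank ℝ E - 2) C

end Vale.Agent.P210.Cw.Om
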