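import Vale.Agent.P210.R2.H53.RDefs

/-!
# The spectral condition: definitions
-/

open scoped Manifold ContDiff Topology
open Bundle IsManifold MeasureTheory

set_option maxSynthPendingDepth 3

noncomputable section

namespace Vale.Agent.P210.Cw.Om

open Vale.Agent.P210.R2.H53

variable (E : Type) [NormedAddCommGroup E] [NormedSpace ℝ E]

/-- The scalar curvature of `M` is at least the function `S`. -/
def ScalGEFun (M : Type) [MetricSpace M] [ChartedSpace E M]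
    [RiemannianBundle (fun x : M => TangentSpace 𝓘(ℝ, E) x)] [IsManifold 𝓘(ℝ, E) ∞ M]
    (S : M → ℝ) : Prop :=
  ∀ e ∈ maximalAtlas 𝓘(ℝ, E) ∞ M, ∀ z ∈ e.target, ∃ Γ, IsChristoffel e z Γ ∧
    ∀ b : Module.Basis (Fin (Module.finrank ℝ E)) ℝ E,
      (∀ i j, chartMetric e z (b i) (b j) = if i = j then 1 else 0) →
      S (e.symm z) ≤ ∑ i, ∑ j, sectNum e z Γ (b i) (b j)

/-- The spectral condition `-γ Δ + S ≥ c`: for every Lipschitz function `ψ` with compact support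
`∫ (S ψ² + γ |∇ψ|²) ≥ c ∫ ψ²`. -/
def SpecGE {M : Type} [MetricSpace M] [ChartedSpace E M]
    [RiemannianBundle (fun x : M => TangentSpace 𝓘(ℝ, E) x)] [MeasurableSpace M]
    (μ : Measure M) (S : M → ℝ) (γ c : ℝ) : Prop :=
  ∀ ψ : M → ℝ, LC ψ →
    c * ∫ p, ψ p ^ 2 ∂μ ≤ ∫ p, (S p * ψ p ^ 2 + γ * Gam E ψ ψ p) ∂μ

end Vale.Agent.P210.Cw.Om
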