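import Vale.Agent.P210.R2.H465.Dim
import Vale.Agent.P210.R2.H53.TAll

/-!
# Products of nerves and manifolds: covering dimension
-/

open scoped Topology
open Set Metric Filter

set_option linter.all false

noncomputable section

namespace Vale.Agent.P210.Cw.Om

open Vale.Agent.P210.R2

/-- the product `Ω × F`, with the topology of the nerve on `Ω` -/
def Zs {Ω W : Type} (lam : W → Ω → ℝ) (F : Type) : Type := Ω × F

/-- the map to the nerve -/
def Zs.G {Ω W : Type} (lam : W → Ω → ℝ) (F : Type) (p : Zs lam F) : (W → ℝ) × F :=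
  (fun v => lam v p.1, p.2)

/-- the identity -/
def Zs.mk {Ω W : Type} (lam : W → Ω → ℝ) {F : Type} (p : Ω × F) : Zs lam F := p

instance {Ω W : Type} (lam : W → Ω → ℝ) (F : Type) [TopologicalSpace F] :
    TopologicalSpace (Zs lam F) :=
  TopologicalSpace.induced (Zs.G lam F) inferInstance

section

variable {Ω F W : Type} [TopologicalSpace F] {lam : W → Ω → ℝ}

theorem Zs.cont_G : Continuous (Zs.G lam F) := continuous_induced_dom

theorem Zs.cont_lam (v : W) : Continuous fun p : Zs lam F => lam v p.1 :=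
  (continuous_apply v).comp (continuous_fst.comp Zs.cont_G)

theorem Zs.cont_snd : Continuous fun p : Zs lam F => p.2 := by
  have h : Continuous (Prod.snd ∘ Zs.G lam F) := continuous_snd.comp Zs.cont_G
  exact h

theorem piece {V : Type} [NormedAddCommGroup V] [NormedSpace ℝ V] [FiniteDimensional ℝ V]
    {m : ℕ} (e : OpenPartialHomeomorph F V) {D : Set F} (hD : D ⊆ e.source)
    (σ : Finset W) (hσ : σ.card ≤ m + 1) (hσ0 : σ.Nonempty) {C : Set (Zs lam F)}
    (hC : ∀ p ∈ C, (∀ v, v ∉ σ → lam v p.1 = 0) ∧ ∑ v ∈ σ, lam v p.1 = 1 ∧ p.2 ∈ D)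
    (A : Type) (U : A → Set (Zs lam F)) (hU : ∀ a, IsOpen (U a)) (hCU : C ⊆ ⋃ a, U a) :
    ∃ W' : A → Set (Zs lam F), (∀ a, IsOpen (W' a)) ∧ (∀ a, W' a ⊆ U a) ∧ C ⊆ (⋃ a, W' a) ∧
      ∀ x ∈ C, {a | x ∈ W' a}.Finite ∧
        {a | x ∈ W' a}.ncard ≤ (m + Module.finrank ℝ V) + 1 := by
  classical
  rcases C.eq_empty_or_nonempty with hCe | ⟨p₀, hp₀⟩
  · exact ⟨U, hU, fun a => le_rfl, hCU, fun x hx => by rw [hCe] at hx; exact hx.elim⟩
  obtain ⟨v₀, hv₀⟩ := hσ0
  let E' : Type := ({v // v ∈ σ.erase v₀} → ℝ) × V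
  letI : NormedAddCommGroup E' := inferInstanceAs (NormedAddCommGroup (({v // v ∈ σ.erase v₀} → ℝ) × V))
  letI : NormedSpace ℝ E' := inferInstanceAs (NormedSpace ℝ (({v // v ∈ σ.erase v₀} → ℝ) × V))
  haveI : FiniteDimensional ℝ E' := inferInstanceAs (FiniteDimensional ℝ (({v // v ∈ σ.erase v₀} → ℝ) × V))
  have hfr : Module.finrank ℝ E' ≤ m + Module.finrank ℝ V := by
    have h1 : Module.finrank ℝ E' = Module.finrank ℝ (({v // v ∈ σ.erase v₀} → ℝ) × V) := rfl
    rw [h1, Module.finrank_prod, Module.finrank_fintype_fun_eq_card, Fintype.card_coe,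
      Finset.card_erase_of_mem hv₀]
    omega
  have hU1 : ∀ a, ∃ U' : Set ((W → ℝ) × F), IsOpen U' ∧ Zs.G lam F ⁻¹' U' = U a :=
    fun a => isOpen_induced_iff.1 (hU a)
  choose U' hU' hUU' using hU1
  set H : E' → (W → ℝ) × F := fun z =>
    (fun v => if h : v ∈ σ.erase v₀ then z.1 ⟨v, h⟩ else if v = v₀ then 1 - ∑ w, z.1 w else 0,
      e.symm z.2) with hH
  have hHc : ContinuousOn H (univ ×ˢ e.target) := by
    apply ContinuousOn.prodMk
    · apply Continuous.continuousOn
      refine continuous_pi fun v => ?_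
      by_cases h : v ∈ σ.erase v₀
      · simp only [h, dif_pos]
        exact (continuous_apply _).comp continuous_fst
      · simp only [h, dif_neg, not_false_eq_true]
        by_cases h' : v = v₀
        · simp only [h', if_true]
          exact continuous_const.sub
            (continuous_finset_sum _ fun w _ => (continuous_apply w).comp continuous_fst)
        · simp only [h', if_false]
          exact continuous_const
    · exact e.continuousOn_symm.comp continuous_snd.continuousOn (fun z hz => hz.2)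
  set g : Zs lam F → E' := fun p => (fun v => lam v p.1, e p.2) with hg
  have hgc : ContinuousOn g {p | p.2 ∈ e.source} := by
    apply ContinuousOn.prodMk
    · apply Continuous.continuousOn
      exact continuous_pi fun v => Zs.cont_lam _
    · exact e.continuousOn.comp Zs.cont_snd.continuousOn (fun z hz => hz)
  have hHg : ∀ p ∈ C, H (g p) = Zs.G lam F p := by
    intro p hp
    obtain ⟨h1, h2, h3⟩ := hC p hp
    refine Prod.ext ?_ ?_
    · funext v
      change (if h : v ∈ σ.erase v₀ then lam v p.1 else if v = v₀ then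
        1 - ∑ w : {v // v ∈ σ.erase v₀}, lam w p.1 else 0) = lam v p.1
      by_cases h : v ∈ σ.erase v₀
      · simp only [h, dif_pos]
      · simp only [h, dif_neg, not_false_eq_true]
        by_cases h' : v = v₀
        · simp only [h', if_true]
          rw [Finset.sum_coe_sort (σ.erase v₀) (fun w => lam w p.1), ← h2,
            ← Finset.add_sum_erase σ (fun w => lam w p.1) hv₀]
          ring
        · simp only [h', if_false]
          refine (h1 v fun hv => h ?_).symm
          exact Finset.mem_erase.2 ⟨h', hv⟩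
    · exact e.left_inv (hD h3)
  set O : A → Set E' := fun a => (univ ×ˢ e.target) ∩ H ⁻¹' U' a with hO
  have hOo : ∀ a, IsOpen (O a) := fun a =>
    hHc.isOpen_inter_preimage (isOpen_univ.prod e.open_target) (hU' a)
  have hUO : ∀ a, ∀ p ∈ C, (p ∈ U a ↔ g p ∈ O a) := by
    intro a p hp
    have h4 : e p.2 ∈ e.target := e.map_source (hD (hC p hp).2.2)
    rw [← hUU' a, mem_preimage, ← hHg p hp]
    constructor
    · intro h5
      exact ⟨⟨mem_univ _, h4⟩, h5⟩
    · intro h5
      exact h5.2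
  set X' : TopologicalSpace.Opens E' := ⟨⋃ a, O a, isOpen_iUnion hOo⟩ with hX'
  have hgX : ∀ p ∈ C, g p ∈ X' := by
    intro p hp
    obtain ⟨a, ha⟩ := mem_iUnion.1 (hCU hp)
    exact mem_iUnion.2 ⟨a, (hUO a p hp).1 ha⟩
  haveI : ProperSpace E' := FiniteDimensional.proper ℝ E'
  haveI : LocallyCompactSpace X' := X'.isOpen.locallyCompactSpace
  haveI : SigmaCompactSpace X' := inferInstance
  haveI : Nonempty X' := ⟨⟨g p₀, hgX p₀ hp₀⟩⟩
  obtain ⟨mu, hmu, hsupp⟩ := H465.exists_bary_sub E' X' (A := A)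
    (U := fun a => {z : X' | (z : E') ∈ O a})
    (fun a => (hOo a).preimage continuous_subtype_val) (by
      refine eq_univ_of_forall fun z => ?_
      obtain ⟨a, ha⟩ := mem_iUnion.1 z.2
      exact mem_iUnion.2 ⟨a, ha⟩)
  refine ⟨fun a => U a ∩ ({p | p.2 ∈ e.source} ∩
    g ⁻¹' (Subtype.val '' {z : X' | mu a z ≠ 0})), fun a => ?_, fun a => inter_subset_left,
    fun p hp => ?_, fun p hp => ?_⟩
  · refine (hU a).inter (hgc.isOpen_inter_preimage (e.open_source.preimage Zs.cont_snd) ?_)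
    exact X'.isOpen.isOpenMap_subtype_val _ (isOpen_ne_fun (hmu.cont a) continuous_const)
  · obtain ⟨a, ha⟩ : ∃ a, mu a ⟨g p, hgX p hp⟩ ≠ 0 := by
      by_contra hcon
      push Not at hcon
      have h1 := hmu.sum ⟨g p, hgX p hp⟩
      rw [finsum_eq_zero_of_forall_eq_zero hcon] at h1
      exact zero_ne_one h1
    refine mem_iUnion.2 ⟨a, ?_, hD (hC p hp).2.2, ⟨g p, hgX p hp⟩, ha, rfl⟩
    exact (hUO a p hp).2 (hsupp a ha)
  · have h1 : {a | p ∈ U a ∩ ({p | p.2 ∈ e.source} ∩
        g ⁻¹' (Subtype.val '' {z : X' | mu a z ≠ 0}))} ⊆ {a | mu a ⟨g p, hgX p hp⟩ ≠ 0} := by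
      rintro a ⟨-, -, z, hz, hzp⟩
      have : z = ⟨g p, hgX p hp⟩ := Subtype.ext hzp
      rw [← this]
      exact hz
    have h2 : {a | mu a ⟨g p, hgX p hp⟩ ≠ 0}.Finite := hmu.fin.point_finite _
    refine ⟨h2.subset h1, (ncard_le_ncard h1 h2).trans ?_⟩
    have h3 := hmu.card ⟨g p, hgX p hp⟩
    omega

end

/-- the width of a product with a manifold -/
theorem width_prod {V : Type} [NormedAddCommGroup V] [NormedSpace ℝ V] [FiniteDimensional ℝ V]
    {Ω F M W : Type} [TopologicalSpace Ω] [TopologicalSpace F] [ChartedSpace V F] [MetricSpace M]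
    [ProperSpace M] (Φ : M ≃ₜ Ω × F) {lam : W → Ω → ℝ} {m : ℕ} (hB : TP.Bary Ω W m lam)
    {C C' : ℝ} (hC : C < C')
    (hd : ∀ v x x', lam v x ≠ 0 → lam v x' ≠ 0 → ∀ y : F,
      dist (Φ.symm (x, y)) (Φ.symm (x', y)) ≤ C) :
    H53.UrysohnWidthLE M (m + Module.finrank ℝ V) C' := by
  classical
  rcases isEmpty_or_nonempty M with hM | hM
  · exact H912.urysohn_of_isEmpty _ _
  obtain ⟨p₀⟩ := hM
  haveI hFne : Nonempty F := ⟨(Φ p₀).2⟩
  haveI : Nonempty Ω := ⟨(Φ p₀).1⟩
  set x₀ : Ω := (Φ p₀).1 with hx₀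
  set y₀ : F := (Φ p₀).2 with hy₀
  -- the topology of the factors
  haveI : T2Space F := by
    have h1 : Continuous fun y : F => Φ.symm (x₀, y) := Φ.symm.continuous.comp (by fun_prop)
    refine T2Space.of_injective_continuous (f := fun y : F => Φ.symm (x₀, y)) ?_ h1
    intro y y' h
    have := Φ.symm.injective h
    exact congrArg Prod.snd this
  haveI : T2Space Ω := by
    have h1 : Continuous fun x : Ω => Φ.symm (x, y₀) := Φ.symm.continuous.comp (by fun_prop)
    refine T2Space.of_injective_continuous (f := fun x : Ω => Φ.symm (x, y₀)) ?_ h1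
    intro y y' h
    have := Φ.symm.injective h
    exact congrArg Prod.fst this
  have hF : Continuous fun p : M => (Φ p).2 := continuous_snd.comp Φ.continuous
  have hΩ : Continuous fun p : M => (Φ p).1 := continuous_fst.comp Φ.continuous
  haveI : SigmaCompactSpace F := by
    rw [← isSigmaCompact_univ_iff]
    have h1 : (fun p : M => (Φ p).2) '' univ = univ := by
      rw [image_univ]
      exact range_eq_univ.2 fun y => ⟨Φ.symm (x₀, y), by simp⟩
    rw [← h1]
    exact isSigmaCompact_univ.image hF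
  haveI : SigmaCompactSpace Ω := by
    rw [← isSigmaCompact_univ_iff]
    have h1 : (fun p : M => (Φ p).1) '' univ = univ := by
      rw [image_univ]
      exact range_eq_univ.2 fun x => ⟨Φ.symm (x, y₀), by simp⟩
    rw [← h1]
    exact isSigmaCompact_univ.image hΩ
  -- the supports are relatively compact
  have hK : ∀ v, ∃ K : Set Ω, IsCompact K ∧ ∀ x, lam v x ≠ 0 → x ∈ K := by
    intro v
    by_cases h : ∃ x₁, lam v x₁ ≠ 0
    · obtain ⟨x₁, hx₁⟩ := h
      refine ⟨(fun p : M => (Φ p).1) '' closedBall (Φ.symm (x₁, y₀)) C,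
        (isCompact_closedBall _ _).image hΩ, fun x hx => ⟨Φ.symm (x, y₀), hd v x x₁ hx hx₁ y₀, ?_⟩⟩
      simp
    · exact ⟨∅, isCompact_empty, fun x hx => (h ⟨x, hx⟩).elim⟩
  choose K hKc hK using hK
  -- the pieces of `F`
  obtain ⟨D, hDc, hDlf, hDcov, hDch⟩ := H81.exists_chart_cover V F
  choose e he using hDch
  -- the simplices
  have hfin : ∀ x, {v | lam v x ≠ 0}.Finite := fun x => hB.fin.point_finite x
  set sp : Ω → Finset W := fun x => (hfin x).toFinset with hsp
  have hspm : ∀ x v, v ∈ sp x ↔ lam v x ≠ 0 := fun x v => by simp [hsp]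
  have hspc : ∀ x, (sp x).card ≤ m + 1 := by
    intro x
    have h1 := hB.card x
    rwa [ncard_eq_toFinset_card _ (hfin x)] at h1
  have hspn : ∀ x, (sp x).Nonempty := by
    intro x
    by_contra hcon
    rw [Finset.not_nonempty_iff_eq_empty] at hcon
    have h1 := hB.sum x
    rw [finsum_eq_zero_of_forall_eq_zero (fun v => by
      by_contra hv
      have := (hspm x v).2 hv
      rw [hcon] at this
      exact absurd this (Finset.notMem_empty v))] at h1
    exact zero_ne_one h1
  -- countability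
  have hWc : {v | ∃ x, lam v x ≠ 0}.Countable := by
    have h1 : LocallyFinite fun v : {v | ∃ x, lam v x ≠ 0} => Function.support (lam v) :=
      hB.fin.comp_injective Subtype.val_injective
    have h2 := h1.countable_univ (fun v => v.2)
    exact (countable_univ_iff.1 h2)
  set 𝒩 : Set (Finset W) := range sp with h𝒩
  have h𝒩c : 𝒩.Countable := by
    have h1 : {s : Set W | s.Finite ∧ s ⊆ {v | ∃ x, lam v x ≠ 0}}.Countable :=
      Set.countable_setOf_finite_subset hWc
    refine (h1.preimage_of_injOn (f := fun s : Finset W => (s : Set W))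
      (Finset.coe_injective.injOn)).mono ?_
    rintro _ ⟨x, rfl⟩
    refine ⟨(sp x).finite_toSet, fun v hv => ⟨x, (hspm x v).1 hv⟩⟩
  haveI : Countable 𝒩 := h𝒩c.to_subtype
  obtain ⟨f, hf⟩ := exists_injective_nat (𝒩 × ℕ)
  set P : 𝒩 × ℕ → Set (Zs lam F) := fun i =>
    {p | (∀ v, v ∉ (i.1 : Finset W) → lam v p.1 = 0) ∧ p.2 ∈ D i.2} with hP
  set Q : ℕ → Set (Zs lam F) := fun n => {p | ∃ i, f i = n ∧ p ∈ P i} with hQ
  have hQP : ∀ i, Q (f i) = P i := by
    intro i
    ext p
    constructor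
    · rintro ⟨j, hj, hp⟩
      rwa [hf hj] at hp
    · intro hp
      exact ⟨i, rfl, hp⟩
  have hQe : ∀ n, Q n = ∅ ∨ ∃ i, f i = n := by
    intro n
    by_cases h : ∃ i, f i = n
    · exact Or.inr h
    · left
      rw [eq_empty_iff_forall_notMem]
      rintro p ⟨i, hi, -⟩
      exact h ⟨i, hi⟩
  have hPcl : ∀ i, IsClosed (P i) := by
    intro i
    have h1 : P i = (⋂ v ∈ {v | v ∉ (i.1 : Finset W)}, {p : Zs lam F | lam v p.1 = 0}) ∩
        {p : Zs lam F | p.2 ∈ D i.2} := by
      ext p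
      simp [hP]
    rw [h1]
    refine IsClosed.inter (isClosed_biInter fun v _ => ?_) ?_
    · exact isClosed_eq (Zs.cont_lam v) continuous_const
    · exact (hDc _).isClosed.preimage Zs.cont_snd
  have hQcl : ∀ n, IsClosed (Q n) := by
    intro n
    rcases hQe n with h | ⟨i, rfl⟩
    · rw [h]; exact isClosed_empty
    · rw [hQP]; exact hPcl i
  have hQlf : LocallyFinite Q := by
    intro p
    obtain ⟨v, hv⟩ := hspn p.1
    rw [hspm] at hv
    obtain ⟨O, hO, hOf⟩ := hDlf p.2
    refine ⟨{q | lam v q.1 ≠ 0} ∩ {q | q.2 ∈ O}, Filter.inter_mem ?_ ?_, ?_⟩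
    · exact (isOpen_ne_fun (Zs.cont_lam v) continuous_const).mem_nhds hv
    · exact Zs.cont_snd.continuousAt.preimage_mem_nhds hO
    · have hst : {w | (Function.support (lam w) ∩ K v).Nonempty}.Finite :=
        hB.fin.finite_nonempty_inter_compact (hKc v)
      have hNf : {s : 𝒩 | v ∈ (s : Finset W)}.Finite := by
        have h1 : (fun s : 𝒩 => (s : Finset W)) '' {s : 𝒩 | v ∈ (s : Finset W)} ⊆
            (hst.toFinset.powerset : Set (Finset W)) := by
          rintro _ ⟨⟨_, ⟨x, rfl⟩⟩, hx, rfl⟩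
          rw [Finset.mem_coe, Finset.mem_powerset]
          intro w hw
          rw [Set.Finite.mem_toFinset]
          have hx' : v ∈ sp x := hx
          exact ⟨x, (hspm x w).1 hw, hK v x ((hspm x v).1 hx')⟩
        exact Finite.of_finite_image ((Finset.finite_toSet _).subset h1)
          (Subtype.val_injective.injOn)
      refine ((hNf.prod hOf).image f).subset ?_
      rintro n ⟨q, ⟨i, rfl, hq⟩, hq1, hq2⟩
      refine ⟨i, ⟨?_, ⟨q.2, hq.2, hq2⟩⟩, rfl⟩
      by_contra hcon
      exact hq1 (hq.1 v hcon)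
  have hQcov : (⋃ n, Q n) = univ := by
    refine eq_univ_of_forall fun p => ?_
    have h1 : p.2 ∈ ⋃ i, D i := by rw [hDcov]; exact mem_univ _
    obtain ⟨j, hj⟩ := mem_iUnion.1 h1
    refine mem_iUnion.2 ⟨f (⟨sp p.1, ⟨p.1, rfl⟩⟩, j), _, rfl, fun v hv => ?_, hj⟩
    by_contra hcon
    exact hv ((hspm _ _).2 hcon)
  have hsum : ∀ (x : Ω) (s : Finset W), (∀ v, v ∉ s → lam v x = 0) → ∑ v ∈ s, lam v x = 1 := by
    intro x s hs
    rw [← hB.sum x]
    refine (finsum_eq_sum_of_support_subset _ fun v hv => ?_).symm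
    by_contra hcon
    exact hv (hs v hcon)
  -- the cover
  set ε := (C' - C) / 2 with hε
  have hε0 : 0 < ε := by rw [hε]; linarith
  set Uy : W → F → Set F := fun v y =>
    {y' | ∀ x ∈ K v, dist (Φ.symm (x, y)) (Φ.symm (x, y')) < ε} with hUy
  have hUyo : ∀ v y, IsOpen (Uy v y) := by
    intro v y
    rw [isOpen_iff_mem_nhds]
    intro y' hy'
    refine (hKc v).eventually_forall_of_forall_eventually fun x hx => ?_
    have h2 : Continuous fun z : F × Ω => dist (Φ.symm (z.2, y)) (Φ.symm (z.2, z.1)) := by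
      have h3 : Continuous fun z : F × Ω => Φ.symm (z.2, y) :=
        Φ.symm.continuous.comp (continuous_snd.prodMk continuous_const)
      have h4 : Continuous fun z : F × Ω => Φ.symm (z.2, z.1) :=
        Φ.symm.continuous.comp (continuous_snd.prodMk continuous_fst)
      exact h3.dist h4
    exact h2.continuousAt.eventually_lt_const (hy' x hx)
  set U : W × F → Set (Zs lam F) := fun a => {p | lam a.1 p.1 ≠ 0} ∩ {p | p.2 ∈ Uy a.1 a.2} with hU
  have hUo : ∀ a, IsOpen (U a) := fun a =>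
    (isOpen_ne_fun (Zs.cont_lam a.1) continuous_const).inter
      ((hUyo a.1 a.2).preimage Zs.cont_snd)
  have hUc : (⋃ a, U a) = univ := by
    refine eq_univ_of_forall fun p => ?_
    obtain ⟨v, hv⟩ := hspn p.1
    rw [hspm] at hv
    refine mem_iUnion.2 ⟨(v, p.2), hv, fun x _ => ?_⟩
    rw [dist_self]
    exact hε0
  obtain ⟨W', hW'o, hW'U, hW'c, hW'f⟩ := H86.glue_cover (k := m + Module.finrank ℝ V) Q hQcl hQlf
    hQcov (by
      intro n A U hU hCU
      rcases hQe n with h | ⟨i, rfl⟩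
      · refine ⟨U, hU, fun a => le_rfl, hCU, fun x hx => ?_⟩
        rw [h] at hx
        exact hx.elim
      · obtain ⟨x, hx⟩ := i.1.2
        refine piece (e i.2) (he i.2) (i.1 : Finset W) ?_ ?_ (fun p hp => ?_) A U hU hCU
        · rw [← hx]; exact hspc x
        · rw [← hx]; exact hspn x
        · rw [hQP] at hp
          exact ⟨hp.1, hsum _ _ hp.1, hp.2⟩) hUo hUc
  -- back to `M`
  have hZ : Continuous fun p : M => Zs.mk lam (Φ p) := by
    rw [continuous_induced_rng]
    exact (continuous_pi fun v => (hB.cont v).comp hΩ).prodMk hF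
  obtain ⟨nu, hnu, hnus⟩ := H664.bary_of_cover (X := M) (k := m + Module.finrank ℝ V)
    (W := fun a => {p : M | Zs.mk lam (Φ p) ∈ W' a}) (fun a => (hW'o a).preimage hZ)
    (by
      refine eq_univ_of_forall fun p => ?_
      have h1 : Zs.mk lam (Φ p) ∈ ⋃ a, W' a := by rw [hW'c]; exact mem_univ _
      obtain ⟨a, ha⟩ := mem_iUnion.1 h1
      exact mem_iUnion.2 ⟨a, ha⟩) (fun p => hW'f (Zs.mk lam (Φ p)))
  refine H912.urysohn_of_bary ⟨_, nu, hnu, fun p p' hpp => ?_⟩
  obtain ⟨a, ha⟩ : ∃ a, nu a p ≠ 0 := by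
    by_contra hcon
    push Not at hcon
    have h1 := hnu.sum p
    rw [finsum_eq_zero_of_forall_eq_zero hcon] at h1
    exact zero_ne_one h1
  have ha' : nu a p' ≠ 0 := fun h0 => ha ((hpp a).trans h0)
  obtain ⟨k1, k2⟩ := hW'U a (hnus a ha)
  obtain ⟨k1', k2'⟩ := hW'U a (hnus a ha')
  have e1 : Φ.symm ((Φ p).1, (Φ p).2) = p := Φ.symm_apply_apply p
  have e2 : Φ.symm ((Φ p').1, (Φ p').2) = p' := Φ.symm_apply_apply p'
  have t1 : dist (Φ.symm ((Φ p).1, a.2)) (Φ.symm ((Φ p).1, (Φ p).2)) < ε :=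
    k2 _ (hK _ _ k1)
  have t2 : dist (Φ.symm ((Φ p').1, a.2)) (Φ.symm ((Φ p').1, (Φ p').2)) < ε :=
    k2' _ (hK _ _ k1')
  have t3 := hd a.1 (Φ p).1 (Φ p').1 k1 k1' a.2
  rw [e1] at t1
  rw [e2] at t2
  have t4 := dist_triangle p (Φ.symm ((Φ p).1, a.2)) p'
  have t5 := dist_triangle (Φ.symm ((Φ p).1, a.2)) (Φ.symm ((Φ p').1, a.2)) p'
  have t6 := dist_comm p (Φ.symm ((Φ p).1, a.2))
  have t7 : 2 * ε = C' - C := by rw [hε]; ring
  linarith

end Vale.Agent.P210.Cw.Om
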