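import Vale.Agent.P210.Cw.En

/-!
# The energy inequality on open subsets, with completeness cutoffs
-/

open scoped Manifold ContDiff Topology Bundle ENNReal NNReal
open Set Metric Filter Bundle IsManifold MeasureTheory Manifold Asymptotics

set_option maxSynthPendingDepth 3
set_option linter.all false

noncomputable section

namespace Vale.Agent.P210.Cw.Om

open Vale.Agent.P210.R2.H53

theorem quad_nonneg {P Q R x y : ℝ} (hP : 0 ≤ P) (hQ : 0 ≤ Q) (h : R ^ 2 ≤ P * Q) :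
    0 ≤ x ^ 2 * P - 2 * x * y * R + y ^ 2 * Q := by
  rcases hP.eq_or_lt with h0 | h0
  · rw [← h0, zero_mul] at h
    have hR : R = 0 := by
      have : R ^ 2 = 0 := le_antisymm h (sq_nonneg R)
      exact pow_eq_zero_iff (by norm_num) |>.1 this
    rw [← h0, hR]
    have : 0 ≤ y ^ 2 * Q := by positivity
    linarith
  · have h1 : 0 ≤ P * (x ^ 2 * P - 2 * x * y * R + y ^ 2 * Q) := by
      have e : P * (x ^ 2 * P - 2 * x * y * R + y ^ 2 * Q) =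
          (x * P - y * R) ^ 2 + y ^ 2 * (P * Q - R ^ 2) := by ring
      rw [e]
      have : 0 ≤ y ^ 2 * (P * Q - R ^ 2) := mul_nonneg (sq_nonneg y) (by linarith)
      positivity
    exact nonneg_of_mul_nonneg_right h1 h0

variable {E : Type} [NormedAddCommGroup E] [NormedSpace ℝ E] [FiniteDimensional ℝ E]
  [MeasurableSpace E] [BorelSpace E] {M : Type} [MetricSpace M] [ChartedSpace E M]
  [RiemannianBundle (fun x : M => TangentSpace 𝓘(ℝ, E) x)]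
  [MeasurableSpace M] [BorelSpace M] [ProperSpace M] {μ : Measure M}

/-- the pointwise inequality for general weights -/
theorem en_ptc (hc : Cal E μ) {n : ℕ} {c δ B : ℝ} (hδ : 0 < δ)
    (hc1 : δ ≤ (n : ℝ) - 2 - 2 * c - c ^ 2) (hB : (1 + c) ^ 2 ≤ B ^ 2) (a φ ψ : M → ℝ) (p : M)
    (ha : MDifferentiableAt 𝓘(ℝ, E) 𝓘(ℝ, ℝ) a p) (hφ : MDifferentiableAt 𝓘(ℝ, E) 𝓘(ℝ, ℝ) φ p)
    (hψ : MDifferentiableAt 𝓘(ℝ, E) 𝓘(ℝ, ℝ) ψ p) (t : ℝ) :
    0 ≤ (((n : ℝ) - 1) * (n - 2 - 2 * c) * Gam E a a p + 2 * (n - 2 - c) * Gam E a φ p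
      + Gam E φ φ p) * t ^ 2
      - 4 * t * (((n : ℝ) - 1) * Gam E a ψ p + Gam E φ ψ p) +
      (4 + 4 * B ^ 2 / δ) * Gam E ψ ψ p := by
  have hg : MDifferentiableAt 𝓘(ℝ, E) 𝓘(ℝ, ℝ) (fun q => φ q + ((n : ℝ) - 2 - c) * a q) p :=
    hc.md_add hφ (hc.md_smul _ ha)
  have e1 := hc.quad φ a ((n : ℝ) - 2 - c) p hφ ha
  have e2 := hc.quad ψ (fun q => φ q + ((n : ℝ) - 2 - c) * a q) (-t / 2) p hψ hg
  have e4 : Gam E ψ (fun q => φ q + ((n : ℝ) - 2 - c) * a q) p =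
      Gam E ψ φ p + ((n : ℝ) - 2 - c) * Gam E ψ a p := by
    rw [hc.add' _ _ _ _ hφ (hc.md_smul _ ha), hc.smul']
  have n2 := hc.nonneg (fun q => ψ q + -t / 2 * (fun q => φ q + ((n : ℝ) - 2 - c) * a q) q) p
  have s1 := hc.symm φ a p
  have s2 := hc.symm φ ψ p
  have s3 := hc.symm a ψ p
  rw [e2, e4, e1] at n2
  rw [s3, s2, ← s1]
  have hP := hc.nonneg a p
  have hQ := hc.nonneg ψ p
  have hcs := hc.cs a ψ p
  rw [s3] at hcs
  have k1 := quad_nonneg (x := δ * t) (y := 2 * (1 + c)) hP hQ hcs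
  have k2 : 0 ≤ δ * t ^ 2 * Gam E a a p - 4 * (1 + c) * t * Gam E ψ a p +
      4 * B ^ 2 / δ * Gam E ψ ψ p := by
    have h1 : 0 ≤ δ⁻¹ * ((δ * t) ^ 2 * Gam E a a p - 2 * (δ * t) * (2 * (1 + c)) * Gam E ψ a p +
        (2 * (1 + c)) ^ 2 * Gam E ψ ψ p) := mul_nonneg (by positivity) k1
    have h2 : 4 * (1 + c) ^ 2 / δ * Gam E ψ ψ p ≤ 4 * B ^ 2 / δ * Gam E ψ ψ p := by gcongr
    have h3 : δ⁻¹ * ((δ * t) ^ 2 * Gam E a a p - 2 * (δ * t) * (2 * (1 + c)) * Gam E ψ a p +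
        (2 * (1 + c)) ^ 2 * Gam E ψ ψ p) = δ * t ^ 2 * Gam E a a p - 4 * (1 + c) * t * Gam E ψ a p +
        4 * (1 + c) ^ 2 / δ * Gam E ψ ψ p := by
      field_simp
      ring
    linarith
  have k3 : δ * t ^ 2 * Gam E a a p ≤
      ((n : ℝ) - 2 - 2 * c - c ^ 2) * t ^ 2 * Gam E a a p := by gcongr
  generalize 4 * B ^ 2 / δ = κ at *
  nlinarith [n2, k2, k3]

/-- the weak inequality for general weights -/
theorem en_weakc (hC : Stmt.CALC) [IsManifold 𝓘(ℝ, E) ∞ M]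
    [IsContMDiffRiemannianBundle 𝓘(ℝ, E) ∞ E (fun x : M => TangentSpace 𝓘(ℝ, E) x)]
    [IsRiemannianManifold 𝓘(ℝ, E) M] (h1 : 1 ≤ Module.finrank ℝ E) (hc : Cal E μ)
    {n : ℕ} {δ B : ℝ} (hδ : 0 < δ) {G cf : ℝ → ℝ} (hG : ContDiff ℝ ∞ G) (hG0 : ∀ t, 0 < G t)
    (hcf : ∀ t, deriv G t = cf t * G t) (hcf1 : ∀ t, δ ≤ (n : ℝ) - 2 - 2 * cf t - cf t ^ 2)
    (hcf2 : ∀ t, (1 + cf t) ^ 2 ≤ B ^ 2) {a φ S : M → ℝ}
    (ha : TF E a) (hφ : TF E φ)
    (hS : Continuous S) {ψ : M → ℝ} (hψ : LC ψ)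
    (hpt : ∀ p ∈ tsupport ψ, TwS E n (fun x => Real.exp (2 * a x) / 2) a φ p ≤ S p) :
    ∫ p, G (a p) * Real.exp (2 * a p) * ψ p ^ 2 ∂μ ≤
      ∫ p, (2 * (G (a p) * ψ p ^ 2 * S p) +
        2 * (4 + 4 * B ^ 2 / δ) * (G (a p) * Gam E ψ ψ p)) ∂μ := by
  obtain ⟨c1, c2, -⟩ := hC E M h1
  haveI := hc.isFinOn
  have hac : Continuous a := ha.1.continuous
  have hGc : Continuous fun p => G (a p) := hG.continuous.comp hac
  set f : M → ℝ := fun q => ((n : ℝ) - 1) * a q + φ q with hf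
  have hfT : TF E f := ⟨(contMDiff_const.mul ha.1).add hφ.1, (ha.2.mul_left).add hφ.2⟩
  have hψ2 : LC fun q => ψ q * ψ q := LC.mul_left hψ.ll hψ
  have hell : LocallyLipschitz fun q => G (a q) :=
    ((hG.of_le (by simp) : ContDiff ℝ 1 G).locallyLipschitz).comp (hc.tfll a ha)
  set W : M → ℝ := fun q => G (a q) * (ψ q * ψ q) with hW
  have hWL : LC W := LC.mul_left hell hψ2
  have hψll := hψ.ll
  have hdiff : ∀ᵐ p ∂μ, MDifferentiableAt 𝓘(ℝ, E) 𝓘(ℝ, ℝ) ψ p := hc.diff ψ hψll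
  have md : ∀ u : M → ℝ, TF E u → ∀ p, MDifferentiableAt 𝓘(ℝ, E) 𝓘(ℝ, ℝ) u p :=
    fun u hu p => (hu.1 p).mdifferentiableAt (by simp)
  -- integrability
  have i1 : Integrable (Gam E f W) μ := hc.int_gam (hc.tfll f hfT) hWL
  have i4 : Integrable (fun p => W p * Lap E f p) μ :=
    hc.int_cont (hWL.cont.mul (c2 f hfT).1.continuous) hWL.2.mul_right
  have hsq : HasCompactSupport fun p => ψ p ^ 2 :=
    hψ.2.comp_left (g := fun t : ℝ => t ^ 2) (by norm_num)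
  have i5 : Integrable (fun p => G (a p) * Real.exp (2 * a p) * ψ p ^ 2) μ := by
    refine hc.int_cont ?_ hsq.mul_left
    exact (hGc.mul (Real.continuous_exp.comp (continuous_const.mul hac))).mul (hψ.cont.pow 2)
  have i6 : Integrable (fun p => 2 * (G (a p) * ψ p ^ 2 * S p)) μ := by
    refine hc.int_cont ?_ ?_
    · exact continuous_const.mul ((hGc.mul (hψ.cont.pow 2)).mul hS)
    · exact (hsq.mul_left.mul_right).mul_left
  have i7 : Integrable (fun p => 2 * (4 + 4 * B ^ 2 / δ) * (G (a p) * Gam E ψ ψ p)) μ :=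
    (hc.int_mul_gam hGc hψll hψ).const_mul _
  -- the weak identity
  have w1 : ∫ p, (4 * (W p * Lap E f p) + 4 * Gam E f W p) ∂μ = 0 := by
    rw [integral_add (i4.const_mul 4) (i1.const_mul 4), integral_const_mul, integral_const_mul,
      hc.ibp f W hfT hWL]
    ring
  have w2 : ∫ p, (2 * (G (a p) * ψ p ^ 2 * S p) +
        2 * (4 + 4 * B ^ 2 / δ) * (G (a p) * Gam E ψ ψ p)) ∂μ =
      ∫ p, ((2 * (G (a p) * ψ p ^ 2 * S p) +
        2 * (4 + 4 * B ^ 2 / δ) * (G (a p) * Gam E ψ ψ p)) -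
        (4 * (W p * Lap E f p) + 4 * Gam E f W p)) ∂μ := by
    rw [integral_sub (by exact i6.add i7) (by exact (i4.const_mul 4).add (i1.const_mul 4)), w1,
      sub_zero]
  rw [w2]
  refine integral_mono_ae i5
    ((i6.add i7).sub ((i4.const_mul 4).add (i1.const_mul 4))) ?_
  filter_upwards [hdiff] with p hp
  by_cases hps : p ∈ tsupport ψ
  · have k0 := hpt p hps
    have k1 := en_ptc hc hδ (hcf1 (a p)) (hcf2 (a p)) a φ ψ p (md _ ha p) (md _ hφ p) hp (ψ p)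
    have k2 : ∀ w : M → ℝ, Gam E f w p = ((n : ℝ) - 1) * Gam E a w p + Gam E φ w p := by
      intro w
      rw [hf, hc.add _ _ _ _ (hc.md_smul _ (md _ ha p)) (md _ hφ p), hc.smul]
    have k3 : TwS E n (fun x => Real.exp (2 * a x) / 2) a φ p =
      Real.exp (2 * a p) / 2 + 2 * Lap E f p + (n - 1) * (n - 2) * Gam E a a p +
      2 * (n - 2) * Gam E a φ p + Gam E φ φ p := rfl
    have hψψ : MDifferentiableAt 𝓘(ℝ, E) 𝓘(ℝ, ℝ) (fun q => ψ q * ψ q) p := hc.md_mul hp hp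
    have hemd : MDifferentiableAt 𝓘(ℝ, E) 𝓘(ℝ, ℝ) (fun q => G (a q)) p := by
      have e1 : ContMDiffAt 𝓘(ℝ, E) 𝓘(ℝ, ℝ) ∞ (fun q => G (a q)) p :=
        (hG.contMDiff.contMDiffAt).comp p (ha.1 p)
      exact e1.mdifferentiableAt (by simp)
    have k4 : Gam E f W p = G (a p) * (2 * ψ p * Gam E f ψ p) +
        (ψ p * ψ p) * (cf (a p) * G (a p) * Gam E f a p) := by
      rw [hW, hc.mul' _ _ _ _ hemd hψψ, hc.mul' _ _ _ _ hp hp, hc.symm f (fun q =>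
        G (a q)), hc.comp G a f p (md _ ha p) ((hG.differentiable (by simp)) _), hc.symm a f, hcf]
      ring
    have s1 := hc.symm φ a p
    rw [k3] at k0
    rw [k4, k2 ψ, k2 a, hW]
    simp only
    rw [s1]
    have he : 0 < G (a p) := hG0 _
    set e := G (a p) with hedef
    set cc := cf (a p) with hccdef
    have k6 : 0 ≤ e * ψ p ^ 2 := by positivity
    have k7 := mul_le_mul_of_nonneg_left k0 k6
    have k8 := mul_nonneg he.le k1
    generalize 4 + 4 * B ^ 2 / δ = κ at *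
    nlinarith [k7, k8]
  · have k1 : ψ p = 0 := image_eq_zero_of_notMem_tsupport hps
    have k2 : Gam E ψ ψ p = 0 := hc.gam_zero_of_notMem ψ hps
    have hW0 : p ∉ tsupport W := by
      intro hcon
      apply hps
      have : tsupport W ⊆ tsupport ψ := by
        apply closure_mono
        intro q hq
        rw [Function.mem_support] at hq ⊢
        intro h0
        apply hq
        simp only [hW, h0, mul_zero]
      exact this hcon
    have k3 : Gam E f W p = 0 := hc.gam_zero_of_notMem f hW0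
    have k4 : W p = 0 := by simp only [hW, k1, mul_zero]
    rw [k1, k2, k3, k4]
    simp

/-! ### The weights -/

/-- the weight -/
def Wt (β ε t : ℝ) : ℝ := Real.exp (β * t) / (1 + ε * Real.exp ((β + 2) * t))

/-- its logarithmic derivative -/
def Wc (β ε t : ℝ) : ℝ :=
  β - (β + 2) * (ε * Real.exp ((β + 2) * t)) / (1 + ε * Real.exp ((β + 2) * t))

theorem Wt_den {β ε : ℝ} (hε : 0 ≤ ε) (t : ℝ) : 0 < 1 + ε * Real.exp ((β + 2) * t) := by
  have : 0 < Real.exp ((β + 2) * t) := Real.exp_pos _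
  positivity

theorem Wt_pos {β ε : ℝ} (hε : 0 ≤ ε) (t : ℝ) : 0 < Wt β ε t :=
  div_pos (Real.exp_pos _) (Wt_den hε t)

theorem Wt_smooth {β ε : ℝ} (hε : 0 ≤ ε) : ContDiff ℝ ∞ (Wt β ε) := by
  unfold Wt
  apply ContDiff.div
  · fun_prop
  · fun_prop
  · intro t
    exact (Wt_den hε t).ne'

theorem Wt_deriv {β ε : ℝ} (hε : 0 ≤ ε) (t : ℝ) : deriv (Wt β ε) t = Wc β ε t * Wt β ε t := by
  have hd := Wt_den (β := β) hε t
  have h1 : HasDerivAt (fun t : ℝ => Real.exp (β * t)) (Real.exp (β * t) * (β * 1)) t :=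
    ((hasDerivAt_id t).const_mul β).exp
  have h2 : HasDerivAt (fun t : ℝ => Real.exp ((β + 2) * t))
      (Real.exp ((β + 2) * t) * ((β + 2) * 1)) t := ((hasDerivAt_id t).const_mul (β + 2)).exp
  have h3 : HasDerivAt (fun t : ℝ => 1 + ε * Real.exp ((β + 2) * t))
      (ε * (Real.exp ((β + 2) * t) * ((β + 2) * 1))) t := (h2.const_mul ε).const_add 1
  have h4 := h1.div h3 hd.ne'
  have h5 : deriv (Wt β ε) t = _ := h4.deriv
  rw [h5]
  unfold Wc Wt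
  field_simp

theorem Wc_le {β ε : ℝ} (hβ : 0 < β) (hε : 0 ≤ ε) (t : ℝ) : Wc β ε t ≤ β := by
  have hd := Wt_den (β := β) hε t
  unfold Wc
  have : 0 ≤ (β + 2) * (ε * Real.exp ((β + 2) * t)) / (1 + ε * Real.exp ((β + 2) * t)) := by
    have := Real.exp_pos ((β + 2) * t)
    positivity
  linarith

theorem Wc_ge {β ε : ℝ} (hβ : 0 < β) (hε : 0 ≤ ε) (t : ℝ) : -2 ≤ Wc β ε t := by
  have hd := Wt_den (β := β) hε t
  unfold Wc
  have : (β + 2) * (ε * Real.exp ((β + 2) * t)) / (1 + ε * Real.exp ((β + 2) * t)) ≤ β + 2 := by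
    rw [div_le_iff₀ hd]
    nlinarith
  linarith

theorem Wc_sq {β ε : ℝ} (hβ : 0 < β) (hε : 0 ≤ ε) (t : ℝ) : (1 + Wc β ε t) ^ 2 ≤ (1 + β) ^ 2 := by
  have h1 := Wc_le hβ hε t
  have h2 := Wc_ge hβ hε t
  apply sq_le_sq'
  · linarith
  · linarith

/-- the constants of the energy inequality -/
def D1 (β : ℝ) : ℝ := 4 * √8 ^ β

/-- the constants of the energy inequality -/
def D2 (n : ℕ) (β : ℝ) : ℝ := 32 * C0 n β * √(64 * C0 n β) ^ β

/-- the three terms -/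
theorem en_alg {β ε r C y g S z Gψ Gz : ℝ} (hβ0 : 0 < β) (hβ1 : β ≤ 1) (hε : 0 < ε) (hr : 0 < r)
    (hC : 0 < C) (hy : 0 < y) (hg0 : 0 < g) (hg1 : g ≤ y ^ β) (hg2 : g * y ^ 2 ≤ 1 / ε)
    (hS0 : 0 ≤ S) (hz0 : 0 ≤ z) (hz1 : z ≤ 1) (hGz : Gz ≤ 2 * (ε * y) ^ 2 + 2 * (r⁻¹) ^ 2)
    (hGψ : Gψ = 4 * z ^ 2 * Gz) :
    2 * (g * (z * z) ^ 2 * S) + 2 * C * (g * Gψ) ≤ 1 / 2 * (g * y ^ 2 * (z * z) ^ 2) +
      (2 * √8 ^ β * S ^ ((β + 2) / 2) + (16 * C * √(64 * C) ^ β * r ^ (-(β + 2)) +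
        16 * C * ε)) := by
  have hz2 : z ^ 2 ≤ 1 := pow_le_one₀ hz0 hz1
  have hz4 : (z * z) ^ 2 ≤ 1 := by
    have : z * z ≤ 1 := by nlinarith
    exact pow_le_one₀ (by positivity) this
  have y1 : 2 * (g * (z * z) ^ 2 * S) ≤ 1 / 4 * (g * y ^ 2 * (z * z) ^ 2) +
      2 * √8 ^ β * S ^ ((β + 2) / 2) := by
    rcases le_or_gt (8 * S) (y ^ 2) with h8 | h8
    · have e1 : 2 * (g * (z * z) ^ 2 * S) ≤ 1 / 4 * (g * y ^ 2 * (z * z) ^ 2) := by
        have e2 : 0 ≤ g * (z * z) ^ 2 := by positivity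
        nlinarith
      have e3 : 0 ≤ 2 * √8 ^ β * S ^ ((β + 2) / 2) := by positivity
      linarith
    · have e1 : y ≤ √8 * √S := by
        rw [← Real.sqrt_mul (by norm_num)]
        exact ((Real.lt_sqrt hy.le).2 h8).le
      have e2 : g ≤ √8 ^ β * S ^ (β / 2) := by
        calc g ≤ y ^ β := hg1
          _ ≤ (√8 * √S) ^ β := by gcongr
          _ = √8 ^ β * S ^ (β / 2) := by
            rw [Real.mul_rpow (by positivity) (by positivity), Real.sqrt_eq_rpow S,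
              ← Real.rpow_mul hS0]
            congr 2
            ring
      have e3 : S ^ (β / 2) * S = S ^ ((β + 2) / 2) := by
        rcases hS0.eq_or_lt with h0 | h0
        · rw [← h0, mul_zero, Real.zero_rpow (by positivity)]
        · rw [show (β + 2) / 2 = β / 2 + 1 by ring, Real.rpow_add h0, Real.rpow_one]
      have e4 : 2 * (g * (z * z) ^ 2 * S) ≤ 2 * √8 ^ β * S ^ ((β + 2) / 2) := by
        have hSb : 0 ≤ S ^ (β / 2) := Real.rpow_nonneg hS0 _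
        calc 2 * (g * (z * z) ^ 2 * S)
            ≤ 2 * ((√8 ^ β * S ^ (β / 2)) * 1 * S) := by gcongr
          _ = 2 * √8 ^ β * (S ^ (β / 2) * S) := by ring
          _ = _ := by rw [e3]
      have e5 : 0 ≤ 1 / 4 * (g * y ^ 2 * (z * z) ^ 2) := by positivity
      linarith
  have y2 : 16 * C * (g * z ^ 2 * (r⁻¹) ^ 2) ≤
      1 / 4 * (g * y ^ 2 * (z * z) ^ 2) + 16 * C * √(64 * C) ^ β * r ^ (-(β + 2)) := by
    rcases le_or_gt (64 * C * (r⁻¹) ^ 2) ((z * y) ^ 2) with h8 | h8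
    · have e1 : 16 * C * (g * z ^ 2 * (r⁻¹) ^ 2) ≤ 1 / 4 * (g * y ^ 2 * (z * z) ^ 2) := by
        have e2 : 0 ≤ g * z ^ 2 := by positivity
        have e3 := mul_le_mul_of_nonneg_left h8 e2
        nlinarith
      have e3 : 0 ≤ 16 * C * √(64 * C) ^ β * r ^ (-(β + 2)) := by positivity
      linarith
    · have hzy : 0 ≤ z * y := mul_nonneg hz0 hy.le
      have e1 : z * y ≤ √(64 * C) * r⁻¹ := by
        have e0 : √(64 * C * (r⁻¹) ^ 2) = √(64 * C) * r⁻¹ := by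
          rw [Real.sqrt_mul (by positivity), Real.sqrt_sq (by positivity)]
        rw [← e0]
        exact ((Real.lt_sqrt hzy).2 h8).le
      have e2 : g * z ^ 2 ≤ √(64 * C) ^ β * (r⁻¹) ^ β := by
        have e3 : z ^ 2 ≤ z ^ β := by
          rcases hz0.eq_or_lt with h | h
          · rw [← h]
            simp
            exact Real.rpow_nonneg le_rfl _
          · calc z ^ 2 = z ^ (2 : ℝ) := (Real.rpow_two _).symm
              _ ≤ z ^ β := Real.rpow_le_rpow_of_exponent_ge h hz1 (by linarith)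
        calc g * z ^ 2 ≤ y ^ β * z ^ β := by gcongr
          _ = (z * y) ^ β := by rw [Real.mul_rpow hz0 hy.le]; ring
          _ ≤ (√(64 * C) * r⁻¹) ^ β := by gcongr
          _ = _ := Real.mul_rpow (by positivity) (by positivity)
      have e4 : (r⁻¹) ^ β * (r⁻¹) ^ 2 = r ^ (-(β + 2)) := by
        rw [← Real.rpow_two, ← Real.rpow_add (by positivity), Real.inv_rpow hr.le,
          Real.rpow_neg hr.le]
      have e5 : 0 ≤ 1 / 4 * (g * y ^ 2 * (z * z) ^ 2) := by positivity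
      calc 16 * C * (g * z ^ 2 * (r⁻¹) ^ 2)
          ≤ 16 * C * ((√(64 * C) ^ β * (r⁻¹) ^ β) * (r⁻¹) ^ 2) := by gcongr
        _ = 16 * C * √(64 * C) ^ β * ((r⁻¹) ^ β * (r⁻¹) ^ 2) := by ring
        _ = 16 * C * √(64 * C) ^ β * r ^ (-(β + 2)) := by rw [e4]
        _ ≤ _ := by linarith
  have y3 : 16 * C * (g * z ^ 2 * (ε * y) ^ 2) ≤ 16 * C * ε := by
    have e1 : g * z ^ 2 * (ε * y) ^ 2 = ε ^ 2 * (z ^ 2 * (g * y ^ 2)) := by ring
    rw [e1]
    have e2 : z ^ 2 * (g * y ^ 2) ≤ 1 * (1 / ε) := by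
      have : 0 ≤ g * y ^ 2 := by positivity
      exact mul_le_mul hz2 hg2 this zero_le_one
    calc 16 * C * (ε ^ 2 * (z ^ 2 * (g * y ^ 2)))
        ≤ 16 * C * (ε ^ 2 * (1 * (1 / ε))) := by gcongr
      _ = _ := by field_simp
  have y4 : 2 * C * (g * Gψ) ≤ 16 * C * (g * z ^ 2 * (r⁻¹) ^ 2) +
      16 * C * (g * z ^ 2 * (ε * y) ^ 2) := by
    rw [hGψ]
    have e1 : 0 ≤ 2 * C * (g * (4 * z ^ 2)) := by positivity
    have e2 := mul_le_mul_of_nonneg_left hGz e1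
    nlinarith
  linarith

theorem Wt_le {β ε : ℝ} (hε : 0 ≤ ε) (t : ℝ) : Wt β ε t ≤ Real.exp t ^ β := by
  unfold Wt
  rw [div_le_iff₀ (Wt_den hε _), ← Real.exp_mul, mul_comm t β]
  have e1 : 0 < Real.exp (β * t) := Real.exp_pos _
  have e2 : 0 ≤ ε * Real.exp ((β + 2) * t) := by positivity
  nlinarith

theorem exp_sq (t : ℝ) : Real.exp t ^ 2 = Real.exp (2 * t) := by
  rw [← Real.exp_nat_mul]
  congr 1

theorem Wt_sq {β ε : ℝ} (hε : 0 ≤ ε) (t : ℝ) : Wt β ε t * Real.exp (2 * t) =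
    Real.exp ((β + 2) * t) / (1 + ε * Real.exp ((β + 2) * t)) := by
  unfold Wt
  rw [div_mul_eq_mul_div, ← Real.exp_add]
  congr 2
  ring

theorem Wt_bd {β ε : ℝ} (hε : 0 < ε) (t : ℝ) : Wt β ε t * Real.exp t ^ 2 ≤ 1 / ε := by
  rw [exp_sq, Wt_sq hε.le, div_le_div_iff₀ (Wt_den hε.le _) hε]
  linarith

/-- the gradient of a product -/
theorem gam_prod (hc : Cal E μ) {ζ θ : M → ℝ} {p : M}
    (hζ : MDifferentiableAt 𝓘(ℝ, E) 𝓘(ℝ, ℝ) ζ p) (hθ : MDifferentiableAt 𝓘(ℝ, E) 𝓘(ℝ, ℝ) θ p)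
    (h1 : 0 ≤ ζ p) (h2 : ζ p ≤ 1) (h3 : 0 ≤ θ p) (h4 : θ p ≤ 1) {A B : ℝ}
    (hA : Gam E θ θ p ≤ A) (hB : Gam E ζ ζ p ≤ B) :
    Gam E (fun q => ζ q * θ q) (fun q => ζ q * θ q) p ≤ 2 * A + 2 * B := by
  have e1 : Gam E (fun q => ζ q * θ q) (fun q => ζ q * θ q) p =
      ζ p ^ 2 * Gam E θ θ p + 2 * ζ p * θ p * Gam E ζ θ p + θ p ^ 2 * Gam E ζ ζ p := by
    rw [hc.mul _ _ _ _ hζ hθ, hc.mul' _ _ _ _ hζ hθ, hc.mul' _ _ _ _ hζ hθ, hc.symm θ ζ]
    ring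
  have e2 : 0 ≤ ζ p ^ 2 * Gam E θ θ p - 2 * ζ p * θ p * Gam E ζ θ p +
      θ p ^ 2 * Gam E ζ ζ p :=
    quad_nonneg (hc.nonneg θ p) (hc.nonneg ζ p) (by
      have := hc.cs ζ θ p
      rwa [mul_comm] at this)
  have e3 : ζ p ^ 2 * Gam E θ θ p ≤ 1 * A :=
    mul_le_mul (pow_le_one₀ h1 h2) hA (hc.nonneg θ p) zero_le_one
  have e4 : θ p ^ 2 * Gam E ζ ζ p ≤ 1 * B :=
    mul_le_mul (pow_le_one₀ h3 h4) hB (hc.nonneg ζ p) zero_le_one
  rw [e1]
  linarith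

/-- the energy inequality for a fixed weight and a fixed cutoff -/
theorem en_cut (hC : Stmt.CALC) [IsManifold 𝓘(ℝ, E) ∞ M]
    [IsContMDiffRiemannianBundle 𝓘(ℝ, E) ∞ E (fun x : M => TangentSpace 𝓘(ℝ, E) x)]
    [IsRiemannianManifold 𝓘(ℝ, E) M] (h1 : 1 ≤ Module.finrank ℝ E) (hc : Cal E μ)
    {n : ℕ} {β : ℝ} (hβ0 : 0 < β) (hβ1 : β ≤ 1)
    (hβ : 0 < (n : ℝ) - 2 - 2 * β - β ^ 2) {a φ S ζ θ : M → ℝ}
    (ha : TF E a) (hφ : TF E φ) (hS : Continuous S) (hS0 : ∀ p, 0 ≤ S p)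
    (hζ : LC ζ) (hθ : LC θ) (hζ01 : ∀ p, 0 ≤ ζ p ∧ ζ p ≤ 1) (hθ01 : ∀ p, 0 ≤ θ p ∧ θ p ≤ 1)
    {x : M} {r : ℝ} (hr : 0 < r) (hζ2 : ∀ p, 2 * r ≤ dist p x → ζ p = 0)
    (hζl : ∀ p q, |ζ p - ζ q| ≤ r⁻¹ * dist p q) {ε : ℝ} (hε : 0 < ε)
    (hpt : ∀ p ∈ tsupport (fun p => (ζ p * θ p) * (ζ p * θ p)),
      TwS E n (fun x => Real.exp (2 * a x) / 2) a φ p ≤ S p)
    (hθg : ∀ p ∈ tsupport (fun p => (ζ p * θ p) * (ζ p * θ p)),
      Gam E θ θ p ≤ (ε * Real.exp (a p)) ^ 2) :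
    (Integrable (fun p => Wt β ε (a p) * Real.exp (2 * a p) *
      ((ζ p * θ p) * (ζ p * θ p)) ^ 2) μ) ∧
    ∫ p, Wt β ε (a p) * Real.exp (2 * a p) * ((ζ p * θ p) * (ζ p * θ p)) ^ 2 ∂μ ≤
      D1 β * ∫ p in ball x (2 * r), S p ^ ((β + 2) / 2) ∂μ +
        D2 n β * r ^ (-(β + 2)) * μ.real (ball x (2 * r)) +
        ε * (32 * C0 n β * μ.real (ball x (2 * r))) := by
  haveI := hc.isFinOn
  have hC0 := C0_pos hβ
  set z : M → ℝ := fun p => ζ p * θ p with hzdef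
  have hzL : LC z := LC.mul_left hζ.ll hθ
  set ψ : M → ℝ := fun p => z p * z p with hψdef
  have hψ : LC ψ := LC.mul_left hzL.ll hzL
  have hw := en_weakc hC h1 hc (n := n) (δ := (n : ℝ) - 2 - 2 * β - β ^ 2) (B := 1 + β) hβ
    (Wt_smooth (β := β) hε.le) (fun t => Wt_pos hε.le t) (fun t => Wt_deriv hε.le t)
    (fun t => by
      have := Wc_sq hβ0 hε.le t
      nlinarith)
    (fun t => Wc_sq hβ0 hε.le t) ha hφ hS hψ hpt
  change _ ≤ ∫ p, (2 * (Wt β ε (a p) * ψ p ^ 2 * S p) +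
    2 * C0 n β * (Wt β ε (a p) * Gam E ψ ψ p)) ∂μ at hw
  have hbf : μ (ball x (2 * r)) ≠ ⊤ :=
    ne_top_of_le_ne_top (isCompact_closedBall x (2 * r)).measure_ne_top
      (measure_mono ball_subset_closedBall)
  have hWc : Continuous fun p => Wt β ε (a p) :=
    (Wt_smooth (β := β) hε.le).continuous.comp ha.1.continuous
  have hac : Continuous a := ha.1.continuous
  set G : M → ℝ := fun p => Wt β ε (a p) * Real.exp (2 * a p) * ψ p ^ 2 with hG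
  have hsq : HasCompactSupport fun p => ψ p ^ 2 :=
    hψ.2.comp_left (g := fun t : ℝ => t ^ 2) (by norm_num)
  have hGi : Integrable G μ := by
    refine hc.int_cont ?_ hsq.mul_left
    exact (hWc.mul (Real.continuous_exp.comp (continuous_const.mul hac))).mul (hψ.cont.pow 2)
  have hSc : Continuous fun p => S p ^ ((β + 2) / 2) :=
    hS.rpow_const fun p => Or.inr (by positivity)
  have hSi : IntegrableOn (fun p => S p ^ ((β + 2) / 2)) (ball x (2 * r)) μ :=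
    (hSc.continuousOn.integrableOn_compact (isCompact_closedBall x _)).mono_set
      ball_subset_closedBall
  -- the right hand side
  set H : M → ℝ := (ball x (2 * r)).indicator (fun p => 2 * √8 ^ β * S p ^ ((β + 2) / 2) +
    (16 * C0 n β * √(64 * C0 n β) ^ β * r ^ (-(β + 2)) + 16 * C0 n β * ε)) with hH
  have hHi : Integrable H μ := by
    rw [hH, integrable_indicator_iff measurableSet_ball]
    exact (hSi.const_mul _).add (integrableOn_const hbf)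
  have hdζ : ∀ᵐ p ∂μ, MDifferentiableAt 𝓘(ℝ, E) 𝓘(ℝ, ℝ) ζ p := hc.diff ζ hζ.ll
  have hdθ : ∀ᵐ p ∂μ, MDifferentiableAt 𝓘(ℝ, E) 𝓘(ℝ, ℝ) θ p := hc.diff θ hθ.ll
  have key : ∫ p, (2 * (Wt β ε (a p) * ψ p ^ 2 * S p) +
        2 * C0 n β * (Wt β ε (a p) * Gam E ψ ψ p)) ∂μ ≤ ∫ p, (1 / 2 * G p + H p) ∂μ := by
    have i6 : Integrable (fun p => 2 * (Wt β ε (a p) * ψ p ^ 2 * S p)) μ := by
      refine hc.int_cont ?_ ?_
      · exact continuous_const.mul ((hWc.mul (hψ.cont.pow 2)).mul hS)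
      · exact (hsq.mul_left.mul_right).mul_left
    have i7 : Integrable (fun p => 2 * C0 n β * (Wt β ε (a p) * Gam E ψ ψ p)) μ :=
      (hc.int_mul_gam hWc hψ.ll hψ).const_mul _
    refine integral_mono_ae (i6.add i7) ((hGi.const_mul _).add hHi) ?_
    filter_upwards [hdζ, hdθ] with p hpζ hpθ
    have hpz : MDifferentiableAt 𝓘(ℝ, E) 𝓘(ℝ, ℝ) z p := hc.md_mul hpζ hpθ
    have g2 : Gam E ψ ψ p = 4 * z p ^ 2 * Gam E z z p := by
      rw [hψdef, hc.mul _ _ _ _ hpz hpz, hc.mul' _ _ _ _ hpz hpz]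
      ring
    by_cases hpb : p ∈ ball x (2 * r)
    · have hHp : H p = 2 * √8 ^ β * S p ^ ((β + 2) / 2) +
          (16 * C0 n β * √(64 * C0 n β) ^ β * r ^ (-(β + 2)) + 16 * C0 n β * ε) := by
        rw [hH, indicator_of_mem hpb]
      have hSp0 : 0 ≤ S p ^ ((β + 2) / 2) := Real.rpow_nonneg (hS0 p) _
      have hHp0 : 0 ≤ H p := by rw [hHp]; positivity
      by_cases hps : p ∈ tsupport ψ
      · have g1 : Gam E ζ ζ p ≤ (r⁻¹) ^ 2 := hc.le_of_lip' (by positivity) hζl p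
        have g3 : Gam E z z p ≤ 2 * (ε * Real.exp (a p)) ^ 2 + 2 * (r⁻¹) ^ 2 :=
          gam_prod hc hpζ hpθ (hζ01 p).1 (hζ01 p).2 (hθ01 p).1 (hθ01 p).2 (hθg p hps) g1
        have g4 := en_alg hβ0 hβ1 hε hr hC0 (Real.exp_pos (a p)) (Wt_pos (β := β) hε.le (a p))
          (Wt_le hε.le (a p)) (Wt_bd hε (a p)) (hS0 p)
          (mul_nonneg (hζ01 p).1 (hθ01 p).1) (mul_le_one₀ (hζ01 p).2 (hθ01 p).1 (hθ01 p).2) g3 g2
        rw [exp_sq] at g4
        change _ ≤ 1 / 2 * (Wt β ε (a p) * Real.exp (2 * a p) * ψ p ^ 2) + H p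
        rw [hHp]
        exact g4
      · have k1 : ψ p = 0 := image_eq_zero_of_notMem_tsupport hps
        have k2 : Gam E ψ ψ p = 0 := hc.gam_zero_of_notMem ψ hps
        simp only [hG]
        rw [k1, k2]
        simpa using hHp0
    · have hζp : ζ p = 0 := hζ2 p (by
        rw [mem_ball, not_lt] at hpb
        exact hpb)
      have hHp : H p = 0 := by rw [hH, indicator_of_notMem hpb]
      have hzp : z p = 0 := by simp only [hzdef, hζp, zero_mul]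
      have hψp : ψ p = 0 := by simp only [hψdef, hzp, mul_zero]
      have g2' : Gam E ψ ψ p = 0 := by
        rw [g2, hzp]
        ring
      simp only [hG, hHp, hψp, g2']
      simp
  have hw' : ∫ p, G p ∂μ ≤ ∫ p, (1 / 2 * G p + H p) ∂μ := hw.trans key
  rw [integral_add (hGi.const_mul _) hHi, integral_const_mul] at hw'
  have hHint : ∫ p, H p ∂μ = 2 * √8 ^ β * ∫ p in ball x (2 * r), S p ^ ((β + 2) / 2) ∂μ +
      (16 * C0 n β * √(64 * C0 n β) ^ β * r ^ (-(β + 2)) + 16 * C0 n β * ε) *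
        μ.real (ball x (2 * r)) := by
    rw [hH, integral_indicator measurableSet_ball,
      integral_add (hSi.const_mul _) (integrableOn_const hbf), integral_const_mul,
      setIntegral_const, smul_eq_mul]
    ring
  refine ⟨hGi, ?_⟩
  rw [hHint] at hw'
  unfold D1 D2
  linarith

end Vale.Agent.P210.Cw.Om
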