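import Vale.Agent.P210.Cx.En

/-!
# The energy of balls
-/

open scoped Manifold ContDiff Topology Bundle ENNReal NNReal
open Set Metric Filter Bundle IsManifold MeasureTheory Manifold Asymptotics

set_option maxSynthPendingDepth 3
set_option linter.all false

noncomputable section

namespace Vale.Agent.P210.Cw.Om

open Vale.Agent.P210.R2.H53

variable {E : Type} [NormedAddCommGroup E] [NormedSpace ℝ E] [FiniteDimensional ℝ E]
  [MeasurableSpace E] [BorelSpace E] {M : Type} [MetricSpace M] [ChartedSpace E M]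
  [RiemannianBundle (fun x : M => TangentSpace 𝓘(ℝ, E) x)]
  [MeasurableSpace M] [BorelSpace M] [ProperSpace M] {μ : Measure M}

/-- cutting off functions on `Ω` -/
theorem cut_smooth {Ω : Set M} (hΩ : IsOpen Ω) {χ v : M → ℝ} (hχ : TF E χ)
    (hχΩ : tsupport χ ⊆ Ω) (hv : ContMDiffOn 𝓘(ℝ, E) 𝓘(ℝ, ℝ) ∞ v Ω) : TF E fun q => χ q * v q := by
  refine ⟨fun p => ?_, hχ.2.mul_right⟩
  by_cases hp : p ∈ Ω
  · exact (hχ.1 p).mul (hv.contMDiffAt (hΩ.mem_nhds hp))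
  · have h2 : (fun q => χ q * v q) =ᶠ[𝓝 p] fun _ => (0 : ℝ) := by
      have h3 : p ∉ tsupport χ := fun h => hp (hχΩ h)
      filter_upwards [(isClosed_tsupport χ).isOpen_compl.mem_nhds h3] with q hq
      rw [image_eq_zero_of_notMem_tsupport hq, zero_mul]
    exact contMDiffAt_const.congr_of_eventuallyEq h2

theorem en_ballK (hC : Stmt.CALC) [IsManifold 𝓘(ℝ, E) ∞ M]
    [IsContMDiffRiemannianBundle 𝓘(ℝ, E) ∞ E (fun x : M => TangentSpace 𝓘(ℝ, E) x)]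
    [IsRiemannianManifold 𝓘(ℝ, E) M] (h1 : 1 ≤ Module.finrank ℝ E) (hc : Cal E μ)
    {n : ℕ} {β : ℝ} (hβ0 : 0 < β) (hβ1 : β ≤ 1)
    (hβ : 0 < (n : ℝ) - 2 - 2 * β - β ^ 2) {Ω : Set M} (hΩ : IsOpen Ω) {a ρ : M → ℝ}
    (ha : ContMDiffOn 𝓘(ℝ, E) 𝓘(ℝ, ℝ) ∞ a Ω)
    (hρ : ∀ p ∈ Ω, ρ p = Real.exp (a p))
    (hcomp : ∀ ε > 0, ∀ K : Set M, IsCompact K → K ⊆ Ω → ∃ θ : M → ℝ, LC θ ∧ tsupport θ ⊆ Ω ∧
      (∀ p, 0 ≤ θ p ∧ θ p ≤ 1) ∧ (∀ p ∈ K, θ p = 1) ∧ ∀ p ∈ Ω, Gam E θ θ p ≤ (ε * ρ p) ^ 2)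
    (x : M) {r : ℝ} (hr : 0 < r) {Q₁ : ℝ}
    (hpt : ∀ K : Set M, IsCompact K → K ⊆ Ω → ∃ φ S : M → ℝ,
      ContMDiffOn 𝓘(ℝ, E) 𝓘(ℝ, ℝ) ∞ φ Ω ∧ Continuous S ∧ (∀ p, 0 ≤ S p) ∧
      (∀ p ∈ K, TwS E n (fun x => Real.exp (2 * a x) / 2) a φ p ≤ S p) ∧
      ∫ p in ball x (2 * r), S p ^ ((β + 2) / 2) ∂μ ≤ Q₁)
    {K : Set M} (hK : IsCompact K) (hKΩ : K ⊆ Ω) :
    IntegrableOn (fun p => ρ p ^ (β + 2)) (K ∩ ball x r) μ ∧
    ∫ p in K ∩ ball x r, ρ p ^ (β + 2) ∂μ ≤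
      D1 β * Q₁ + D2 n β * r ^ (-(β + 2)) * μ.real (ball x (2 * r)) := by
  haveI := hc.isFinOn
  have hKb : MeasurableSet (K ∩ ball x r) := hK.measurableSet.inter measurableSet_ball
  have h6 : ContinuousOn (fun p => Real.exp (a p) ^ (β + 2)) K :=
    ((Real.continuous_exp.comp_continuousOn (ha.continuousOn.mono hKΩ))).rpow_const
      fun p _ => Or.inl (Real.exp_pos _).ne'
  have e5 : IntegrableOn (fun p => ρ p ^ (β + 2)) (K ∩ ball x r) μ := by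
    have h7 : IntegrableOn (fun p => Real.exp (a p) ^ (β + 2)) K μ :=
      h6.integrableOn_compact hK
    refine (h7.mono_set inter_subset_left).congr_fun (fun p hp => ?_) hKb
    simp only
    rw [hρ p (hKΩ hp.1)]
  refine ⟨e5, ?_⟩
  obtain ⟨Mb, hMb⟩ : ∃ Mb : ℝ, 0 ≤ Mb ∧ ∀ p ∈ K, ρ p ^ (β + 2) ≤ Mb := by
    obtain ⟨B, hB⟩ := hK.bddAbove_image h6
    refine ⟨max B 0, le_max_right _ _, fun p hp => ?_⟩
    rw [hρ p (hKΩ hp)]
    exact (hB ⟨p, hp, rfl⟩).trans (le_max_left _ _)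
  obtain ⟨hMb0, hMb⟩ := hMb
  have key : ∀ ε : ℝ, 0 < ε → ∫ p in K ∩ ball x r, ρ p ^ (β + 2) ∂μ ≤ (1 + ε * Mb) *
      (D1 β * Q₁ +
        D2 n β * r ^ (-(β + 2)) * μ.real (ball x (2 * r)) +
        ε * (32 * C0 n β * μ.real (ball x (2 * r)))) := by
    intro ε hε
    obtain ⟨θ, hθ, hθΩ, hθ01, hθK, hθg⟩ := hcomp ε hε K hK hKΩ
    obtain ⟨φ, S, hφ, hS, hS0, hpt, hSQ⟩ := hpt (tsupport θ) hθ.2 hθΩ
    obtain ⟨ζ, hζ, hζ01, hζ1, hζ2, hζl⟩ := lc_cutoff x (a := r) (b := 2 * r) (by linarith)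
    have hrr : 2 * r - r = r := by ring
    rw [hrr] at hζl
    have hψθ : tsupport (fun p => (ζ p * θ p) * (ζ p * θ p)) ⊆ tsupport θ := by
      apply closure_mono
      intro q hq
      rw [Function.mem_support] at hq ⊢
      intro h0
      apply hq
      simp only [h0, mul_zero]
    have hψΩ : tsupport (fun p => (ζ p * θ p) * (ζ p * θ p)) ⊆ Ω := hψθ.trans hθΩ
    have hψc : IsCompact (tsupport (fun p => (ζ p * θ p) * (ζ p * θ p))) :=
      hθ.2.of_isClosed_subset (isClosed_tsupport _) hψθ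
    obtain ⟨χ, hχ, -, hχ1, hχΩ⟩ := hc.cut _ Ω hψc hΩ hψΩ
    set a' : M → ℝ := fun q => χ q * a q with ha'
    set φ' : M → ℝ := fun q => χ q * φ q with hφ'
    have haT : TF E a' := cut_smooth hΩ hχ hχΩ ha
    have hφT : TF E φ' := cut_smooth hΩ hχ hχΩ hφ
    have hloc : ∀ p ∈ tsupport (fun p => (ζ p * θ p) * (ζ p * θ p)),
        a' =ᶠ[𝓝 p] a ∧ φ' =ᶠ[𝓝 p] φ := by
      intro p hp
      have h2 : ∀ᶠ q in 𝓝 p, χ q = 1 := (mem_nhdsSet_iff_forall.1 hχ1) p hp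
      constructor <;> filter_upwards [h2] with q hq
      · rw [ha']; simp only [hq, one_mul]
      · rw [hφ']; simp only [hq, one_mul]
    have hpt' : ∀ p ∈ tsupport (fun p => (ζ p * θ p) * (ζ p * θ p)),
        TwS E n (fun x => Real.exp (2 * a' x) / 2) a' φ' p ≤ S p := by
      intro p hp
      obtain ⟨h2, h3⟩ := hloc p hp
      refine le_trans (le_of_eq ?_) (hpt p (hψθ hp))
      rw [TwS_congr n hc h2 h3]
      unfold TwS
      simp only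
      rw [h2.self_of_nhds]
    obtain ⟨hGi, hcut⟩ := en_cut hC h1 hc hβ0 hβ1 hβ haT hφT hS hS0 hζ hθ hζ01 hθ01 hr hζ2 hζl hε
      hpt' (fun p hp => by
        rw [(hloc p hp).1.self_of_nhds, ← hρ p (hψΩ hp)]
        exact hθg p (hψΩ hp))
    have hD1 : 0 ≤ D1 β := by unfold D1; positivity
    have hcut := hcut.trans (add_le_add_left (add_le_add_left (mul_le_mul_of_nonneg_left hSQ hD1) _) _)
    have hG0 : ∀ p, 0 ≤ Wt β ε (a' p) * Real.exp (2 * a' p) *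
        ((ζ p * θ p) * (ζ p * θ p)) ^ 2 := fun p => by
      have := Wt_pos (β := β) hε.le (a' p)
      positivity
    have e1 : ∀ p ∈ K ∩ ball x r, ρ p ^ (β + 2) ≤ (1 + ε * Mb) *
        (Wt β ε (a' p) * Real.exp (2 * a' p) * ((ζ p * θ p) * (ζ p * θ p)) ^ 2) := by
      rintro p ⟨hpK, hpb⟩
      rw [mem_ball] at hpb
      have hpΩ := hKΩ hpK
      have hz1 : ζ p * θ p = 1 := by
        rw [hζ1 p hpb.le, hθK p hpK, one_mul]
      have hps : p ∈ tsupport (fun p => (ζ p * θ p) * (ζ p * θ p)) := subset_tsupport _ (by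
        rw [Function.mem_support, hz1]
        norm_num)
      rw [hz1, (hloc p hps).1.self_of_nhds, hρ p hpΩ, Wt_sq hε.le]
      have hM := hMb p hpK
      rw [hρ p hpΩ] at hM
      have hee : Real.exp (a p) ^ (β + 2) = Real.exp ((β + 2) * a p) := by
        rw [← Real.exp_mul, mul_comm]
      rw [hee] at hM ⊢
      have hd := Wt_den (β := β) hε.le (a p)
      rw [mul_one, one_pow, mul_one, mul_div_assoc', le_div_iff₀ hd]
      have e3 : 0 < Real.exp ((β + 2) * a p) := Real.exp_pos _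
      have e4 : 1 + ε * Real.exp ((β + 2) * a p) ≤ 1 + ε * Mb := by gcongr
      nlinarith
    calc ∫ p in K ∩ ball x r, ρ p ^ (β + 2) ∂μ
        ≤ ∫ p in K ∩ ball x r, (1 + ε * Mb) *
          (Wt β ε (a' p) * Real.exp (2 * a' p) * ((ζ p * θ p) * (ζ p * θ p)) ^ 2) ∂μ :=
          setIntegral_mono_on e5 (hGi.integrableOn.const_mul _) hKb e1
      _ = (1 + ε * Mb) * ∫ p in K ∩ ball x r,
          (Wt β ε (a' p) * Real.exp (2 * a' p) * ((ζ p * θ p) * (ζ p * θ p)) ^ 2) ∂μ :=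
          integral_const_mul _ _
      _ ≤ (1 + ε * Mb) * ∫ p,
          (Wt β ε (a' p) * Real.exp (2 * a' p) * ((ζ p * θ p) * (ζ p * θ p)) ^ 2) ∂μ :=
          mul_le_mul_of_nonneg_left (setIntegral_le_integral hGi (Eventually.of_forall hG0))
            (by positivity)
      _ ≤ _ := by gcongr
  set Q := D1 β * Q₁ + D2 n β * r ^ (-(β + 2)) * μ.real (ball x (2 * r)) with hQ
  have hlim : Tendsto (fun ε : ℝ => (1 + ε * Mb) * (Q + ε * (32 * C0 n β *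
      μ.real (ball x (2 * r))))) (𝓝[>] 0) (𝓝 ((1 + 0 * Mb) * (Q + 0 * (32 * C0 n β *
      μ.real (ball x (2 * r)))))) := by
    apply Tendsto.mono_left _ nhdsWithin_le_nhds
    apply Continuous.tendsto
    fun_prop
  have h8 := ge_of_tendsto hlim (by
    filter_upwards [self_mem_nhdsWithin] with ε hε
    exact key ε hε)
  simpa using h8

/-- the energy inequality on balls -/
theorem en_ball (hC : Stmt.CALC) [IsManifold 𝓘(ℝ, E) ∞ M]
    [IsContMDiffRiemannianBundle 𝓘(ℝ, E) ∞ E (fun x : M => TangentSpace 𝓘(ℝ, E) x)]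
    [IsRiemannianManifold 𝓘(ℝ, E) M] (h1 : 1 ≤ Module.finrank ℝ E) (hc : Cal E μ)
    {n : ℕ} {β : ℝ} (hβ0 : 0 < β) (hβ1 : β ≤ 1)
    (hβ : 0 < (n : ℝ) - 2 - 2 * β - β ^ 2) {Ω : Set M} (hΩ : IsOpen Ω) {a ρ : M → ℝ}
    (ha : ContMDiffOn 𝓘(ℝ, E) 𝓘(ℝ, ℝ) ∞ a Ω)
    (hρ : ∀ p ∈ Ω, ρ p = Real.exp (a p)) (hρ0 : ∀ p ∉ Ω, ρ p = 0) (hρm : Measurable ρ)
    (hcomp : ∀ ε > 0, ∀ K : Set M, IsCompact K → K ⊆ Ω → ∃ θ : M → ℝ, LC θ ∧ tsupport θ ⊆ Ω ∧
      (∀ p, 0 ≤ θ p ∧ θ p ≤ 1) ∧ (∀ p ∈ K, θ p = 1) ∧ ∀ p ∈ Ω, Gam E θ θ p ≤ (ε * ρ p) ^ 2)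
    (x : M) {r : ℝ} (hr : 0 < r) {Q₁ : ℝ} (e1 : 0 ≤ Q₁)
    (hpt : ∀ K : Set M, IsCompact K → K ⊆ Ω → ∃ φ S : M → ℝ,
      ContMDiffOn 𝓘(ℝ, E) 𝓘(ℝ, ℝ) ∞ φ Ω ∧ Continuous S ∧ (∀ p, 0 ≤ S p) ∧
      (∀ p ∈ K, TwS E n (fun x => Real.exp (2 * a x) / 2) a φ p ≤ S p) ∧
      ∫ p in ball x (2 * r), S p ^ ((β + 2) / 2) ∂μ ≤ Q₁) :
    IntegrableOn (fun p => ρ p ^ (β + 2)) (ball x r) μ ∧
    ∫ p in ball x r, ρ p ^ (β + 2) ∂μ ≤
      D1 β * Q₁ + D2 n β * r ^ (-(β + 2)) * μ.real (ball x (2 * r)) := by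
  haveI := hc.isFinOn
  set Q := D1 β * Q₁ + D2 n β * r ^ (-(β + 2)) * μ.real (ball x (2 * r)) with hQ
  have hQ0 : 0 ≤ Q := by
    have e2 : 0 ≤ D1 β := by unfold D1; positivity
    have e3 : 0 ≤ D2 n β := by
      have := C0_pos hβ
      unfold D2
      positivity
    have e4 : 0 ≤ μ.real (ball x (2 * r)) := measureReal_nonneg
    positivity
  have hρnn : ∀ p, 0 ≤ ρ p := by
    intro p
    by_cases hp : p ∈ Ω
    · rw [hρ p hp]; exact (Real.exp_pos _).le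
    · rw [hρ0 p hp]
  have hnn : ∀ p, 0 ≤ ρ p ^ (β + 2) := fun p => Real.rpow_nonneg (hρnn p) _
  have hm : Measurable fun p => ρ p ^ (β + 2) := hρm.pow_const _
  obtain ⟨F, hF1, hF2, hF3, hF4⟩ := hΩ.exists_iUnion_isClosed
  have hb1 : ∀ i, ∫⁻ p in F i ∩ ball x r, ENNReal.ofReal (ρ p ^ (β + 2)) ∂μ ≤
      ENNReal.ofReal Q := by
    intro i
    have hKc : IsCompact (F i ∩ closedBall x r) := (isCompact_closedBall x r).inter_left (hF1 i)
    obtain ⟨h2, h3⟩ := en_ballK hC h1 hc hβ0 hβ1 hβ hΩ ha hρ hcomp x hr hpt hKc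
      (inter_subset_left.trans (hF2 i))
    have e1 : F i ∩ closedBall x r ∩ ball x r = F i ∩ ball x r := by
      rw [inter_assoc, inter_eq_right.2 ball_subset_closedBall]
    rw [e1] at h2 h3
    rw [← ofReal_integral_eq_lintegral_ofReal h2 (Eventually.of_forall hnn)]
    exact ENNReal.ofReal_le_ofReal h3
  have hb2 : ∫⁻ p in ball x r, ENNReal.ofReal (ρ p ^ (β + 2)) ∂μ ≤ ENNReal.ofReal Q := by
    have e2 : ∫⁻ p in ball x r, ENNReal.ofReal (ρ p ^ (β + 2)) ∂μ =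
        ∫⁻ p in ⋃ i, (F i ∩ ball x r), ENNReal.ofReal (ρ p ^ (β + 2)) ∂μ := by
      have e3 : ⋃ i, (F i ∩ ball x r) = Ω ∩ ball x r := by rw [← iUnion_inter, hF3]
      rw [e3, ← lintegral_indicator measurableSet_ball,
        ← lintegral_indicator (hΩ.measurableSet.inter measurableSet_ball)]
      apply lintegral_congr
      intro p
      by_cases hp : p ∈ ball x r
      · rw [indicator_of_mem hp]
        by_cases hpΩ : p ∈ Ω
        · rw [indicator_of_mem (show p ∈ Ω ∩ ball x r from ⟨hpΩ, hp⟩)]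
        · rw [indicator_of_notMem (fun h => hpΩ h.1), hρ0 p hpΩ, Real.zero_rpow (by linarith)]
          simp
      · rw [indicator_of_notMem hp, indicator_of_notMem (fun h => hp h.2)]
    rw [e2, setLIntegral_iUnion_of_directed]
    · exact iSup_le hb1
    · exact (Monotone.directed_le (f := fun i => F i ∩ ball x r)
        fun i j hij => inter_subset_inter_left _ (hF4 hij))
  have hint : IntegrableOn (fun p => ρ p ^ (β + 2)) (ball x r) μ := by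
    refine ⟨hm.aestronglyMeasurable, ?_⟩
    rw [hasFiniteIntegral_iff_ofReal (Eventually.of_forall hnn)]
    exact hb2.trans_lt ENNReal.ofReal_lt_top
  refine ⟨hint, ?_⟩
  rw [← ENNReal.ofReal_le_ofReal_iff hQ0,
    ofReal_integral_eq_lintegral_ofReal hint (Eventually.of_forall hnn)]
  exact hb2

end Vale.Agent.P210.Cw.Om
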