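import Vale.Agent.P210.Cx.Pot
import Vale.Agent.P210.Cw.Seg
import Mathlib.Topology.UrysohnsLemma

/-!
# Exhaustion functions on open sets and their extensions
-/

open scoped ENNReal NNReal Topology
open MeasureTheory Set Metric Filter

set_option linter.all false

noncomputable section

namespace Vale.Agent.P210.Cw.Om

open Vale.Agent.P210.R2.H53

variable {X : Type} [MetricSpace X]

/-- a proper function on `Ω` with pointwise Lipschitz constant at most `ρ` -/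
structure Ex (Ω : Set X) (ρ u : X → ℝ) : Prop where
  pl : ∀ z ∈ Ω, ∀ ε > 0, ∀ᶠ y in 𝓝 z, |u y - u z| ≤ (ρ z + ε) * dist y z
  cpt : ∀ c, IsCompact {z | z ∈ Ω ∧ u z ≤ c}

open Classical in
/-- the extension of `g ∘ u` by a constant -/
def ext (Ω : Set X) (u : X → ℝ) (g : ℝ → ℝ) (g₀ : ℝ) (z : X) : ℝ := if z ∈ Ω then g (u z) else g₀

theorem ext_mem {Ω : Set X} {u : X → ℝ} {g : ℝ → ℝ} {g₀ : ℝ} {z : X} (h : z ∈ Ω) :
    ext Ω u g g₀ z = g (u z) := if_pos h

theorem ext_notMem {Ω : Set X} {u : X → ℝ} {g : ℝ → ℝ} {g₀ : ℝ} {z : X} (h : z ∉ Ω) :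
    ext Ω u g g₀ z = g₀ := if_neg h

theorem Ex.ext [ProperSpace X] {Ω : Set X} {ρ u : X → ℝ} (h : Ex Ω ρ u) (hΩ : IsOpen Ω)
    (hρ : ContinuousOn ρ Ω) (hρ0 : ∀ z, 0 ≤ ρ z) {g : ℝ → ℝ} {l g₀ c : ℝ} (hl : 0 ≤ l)
    (hg : ∀ s t, |g s - g t| ≤ l * |s - t|) (hg0 : ∀ s, c ≤ s → g s = g₀) :
    ∃ ρ' : X → ℝ, Continuous ρ' ∧ HasCompactSupport ρ' ∧ (∀ x, 0 ≤ ρ' x) ∧ (∀ x, ρ' x ≤ ρ x) ∧
      Cw.PL (fun x => l * ρ' x) (Om.ext Ω u g g₀) := by
  set K : Set X := {z | z ∈ Ω ∧ u z ≤ c} with hK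
  have hKc : IsCompact K := h.cpt c
  have hKΩ : K ⊆ Ω := fun z hz => hz.1
  obtain ⟨χ, hχ1, hχc, hχΩ, hχ01⟩ :=
    exists_continuousMap_one_of_isCompact_subset_isOpen hKc hΩ hKΩ
  refine ⟨fun x => χ x * ρ x, ?_, ?_, ?_, ?_, ?_⟩
  · rw [continuous_iff_continuousAt]
    intro z
    by_cases hz : z ∈ Ω
    · exact χ.continuous.continuousAt.mul (hρ.continuousAt (hΩ.mem_nhds hz))
    · have h3 : z ∉ tsupport χ := fun hh => hz (hχΩ hh)
      refine (continuousAt_const (y := (0 : ℝ))).congr ?_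
      filter_upwards [(isClosed_tsupport χ).isOpen_compl.mem_nhds h3] with q hq
      rw [image_eq_zero_of_notMem_tsupport hq, zero_mul]
  · have : HasCompactSupport (χ : X → ℝ) := hχc
    exact this.mul_right
  · intro x
    exact mul_nonneg (hχ01 x).1 (hρ0 x)
  · intro x
    exact mul_le_of_le_one_left (hρ0 x) (hχ01 x).2
  · intro z ε hε
    by_cases hz : z ∈ K
    · have hzΩ := hKΩ hz
      have hχz : χ z = 1 := hχ1 hz
      have h1 := h.pl z hzΩ (ε / (l + 1)) (by positivity)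
      filter_upwards [h1, hΩ.mem_nhds hzΩ] with y hy hyΩ
      rw [ext_mem hzΩ, ext_mem hyΩ]
      simp only [hχz, one_mul]
      have hd : 0 ≤ dist y z := dist_nonneg
      calc |g (u y) - g (u z)| ≤ l * |u y - u z| := hg _ _
        _ ≤ l * ((ρ z + ε / (l + 1)) * dist y z) := by gcongr
        _ = (l * ρ z + l / (l + 1) * ε) * dist y z := by field_simp
        _ ≤ (l * ρ z + 1 * ε) * dist y z := by
            gcongr
            rw [div_le_one (by positivity)]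
            linarith
        _ = _ := by ring
    · have h2 : ∀ y, y ∉ K → Om.ext Ω u g g₀ y = g₀ := by
        intro y hy
        by_cases hyΩ : y ∈ Ω
        · rw [ext_mem hyΩ]
          apply hg0
          by_contra hcon
          exact hy ⟨hyΩ, (not_le.1 hcon).le⟩
        · exact ext_notMem hyΩ
      filter_upwards [hKc.isClosed.isOpen_compl.mem_nhds hz] with y hy
      rw [h2 y hy, h2 z hz, sub_self, abs_zero]
      have := mul_nonneg hl (mul_nonneg (hχ01 z).1 (hρ0 z))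
      positivity

/-- truncated exhaustion functions are admissible -/
theorem Ex.adm [ProperSpace X] {Ω : Set X} {ρ u : X → ℝ} (h : Ex Ω ρ u) (hΩ : IsOpen Ω)
    (hρ : ContinuousOn ρ Ω) (hρ0 : ∀ z, 0 ≤ ρ z) (k : ℝ) :
    Adm ρ (Om.ext Ω u (fun s => min s k) k) := by
  obtain ⟨ρ', h1, -, h2, h3, h4⟩ := h.ext hΩ hρ hρ0 (g := fun s => min s k) (l := 1) (g₀ := k)
    (c := k) zero_le_one (fun s t => by
      have := abs_min_sub_min_le_max s k t k
      rw [sub_self, abs_zero, max_eq_left (abs_nonneg _)] at this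
      rwa [one_mul]) (fun s hs => min_eq_right hs)
  refine ⟨ρ', h1, h2, h3, ?_⟩
  simpa using h4

theorem lip_of_pl {ρ v : X → ℝ} (hρ : Continuous ρ) {B : ℝ} (hB : ∀ x, |ρ x| ≤ B)
    (hv : Cw.PL ρ v)
    (hgeo : ∀ x y : X, ∃ c : ℝ → X, MinGeo c 0 (dist x y) ∧ c 0 = x ∧ c (dist x y) = y)
    (x y : X) : |v x - v y| ≤ B * dist x y := by
  obtain ⟨c, h1, h2, h3⟩ := hgeo x y
  have h4 := hv.geo hρ h1 (s := 0) (t := dist x y) le_rfl dist_nonneg le_rfl
  rw [h2, h3, abs_sub_comm] at h4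
  have h5 := intervalIntegral.norm_integral_le_of_norm_le_const (a := 0) (b := dist x y)
    (f := fun τ => ρ (c τ)) (C := B) (fun τ _ => by rw [Real.norm_eq_abs]; exact hB _)
  rw [sub_zero, abs_of_nonneg dist_nonneg, Real.norm_eq_abs] at h5
  exact h4.trans ((le_abs_self _).trans h5)

/-- the profile of the cutoffs -/
def prof (c ε s : ℝ) : ℝ := max 0 (min 1 (1 - ε * (s - c)))

theorem prof_lip {c ε : ℝ} (hε : 0 ≤ ε) (s t : ℝ) : |prof c ε s - prof c ε t| ≤ ε * |s - t| := by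
  unfold prof
  have a1 := abs_max_sub_max_le_max (0 : ℝ) (min 1 (1 - ε * (s - c))) 0
    (min 1 (1 - ε * (t - c)))
  have a2 := abs_min_sub_min_le_max 1 (1 - ε * (s - c)) 1 (1 - ε * (t - c))
  rw [sub_self, abs_zero, max_eq_right (abs_nonneg
    (min 1 (1 - ε * (s - c)) - min 1 (1 - ε * (t - c))))] at a1
  rw [sub_self, abs_zero, max_eq_right (abs_nonneg
    (1 - ε * (s - c) - (1 - ε * (t - c))))] at a2
  refine a1.trans (a2.trans (le_of_eq ?_))
  rw [show 1 - ε * (s - c) - (1 - ε * (t - c)) = -(ε * (s - t)) by ring, abs_neg, abs_mul,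
    abs_of_nonneg hε]

theorem prof_zero {c ε s : ℝ} (hε : 0 < ε) (h : c + 1 / ε ≤ s) : prof c ε s = 0 := by
  unfold prof
  apply max_eq_left
  refine (min_le_right _ _).trans ?_
  have : 1 ≤ ε * (s - c) := by
    calc 1 = ε * (1 / ε) := by field_simp
      _ ≤ ε * (s - c) := by gcongr; linarith
  linarith

theorem prof_one {c ε s : ℝ} (hε : 0 < ε) (h : s ≤ c) : prof c ε s = 1 := by
  unfold prof
  have : 0 ≤ ε * (c - s) := mul_nonneg hε.le (by linarith)
  rw [min_eq_left (by linarith)]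
  norm_num

theorem prof_mem (c ε s : ℝ) : 0 ≤ prof c ε s ∧ prof c ε s ≤ 1 :=
  ⟨le_max_left _ _, max_le zero_le_one (min_le_left _ _)⟩

end Vale.Agent.P210.Cw.Om
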