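import Vale.Agent.P210.Cx.Tel

/-!
# Infinite potentials
-/

open scoped ENNReal NNReal Topology
open MeasureTheory Set Metric Filter

set_option linter.all false

noncomputable section

namespace Vale.Agent.P210.Cw.Om

variable {X : Type} [MetricSpace X] [ProperSpace X] [MeasurableSpace X] [BorelSpace X]
variable {μ : Measure X} {Ω : Set X} {ρ : X → ℝ} {n : ℕ} {b A Cd : ℝ} {ok : ℝ → Prop}

/-- balls of noncompact spaces grow -/
theorem Dat.grow (h : Dat μ Ω ρ n b A Cd ok) (hok : ∀ r, ok r) (hX : NoncompactSpace X) (x : X)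
    {R : ℝ} (hR : 0 < R) :
    (1 + 1 / (Cd * 3 ^ n)) * μ.real (ball x R) ≤ μ.real (ball x (3 * R)) := by
  have hCd : 0 < Cd := zero_lt_one.trans_le h.cd
  obtain ⟨w, hw⟩ : ∃ w, 2 * R < dist x w := by
    by_contra hcon
    push Not at hcon
    apply hX.noncompact_univ
    have : (univ : Set X) = closedBall x (2 * R) := by
      ext y
      simp only [mem_univ, mem_closedBall, true_iff]
      rw [dist_comm]
      exact hcon y
    rw [this]
    exact isCompact_closedBall x _
  obtain ⟨z, hz1, hz2⟩ := h.geo x w (2 * R / dist x w)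
    ⟨by positivity, by rw [div_le_one (by linarith)]; exact hw.le⟩
  have hz : dist x z = 2 * R := by
    rw [hz1]
    have : dist x w ≠ 0 := by linarith
    field_simp
  have hdis : Disjoint (ball x R) (ball z R) := by
    apply ball_disjoint_ball
    rw [hz]
    linarith
  have hsub : ball x R ∪ ball z R ⊆ ball x (3 * R) := by
    apply union_subset
    · exact ball_subset_ball (by linarith)
    · apply ball_subset_ball'
      rw [dist_comm z x, hz]
      linarith
  have h1 : μ.real (ball x R) + μ.real (ball z R) ≤ μ.real (ball x (3 * R)) := by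
    rw [← measureReal_union hdis measurableSet_ball (h.ball_lt x R).ne (h.ball_lt z R).ne]
    exact measureReal_mono hsub (h.ball_lt x _).ne
  have h2 : μ.real (ball x R) ≤ μ.real (ball z (3 * R)) := by
    refine measureReal_mono (ball_subset_ball' ?_) (h.ball_lt z _).ne
    rw [hz]
    linarith
  have h3 := h.dbl z R (3 * R) hR (by linarith) (hok _)
  rw [show 3 * R / R = 3 by field_simp] at h3
  have h4 : 1 / (Cd * 3 ^ n) * μ.real (ball x R) ≤ μ.real (ball z R) := by
    rw [div_mul_eq_mul_div, one_mul, div_le_iff₀ (by positivity)]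
    calc μ.real (ball x R) ≤ Cd * 3 ^ n * μ.real (ball z R) := h2.trans h3
      _ = _ := by ring
  linarith

theorem Dat.grow' (h : Dat μ Ω ρ n b A Cd ok) (hok : ∀ r, ok r) (hX : NoncompactSpace X) (x : X)
    {R : ℝ} (hR : 0 < R) (K : ℝ) : ∃ R', R ≤ R' ∧ K * μ.real (ball x R) ≤ μ.real (ball x R') := by
  have hCd : 0 < Cd := zero_lt_one.trans_le h.cd
  have h1 : ∀ j : ℕ, (1 + 1 / (Cd * 3 ^ n)) ^ j * μ.real (ball x R) ≤
      μ.real (ball x (3 ^ j * R)) := by
    intro j
    induction j with
    | zero => simp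
    | succ j ih =>
      calc (1 + 1 / (Cd * 3 ^ n)) ^ (j + 1) * μ.real (ball x R)
          = (1 + 1 / (Cd * 3 ^ n)) * ((1 + 1 / (Cd * 3 ^ n)) ^ j * μ.real (ball x R)) := by ring
        _ ≤ (1 + 1 / (Cd * 3 ^ n)) * μ.real (ball x (3 ^ j * R)) := by gcongr
        _ ≤ μ.real (ball x (3 * (3 ^ j * R))) := h.grow hok hX x (by positivity)
        _ = _ := by congr 2; ring
  obtain ⟨j, hj⟩ := pow_unbounded_of_one_lt K
    (show 1 < 1 + 1 / (Cd * 3 ^ n) by
      have : 0 < 1 / (Cd * 3 ^ n) := by positivity
      linarith)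
  refine ⟨3 ^ j * R, ?_, ?_⟩
  · have : (1 : ℝ) ≤ 3 ^ j := one_le_pow₀ (by norm_num)
    nlinarith
  · refine le_trans ?_ (h1 j)
    have := (h.real_pos x hR).le
    gcongr

/-- if there are admissible functions which are arbitrarily large outside of bounded sets and
bounded at a point, then the potential of this point is infinite -/
theorem Dat.pot_inf (h : Dat μ Ω ρ n b A Cd ok) (hok : ∀ r, ok r) {x : X} (hx : x ∈ Ω) {u₀ : ℝ}
    (H : ∀ c, ∃ u : X → ℝ, Adm ρ u ∧ (∀ y, 0 ≤ u y) ∧ u x ≤ u₀ ∧
      Bornology.IsBounded {y | u y ≤ c}) (Lam : ℝ) :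
    ∃ R, 0 < R ∧ Lam ≤ pot μ ρ x R := by
  have hCd : 0 < Cd := zero_lt_one.trans_le h.cd
  have hA := h.a0
  have hb0 : 0 < b := zero_lt_one.trans h.b1
  rcases (em (CompactSpace X)).symm.imp_left not_compactSpace_iff.1 with hX | hX
  · by_contra hcon
    push Not at hcon
    set K := Cd ^ 2 * 24 ^ n * Lam with hK
    set c := 2 * (u₀ + K) + 1 with hc
    obtain ⟨u, hu, hu0, hux, hbd⟩ := H c
    have h1 : ∀ r, 0 < r → uav μ u x r ≤ u₀ + K := by
      intro r hr
      have h2 := h.uav_center hu hx hr (hok _)
      have h3 := hcon (6 * r) (by positivity)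
      have h4 : Cd ^ 2 * 24 ^ n * pot μ ρ x (6 * r) ≤ K := by rw [hK]; gcongr
      rw [abs_sub_comm] at h2
      have := le_abs_self (uav μ u x r - u x)
      linarith
    have hc0 : 0 < c := by
      have h2 := h1 1 one_pos
      have h3 : 0 ≤ uav μ u x 1 := by
        unfold uav
        apply div_nonneg (integral_nonneg fun y => hu0 y) measureReal_nonneg
      linarith
    obtain ⟨R, hR⟩ := hbd.subset_ball x
    set R1 := max R 1 with hR1
    have hR10 : 0 < R1 := lt_max_of_lt_right one_pos
    obtain ⟨R2, hR2, hR3⟩ := h.grow' hok hX x hR10 2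
    have hint : IntegrableOn u (ball x R2) μ := h.int_ball hu.continuous x R2
    have h5 : c * (μ.real (ball x R2) - μ.real (ball x R1)) ≤ ∫ y in ball x R2, u y ∂μ := by
      have e : c * (μ.real (ball x R2) - μ.real (ball x R1)) =
          ∫ y in ball x R2 \ ball x R1, c ∂μ := by
        rw [setIntegral_const, smul_eq_mul, measureReal_diff (ball_subset_ball hR2)
          measurableSet_ball (h.ball_lt x _).ne]
        ring
      rw [e]
      have e2 : ball x R2 \ ball x R1 ≤ᵐ[μ] ball x R2 :=
        HasSubset.Subset.eventuallyLE diff_subset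
      refine le_trans ?_ (setIntegral_mono_set hint (Eventually.of_forall hu0) e2)
      apply setIntegral_mono_on
      · exact integrableOn_const (ne_top_of_le_ne_top (h.ball_lt x R2).ne
          (measure_mono diff_subset))
      · exact hint.mono_set diff_subset
      · exact measurableSet_ball.diff measurableSet_ball
      · intro y hy
        by_contra hy2
        push Not at hy2
        exact hy.2 (ball_subset_ball (le_max_left _ _) (hR hy2.le))
    have h6 := h1 R2 (hR10.trans_le hR2)
    have h7 := h.real_pos x (hR10.trans_le hR2)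
    unfold uav at h6
    rw [div_le_iff₀ h7] at h6
    nlinarith
  · -- the energy vanishes
    exfalso
    obtain ⟨R, hR⟩ := (isCompact_univ (X := X)).isBounded.subset_ball x
    set R1 := max R 1 with hR1
    have hR10 : 0 < R1 := lt_max_of_lt_right one_pos
    have hun : ∀ r, R1 ≤ r → ball x r = univ := fun r hr =>
      eq_univ_of_univ_subset (hR.trans (ball_subset_ball ((le_max_left _ _).trans hr)))
    set I := ∫ y, ρ y ^ b ∂μ with hI
    have h1 : ∀ r, R1 ≤ r → I ≤ A * r ^ (-b) * μ.real univ := by
      intro r hr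
      have h2 := h.en x r (hR10.trans_le hr) (hok r)
      rwa [hun r hr, setIntegral_univ] at h2
    have h3 : Tendsto (fun r : ℝ => A * r ^ (-b) * μ.real univ) atTop (𝓝 (A * 0 * μ.real univ)) :=
      ((tendsto_rpow_neg_atTop hb0).const_mul A).mul_const _
    have h4 : I ≤ 0 := by
      have := ge_of_tendsto h3 (by
        filter_upwards [eventually_ge_atTop R1] with r hr
        exact h1 r hr)
      simpa using this
    have hint : Integrable (fun y => ρ y ^ b) μ := by
      have := h.ri x R1
      rwa [hun R1 le_rfl, integrableOn_univ] at this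
    have h5 : 0 < I := by
      rw [hI, integral_pos_iff_support_of_nonneg (fun y => Real.rpow_nonneg (h.r0 y) b) hint]
      obtain ⟨ε, hε, hε2⟩ := Metric.isOpen_iff.1 h.op x hx
      refine (h.pos x ε hε).trans_le (measure_mono fun y hy => ?_)
      exact (Real.rpow_pos_of_pos (h.rp y (hε2 hy)) b).ne'
    linarith

end Vale.Agent.P210.Cw.Om
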