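import Vale.Agent.P210.Cx.Tw
import Vale.Agent.P210.Cx.Ext

/-!
# Slices of twisted products over open subsets
-/

open scoped Manifold ContDiff Topology Bundle ENNReal NNReal
open Set Metric Filter Bundle IsManifold MeasureTheory Manifold Asymptotics

set_option maxSynthPendingDepth 3
set_option linter.all false

noncomputable section

namespace Vale.Agent.P210.Cw.Om

open Vale.Agent.P210.R2.H53 Vale.Agent.P210.R2.H265

variable {E : Type} [NormedAddCommGroup E] [NormedSpace ℝ E]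
  {V : Type} [NormedAddCommGroup V] [NormedSpace ℝ V]
  {N : Type} [MetricSpace N] [ChartedSpace E N]
  [RiemannianBundle (fun x : N => TangentSpace 𝓘(ℝ, E) x)]
  {F : Type} [TopologicalSpace F] [ChartedSpace V F]
  {M : Type} [MetricSpace M] [ChartedSpace (E × V) M]
  [RiemannianBundle (fun x : M => TangentSpace 𝓘(ℝ, E × V) x)]

/-- the norm of a vector tangent to a slice -/
theorem tw_norm {w : N → ℝ} {Φ : OpenPartialHomeomorph M (N × F)}
    (h : IsTw (E := E) (V := V) w Φ) {p : M} {x : N} (hx : (Φ p).1 = x)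
    (v : TangentSpace 𝓘(ℝ, E × V) p)
    (u : TangentSpace 𝓘(ℝ, E) x)
    (h2 : mfderiv 𝓘(ℝ, E × V) 𝓘(ℝ, V) (fun q => (Φ q).2) p v = 0)
    (h1 : (mfderiv 𝓘(ℝ, E × V) 𝓘(ℝ, E) (fun q => (Φ q).1) p v : E) = u) :
    ‖v‖ ^ 2 = w x * ‖u‖ ^ 2 := by
  subst hx
  have h3 := h p v v h2
  have h4 : (mfderiv 𝓘(ℝ, E × V) 𝓘(ℝ, E) (fun q => (Φ q).1) p v :
    TangentSpace 𝓘(ℝ, E) (Φ p).1) = u := h1
  rw [h4] at h3
  rw [← real_inner_self_eq_norm_sq, ← real_inner_self_eq_norm_sq]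
  exact h3

theorem slice_loc [IsManifold 𝓘(ℝ, E) ∞ N] [IsManifold 𝓘(ℝ, V) ∞ F]
    [IsManifold 𝓘(ℝ, E × V) ∞ M] [IsRiemannianManifold 𝓘(ℝ, E) N]
    [IsRiemannianManifold 𝓘(ℝ, E × V) M] {w : N → ℝ} {Ω : Set N} (hΩ : IsOpen Ω)
    {Φ : OpenPartialHomeomorph M (N × F)} (hΦ : PD E V Ω Φ)
    (h : IsTw (E := E) (V := V) w Φ) {Λ : ℝ} (hΛ : 0 ≤ Λ) {x : N} {δ : ℝ}
    (hδΩ : ∀ q, dist x q < δ → q ∈ Ω)
    (hw : ∀ q, dist x q < δ → w q ≤ Λ ^ 2) (x' : N) (hx' : dist x x' < δ) (y : F) :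
    dist (Φ.symm (x, y)) (Φ.symm (x', y)) ≤ Λ * dist x x' := by
  have hkey : ∀ c : ℝ≥0∞, edist x x' < c → c ≤ ENNReal.ofReal δ →
      edist (Φ.symm (x, y)) (Φ.symm (x', y)) ≤ ENNReal.ofReal Λ * c := by
    intro c hc hcδ
    rw [IsRiemannianManifold.out (I := 𝓘(ℝ, E)) x x'] at hc
    obtain ⟨γ, h0, h1, hγ, hlen, -, -⟩ :=
      exists_lt_locally_constant_of_riemannianEDist_lt hc zero_lt_one
    have hin : ∀ t ∈ Icc (0 : ℝ) 1, dist x (γ t) < δ := by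
      intro t ht
      have k1 : riemannianEDist 𝓘(ℝ, E) x (γ t) ≤ pathELength 𝓘(ℝ, E) γ 0 t :=
        riemannianEDist_le_pathELength hγ.contMDiffOn h0 rfl ht.1
      have k2 : pathELength 𝓘(ℝ, E) γ 0 t ≤ pathELength 𝓘(ℝ, E) γ 0 1 :=
        pathELength_mono le_rfl ht.2
      rw [← IsRiemannianManifold.out (I := 𝓘(ℝ, E)) x (γ t), edist_dist] at k1
      have k3 := (k1.trans k2).trans_lt (hlen.trans_le hcδ)
      exact (ENNReal.ofReal_lt_ofReal_iff_of_nonneg dist_nonneg).1 k3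
    set γ' : ℝ → M := fun t => Φ.symm (γ t, y) with hγ'
    have hnear : ∀ t ∈ Icc (0 : ℝ) 1, ∀ᶠ s in 𝓝 t, γ s ∈ Ω := fun t ht =>
      hγ.continuous.continuousAt.eventually (hΩ.mem_nhds (hδΩ _ (hin t ht)))
    have hs : ∀ t ∈ Icc (0 : ℝ) 1, ContMDiffAt 𝓘(ℝ, ℝ) 𝓘(ℝ, E × V) 1 γ' t := by
      intro t ht
      have h2 : ContMDiff 𝓘(ℝ, ℝ) (𝓘(ℝ, E).prod 𝓘(ℝ, V)) 1 fun t => (γ t, y) :=
        hγ.prodMk contMDiff_const
      have h3 : ContMDiffAt (𝓘(ℝ, E).prod 𝓘(ℝ, V)) 𝓘(ℝ, E × V) 1 Φ.symm (γ t, y) :=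
        ((hΦ.sms.contMDiffAt ((hΩ.prod isOpen_univ).mem_nhds
          ⟨hδΩ _ (hin t ht), mem_univ _⟩))).of_le (by simp)
      exact ContMDiffAt.comp (g := Φ.symm) (f := fun t => (γ t, y)) t h3 (h2 t)
    have hle : riemannianEDist 𝓘(ℝ, E × V) (Φ.symm (x, y)) (Φ.symm (x', y)) ≤
        pathELength 𝓘(ℝ, E × V) γ' 0 1 :=
      riemannianEDist_le_pathELength (fun t ht => (hs t ht).contMDiffWithinAt)
        (by rw [hγ']; simp only [h0])
        (by rw [hγ']; simp only [h1]) zero_le_one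
    have hlen' : pathELength 𝓘(ℝ, E × V) γ' 0 1 ≤
        ENNReal.ofReal Λ * pathELength 𝓘(ℝ, E) γ 0 1 := by
      rw [pathELength_eq_lintegral_mfderiv_Icc, pathELength_eq_lintegral_mfderiv_Icc,
        ← lintegral_const_mul' _ _ ENNReal.ofReal_ne_top]
      refine setLIntegral_mono' measurableSet_Icc fun t ht => ?_
      have hmem := hδΩ _ (hin t ht)
      have hp : (Φ (γ' t)).1 = γ t := by rw [hγ']; simp only; rw [hΦ.right hmem]
      have hsd : MDifferentiableAt 𝓘(ℝ, ℝ) 𝓘(ℝ, E × V) γ' t :=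
        (hs t ht).mdifferentiableAt one_ne_zero
      have hΦ1 : MDifferentiableAt 𝓘(ℝ, E × V) 𝓘(ℝ, E) (fun q => (Φ q).1) (γ' t) :=
        ((hΦ.sm.fst) _).mdifferentiableAt (by simp)
      have hΦ2 : MDifferentiableAt 𝓘(ℝ, E × V) 𝓘(ℝ, V) (fun q => (Φ q).2) (γ' t) :=
        ((hΦ.sm.snd) _).mdifferentiableAt (by simp)
      have e1 : mfderiv 𝓘(ℝ, E × V) 𝓘(ℝ, V) (fun q => (Φ q).2) (γ' t)
          (mfderiv 𝓘(ℝ, ℝ) 𝓘(ℝ, E × V) γ' t 1) = 0 := by
        have k := mfderiv_comp t hΦ2 hsd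
        have k2 : ((fun q => (Φ q).2) ∘ γ') =ᶠ[𝓝 t] fun _ => y := by
          filter_upwards [hnear t ht] with s hs
          simp only [Function.comp, hγ']
          rw [hΦ.right hs]
        have k3 : mfderiv 𝓘(ℝ, ℝ) 𝓘(ℝ, V) ((fun q => (Φ q).2) ∘ γ') t = 0 :=
          (k2.mfderiv_eq (I := 𝓘(ℝ, ℝ)) (I' := 𝓘(ℝ, V))).trans mfderiv_const
        rw [k3] at k
        have := congrArg (fun T => T (1 : ℝ)) k
        exact this.symm
      have e2 : (mfderiv 𝓘(ℝ, E × V) 𝓘(ℝ, E) (fun q => (Φ q).1) (γ' t)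
          (mfderiv 𝓘(ℝ, ℝ) 𝓘(ℝ, E × V) γ' t 1) : E) = mfderiv 𝓘(ℝ, ℝ) 𝓘(ℝ, E) γ t 1 := by
        have k := mfderiv_comp t hΦ1 hsd
        have k2 : ((fun q => (Φ q).1) ∘ γ') =ᶠ[𝓝 t] γ := by
          filter_upwards [hnear t ht] with s hs
          simp only [Function.comp, hγ']
          rw [hΦ.right hs]
        have k4 := congrArg (fun T => T (1 : ℝ)) k
        have k3 : (mfderiv 𝓘(ℝ, ℝ) 𝓘(ℝ, E) ((fun q => (Φ q).1) ∘ γ') t (1 : ℝ) : E) =
            (mfderiv 𝓘(ℝ, ℝ) 𝓘(ℝ, E) γ t (1 : ℝ) : E) :=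
          congrArg (fun T => T (1 : ℝ)) (k2.mfderiv_eq (I := 𝓘(ℝ, ℝ)) (I' := 𝓘(ℝ, E)))
        exact Eq.trans k4.symm k3
      have hn := tw_norm h hp _ _ e1 e2
      have hn2 : ‖mfderiv 𝓘(ℝ, ℝ) 𝓘(ℝ, E × V) γ' t 1‖ ≤
          Λ * ‖mfderiv 𝓘(ℝ, ℝ) 𝓘(ℝ, E) γ t 1‖ := by
        refine (pow_le_pow_iff_left₀ (norm_nonneg _) (mul_nonneg hΛ (norm_nonneg _))
          two_ne_zero).1 ?_
        rw [hn, mul_pow]
        exact mul_le_mul_of_nonneg_right (hw _ (hin t ht)) (sq_nonneg _)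
      rw [← ofReal_norm, ← ofReal_norm, ← ENNReal.ofReal_mul hΛ]
      exact ENNReal.ofReal_le_ofReal hn2
    rw [IsRiemannianManifold.out (I := 𝓘(ℝ, E × V)) (Φ.symm (x, y)) (Φ.symm (x', y))]
    exact hle.trans (hlen'.trans (mul_le_mul_right hlen.le _))
  refine le_of_forall_pos_le_add fun ε hε => ?_
  have h1 : (0 : ℝ) < Λ + 1 := by linarith
  set ε' := min (ε / (Λ + 1)) (δ - dist x x') with hε'
  have hε'0 : 0 < ε' := lt_min (by positivity) (by linarith)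
  have h2 : edist x x' < ENNReal.ofReal (dist x x' + ε') := by
    rw [edist_dist]
    exact (ENNReal.ofReal_lt_ofReal_iff (by positivity)).2 (by linarith)
  have h3 := hkey _ h2 (ENNReal.ofReal_le_ofReal (by
    have := min_le_right (ε / (Λ + 1)) (δ - dist x x')
    linarith))
  rw [← ENNReal.ofReal_mul hΛ, edist_dist] at h3
  have h4 := (ENNReal.ofReal_le_ofReal_iff (by positivity)).1 h3
  refine h4.trans ?_
  have h5 : Λ * ε' ≤ ε := by
    calc Λ * ε' ≤ Λ * (ε / (Λ + 1)) := by gcongr; exact min_le_left _ _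
      _ ≤ ε := by
        rw [mul_div_assoc']
        rw [div_le_iff₀ h1]
        nlinarith
  linarith

/-- distances in slices are exhaustion functions -/
theorem ex_slice [IsManifold 𝓘(ℝ, E) ∞ N] [IsManifold 𝓘(ℝ, V) ∞ F]
    [IsManifold 𝓘(ℝ, E × V) ∞ M] [IsRiemannianManifold 𝓘(ℝ, E) N]
    [IsRiemannianManifold 𝓘(ℝ, E × V) M] [ProperSpace M] {w ρ : N → ℝ} {Ω : Set N}
    (hΩ : IsOpen Ω) {Φ : OpenPartialHomeomorph M (N × F)} (hΦ : PD E V Ω Φ)
    (h : IsTw (E := E) (V := V) w Φ) (hwc : ContinuousOn w Ω) (hw0 : ∀ x ∈ Ω, 0 < w x)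
    (hρ : ∀ x ∈ Ω, ρ x = √(w x)) (y : F) (p : M) :
    Ex Ω ρ (fun z => dist (Φ.symm (z, y)) p) := by
  refine ⟨fun z hz ε hε => ?_, fun c => ?_⟩
  · rw [hρ z hz]
    have h1 : 0 ≤ √(w z) := Real.sqrt_nonneg _
    have h2 : w z < (√(w z) + ε) ^ 2 := by
      have := Real.sq_sqrt (hw0 z hz).le
      nlinarith
    obtain ⟨δ, hδ, hδ2⟩ := Metric.continuousAt_iff.1 (hwc.continuousAt (hΩ.mem_nhds hz))
      ((√(w z) + ε) ^ 2 - w z) (by linarith)
    obtain ⟨δ', hδ', hδΩ⟩ := Metric.isOpen_iff.1 hΩ z hz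
    filter_upwards [ball_mem_nhds z (lt_min hδ hδ')] with x hx
    rw [mem_ball, dist_comm] at hx
    have h3 := slice_loc hΩ hΦ h (Λ := √(w z) + ε) (by linarith) (x := z) (δ := min δ δ') (by
        intro q hq
        apply hδΩ
        rw [mem_ball, dist_comm]
        exact hq.trans_le (min_le_right _ _)) (by
      intro q hq
      rw [dist_comm] at hq
      have := hδ2 (hq.trans_le (min_le_left _ _))
      rw [Real.dist_eq] at this
      linarith [le_abs_self (w q - w z)]) x hx y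
    rw [dist_comm z x] at h3
    refine (abs_dist_sub_le _ _ _).trans ?_
    rwa [dist_comm]
  · have hΦc : Continuous Φ := hΦ.sm.continuous
    have hc1 : Continuous fun q : M => Φ.symm ((Φ q).1, y) := by
      have h2 : ContinuousOn Φ.symm (Ω ×ˢ univ) := hΦ.sms.continuousOn
      exact h2.comp_continuous ((continuous_fst.comp hΦc).prodMk continuous_const)
        (fun q => ⟨hΦ.mem q, mem_univ _⟩)
    have hK : IsCompact (closedBall p c ∩ {q | Φ.symm ((Φ q).1, y) = q}) :=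
      (isCompact_closedBall p c).inter_right (isClosed_eq hc1 continuous_id)
    have h3 : {z | z ∈ Ω ∧ dist (Φ.symm (z, y)) p ≤ c} =
        (fun q => (Φ q).1) '' (closedBall p c ∩ {q | Φ.symm ((Φ q).1, y) = q}) := by
      ext z
      constructor
      · rintro ⟨hz, hzc⟩
        have h4 : (Φ (Φ.symm (z, y))).1 = z := by rw [hΦ.right hz]
        exact ⟨Φ.symm (z, y), ⟨hzc, by simp only [mem_setOf_eq]; rw [h4]⟩, h4⟩
      · rintro ⟨q, ⟨hq, hq'⟩, rfl⟩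
        refine ⟨hΦ.mem q, ?_⟩
        simp only [mem_setOf_eq] at hq'
        rw [hq']
        exact hq
    rw [h3]
    exact hK.image (continuous_fst.comp hΦc)

end Vale.Agent.P210.Cw.Om
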