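import Vale.Agent.P210.Cx.Core
import Vale.Agent.P210.Cw.Wid

/-!
# Width estimates on open subsets of metric measure spaces
-/

open scoped ENNReal NNReal Topology
open MeasureTheory Set Metric Filter

set_option linter.all false

noncomputable section

namespace Vale.Agent.P210.Cw.Om

variable {X : Type} [MetricSpace X] [ProperSpace X] [MeasurableSpace X] [BorelSpace X]
variable {μ : Measure X} {Ω : Set X} {ρ : X → ℝ} {n : ℕ} {b A Cd : ℝ} {ok : ℝ → Prop}

/-- the bound for two points of an ordinary vertex -/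
theorem Dat.ordinary (h : Dat μ Ω ρ n b A Cd ok) {u : X → ℝ} (hu : Adm ρ u) {x y p : X} (hxΩ : x ∈ Ω)
    (hyΩ : y ∈ Ω) {l : ℤ}
    {Lam : ℝ} (hok : ok (1024 * (2 : ℝ) ^ l)) (hx : dist x p < 2 * (2 : ℝ) ^ l)
    (hy : dist y p < 2 * (2 : ℝ) ^ l)
    (hpx : pot μ ρ x (192 * (2 : ℝ) ^ ((l : ℝ) - 2)) < Lam)
    (hpy : pot μ ρ y (192 * (2 : ℝ) ^ ((l : ℝ) - 2)) < Lam) :
    |u x - u y| ≤ 4 * Cd ^ 3 * 24 ^ n * 3 ^ n * Lam := by
  have hCd : 0 < Cd := zero_lt_one.trans_le h.cd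
  have h2 : (0 : ℝ) < (2 : ℝ) ^ l := by positivity
  have e1 : 192 * (2 : ℝ) ^ ((l : ℝ) - 2) = 12 * (4 * (2 : ℝ) ^ l) := by
    rw [Real.rpow_sub (by norm_num), Real.rpow_intCast]
    norm_num
    ring
  rw [e1] at hpx hpy
  have h3 := h.two_pt hu hxΩ hyΩ (r := 4 * (2 : ℝ) ^ l) (by positivity)
    (h.okm _ _ hok (by linarith)) (by
      have := dist_triangle_right x y p
      linarith)
  refine h3.trans ?_
  have h4 : pot μ ρ x (12 * (4 * (2 : ℝ) ^ l)) + pot μ ρ y (12 * (4 * (2 : ℝ) ^ l)) ≤ 2 * Lam := by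
    linarith
  calc 2 * Cd ^ 3 * 24 ^ n * 3 ^ n * (pot μ ρ x (12 * (4 * (2 : ℝ) ^ l)) +
        pot μ ρ y (12 * (4 * (2 : ℝ) ^ l))) ≤ 2 * Cd ^ 3 * 24 ^ n * 3 ^ n * (2 * Lam) := by gcongr
    _ = _ := by ring

/-- all scales are admissible -/
theorem Dat.widA (h : Dat μ Ω ρ n b A Cd ok) (hok : ∀ r, ok r) {k : ℕ} (hk : 0 < k) {η : ℝ}
    (hη : 0 < η) (hη1 : η < 1) (hηb : (n : ℝ) - k * (1 - η) < b)
    (hinf : ∀ x : Ω, ∃ R, 0 < R ∧ LamC n k b A Cd η ≤ pot μ ρ x R) :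
    ∃ (W : Type) (lam : W → Ω → ℝ), TP.Bary Ω W k lam ∧ ∀ v, ∀ x y : Ω, 0 < lam v x → 0 < lam v y →
      ∀ u, Adm ρ u → |u x - u y| ≤ 4 * Cd ^ 3 * 24 ^ n * 3 ^ n * LamC n k b A Cd η := by
  set Lam := LamC n k b A Cd η with hLamdef
  have hLam : 0 < Lam := LamC_pos h.b1 h.a0 h.cd hη hηb
  obtain ⟨V⟩ := exists_vs X (fun _ : ℤ => True)
  obtain ⟨T, hT, hTp⟩ := h.exists_scale hLam ∅ (fun s hs => absurd hs (notMem_empty s))
    (fun x => by
      obtain ⟨R, hR, hRL⟩ := hinf x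
      refine ⟨Real.logb 2 (R / 192), Or.inr ?_⟩
      have : 192 * (2 : ℝ) ^ Real.logb 2 (R / 192) = R := by
        rw [Real.rpow_logb (by norm_num) (by norm_num) (by positivity)]
        field_simp
      rw [this]
      exact hRL) bddBelow_empty
  obtain ⟨lam, hB, hl⟩ := h.core V (fun j _ => hok _) hk hη hη1 hηb hT
    (by
      intro x j _ hj
      rcases (hTp x (j : ℝ)).1 hj with h1 | h1
      · exact absurd h1 (notMem_empty _)
      · rwa [Real.rpow_intCast] at h1)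
    (Y := Empty) (fun y => y.elim) (fun y => y.elim) (fun x => ⟨univ, univ_mem, by
      convert Set.finite_empty
      ext y
      exact y.elim⟩) (fun y => y.elim) (fun y => y.elim) 0 (fun y => y.elim)
    (fun x => Or.inl trivial)
  refine ⟨_, lam, hB, fun v x y hvx hvy u hu => ?_⟩
  rcases hl v x y hvx hvy with ⟨p, h1, h2, h3, h4⟩ | ⟨z, _⟩
  · rw [abs_lt] at h1 h2
    exact h.ordinary hu x.2 y.2 (hok _) h3 h4 ((hTp x _).2 (by linarith)).2 ((hTp y _).2 (by linarith)).2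
  · exact z.elim

/-- admissible scales up to `r`; the chain components of the set of the points with small density
have diameter at most `D r` -/
theorem Dat.widB (h : Dat μ Ω ρ n b A Cd ok) {r : ℝ} (hr : 0 < r) (hok : ok r) {k : ℕ} (hk : 0 < k)
    {η : ℝ} (hη : 0 < η) (hη1 : η < 1) (hηb : (n : ℝ) - k * (1 - η) < b) {D : ℝ}
    (hZ : ∀ x y, Chn ρ (64 / 3 * LamC n k b A Cd η) r x y → dist x y ≤ D * r) (hD : 0 ≤ D) :
    ∃ (W : Type) (lam : W → Ω → ℝ), TP.Bary Ω W k lam ∧ ∀ v, ∀ x y : Ω, 0 < lam v x → 0 < lam v y →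
      ∀ u, Adm ρ u → |u x - u y| ≤ 4 * Cd ^ 3 * 24 ^ n * 3 ^ n * LamC n k b A Cd η +
        128 * (D + 2) * (Cd ^ 3 * 3 ^ n * 6 ^ n * A ^ (1 / b)) := by
  classical
  set Lam := LamC n k b A Cd η with hLamdef
  have hLam : 0 < Lam := LamC_pos h.b1 h.a0 h.cd hη hηb
  have hCd : 0 < Cd := zero_lt_one.trans_le h.cd
  have hA := h.a0
  obtain ⟨m, hm1, hm2⟩ := exists_mem_Ico_zpow hr (one_lt_two (α := ℝ))
  set s : ℝ := (2 : ℝ) ^ m with hs
  have hs0 : 0 < s := by positivity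
  have hm3 : r < 2 * s := by
    rw [zpow_add₀ (by norm_num), zpow_one] at hm2
    linarith
  have hoks : ok s := h.okm _ _ hok hm1
  set okl : ℤ → Prop := fun j => j ≤ m - 10 with hokl
  obtain ⟨V⟩ := exists_vs X okl
  have hok' : ∀ j, okl j → ok (1024 * (2 : ℝ) ^ j) := by
    intro j hj
    refine h.okm _ _ hoks ?_
    have : (2 : ℝ) ^ j ≤ (2 : ℝ) ^ (m - 10 : ℤ) := zpow_le_zpow_right₀ (by norm_num) hj
    have e : (2 : ℝ) ^ (m - 10 : ℤ) = s / 1024 := by
      rw [zpow_sub₀ (by norm_num)]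
      norm_num
      rfl
    rw [e] at this
    linarith
  obtain ⟨T, hT, hTp⟩ := h.exists_scale hLam (Ici ((m : ℝ) - 9)) (fun s hs t hst => le_trans hs hst)
    (fun x => ⟨(m : ℝ) - 9, Or.inl (le_refl ((m : ℝ) - 9))⟩) bddBelow_Ici
  have hpc : (192 : ℝ) * (2 : ℝ) ^ ((m : ℝ) - 11) = 3 / 32 * s := by
    rw [show ((m : ℝ) - 11) = ((m - 11 : ℤ) : ℝ) by push_cast; ring, Real.rpow_intCast,
      zpow_sub₀ (by norm_num)]
    rw [← hs]
    norm_num
    ring
  -- capped points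
  have hcap : ∀ x : Ω, (m : ℝ) - 11 < T x → pot μ ρ x (3 / 32 * s) < Lam := by
    intro x hx
    have := ((hTp x ((m : ℝ) - 11)).2 hx).2
    rwa [hpc] at this
  have hnear : ∀ x : Ω, (m : ℝ) - 11 < T x → ∃ z, r * ρ z ≤ 64 / 3 * Lam ∧
      dist (x : X) z < 3 / 16 * s := by
    intro x hx
    have h1 := hcap x hx
    obtain ⟨x', hx', hρ⟩ : ∃ x', dist (x : X) x' < 3 / 16 * s ∧ ρ x' ≤ 32 / 3 * Lam / s := by
      by_contra hcon
      push Not at hcon
      have h2 : ∀ ε, 0 < ε → ε ≤ 3 / 32 * s →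
          (3 / 32 * s - ε) * (32 / 3 * Lam / s) ≤ pot μ ρ x (3 / 32 * s) := by
        intro ε hε hε1
        have h3 := h.pot_ge x.2 (R := ε) (R' := 3 / 32 * s) (B := 32 / 3 * Lam / s) hε hε1
          (fun s hs hs' => h.av_ge_const (hε.trans_le hs) fun y hy =>
            (hcon y (by linarith)).le)
        have h4 := h.pot_nonneg x ε
        linarith
      have h5 := h2 (min (3 / 32 * s) ((Lam - pot μ ρ x (3 / 32 * s)) / (2 * (32 / 3 * Lam / s))))
        (lt_min (by positivity) (div_pos (by linarith) (by positivity))) (min_le_left _ _)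
      have h6 : min (3 / 32 * s) ((Lam - pot μ ρ x (3 / 32 * s)) / (2 * (32 / 3 * Lam / s))) *
          (32 / 3 * Lam / s) ≤ (Lam - pot μ ρ x (3 / 32 * s)) / 2 := by
        calc _ ≤ ((Lam - pot μ ρ x (3 / 32 * s)) / (2 * (32 / 3 * Lam / s))) *
              (32 / 3 * Lam / s) := by
              gcongr; exact min_le_right _ _
          _ = _ := by field_simp
      have h7 : 3 / 32 * s * (32 / 3 * Lam / s) = Lam := by field_simp
      nlinarith
    refine ⟨x', ?_, hx'⟩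
    rw [le_div_iff₀ hs0] at hρ
    have h0 : 0 ≤ ρ x' := h.r0 x'
    nlinarith
  set lb : X → Set X := lab ρ (64 / 3 * Lam) r with hlb
  set τ₀ : Ω → ℝ := fun x => min 1 (max 0 (T x - m + 11)) with hτ₀
  have hτ₀c : Continuous τ₀ := by rw [hτ₀]; fun_prop
  have hτ₀0 : ∀ x, 0 ≤ τ₀ x := fun x => le_min zero_le_one (le_max_left _ _)
  have hτ₀p : ∀ x, 0 < τ₀ x ↔ (m : ℝ) - 11 < T x := by
    intro x
    simp only [hτ₀, lt_min_iff, lt_max_iff, lt_irrefl, false_or, zero_lt_one, true_and]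
    constructor <;> intro h <;> linarith
  set τ : Set X → Ω → ℝ := fun y x => if lb x = y then τ₀ x else 0 with hτ
  have hτ0 : ∀ y x, 0 ≤ τ y x := by
    intro y x
    simp only [hτ]
    split_ifs
    · exact hτ₀0 x
    · exact le_rfl
  have hτle : ∀ y x, τ y x ≤ τ₀ x := by
    intro y x
    simp only [hτ]
    split_ifs
    · exact le_rfl
    · exact hτ₀0 x
  have hτpos : ∀ y x, 0 < τ y x → lb x = y ∧ (m : ℝ) - 11 < T x := by
    intro y x hx
    simp only [hτ] at hx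
    split_ifs at hx with h1
    · exact ⟨h1, (hτ₀p x).1 hx⟩
    · exact absurd hx (lt_irrefl _)
  have hlabs : ∀ x x' : Ω, (m : ℝ) - 11 < T x → dist x x' < r → ∃ z, r * ρ z ≤ 64 / 3 * Lam ∧
      dist (x : X) z < 3 / 16 * s ∧ lb x = {z' | Chn ρ (64 / 3 * Lam) r z z'} ∧ lb x' = lb x := by
    intro x x' hx hxx
    obtain ⟨z, hz1, hz2⟩ := hnear x hx
    have e1 : lb x = {z' | Chn ρ (64 / 3 * Lam) r z z'} := lab_eq hz1 (by linarith)
    have e2 : lb x' = {z' | Chn ρ (64 / 3 * Lam) r z z'} := lab_eq hz1 (by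
      have := dist_triangle_left (x' : X) z x
      have hxx' : dist (x : X) x' < r := hxx
      linarith)
    exact ⟨z, hz1, hz2, e1, e2.trans e1.symm⟩
  have hτc : ∀ y, Continuous (τ y) := by
    intro y
    rw [continuous_iff_continuousAt]
    intro x
    by_cases hx : (m : ℝ) - 11 < T x
    · have hloc : ∀ᶠ x' : Ω in 𝓝 x, lb x' = lb x := by
        filter_upwards [ball_mem_nhds x hr] with x' hx'
        rw [mem_ball, dist_comm] at hx'
        obtain ⟨z, -, -, -, e⟩ := hlabs x x' hx hx'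
        exact e
      by_cases hy : lb x = y
      · refine hτ₀c.continuousAt.congr ?_
        filter_upwards [hloc] with x' hx'
        simp only [hτ]
        rw [if_pos (hx'.trans hy)]
      · refine (continuousAt_const (y := (0 : ℝ))).congr ?_
        filter_upwards [hloc] with x' hx'
        simp only [hτ]
        rw [if_neg (fun hcon => hy (hx'.symm.trans hcon))]
    · have h0 : τ₀ x = 0 := le_antisymm (not_lt.1 fun hc => hx ((hτ₀p x).1 hc)) (hτ₀0 x)
      have h1 : τ y x = 0 := le_antisymm ((hτle y x).trans h0.le) (hτ0 y x)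
      rw [ContinuousAt, h1]
      have h2 : Tendsto τ₀ (𝓝 x) (𝓝 0) := by
        have := hτ₀c.continuousAt (x := x)
        rwa [ContinuousAt, h0] at this
      exact squeeze_zero (fun x' => hτ0 y x') (fun x' => hτle y x') h2
  have hτfin : LocallyFinite fun y => Function.support (τ y) := by
    intro x
    refine ⟨ball x (r / 2), ball_mem_nhds x (by positivity), ?_⟩
    apply Set.Subsingleton.finite
    rintro y ⟨x1, hy1, hx1⟩ y' ⟨x2, hy2, hx2⟩
    have p1 : 0 < τ y x1 := lt_of_le_of_ne (hτ0 y x1) (Ne.symm hy1)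
    have p2 : 0 < τ y' x2 := lt_of_le_of_ne (hτ0 y' x2) (Ne.symm hy2)
    obtain ⟨q1, q2⟩ := hτpos _ _ p1
    obtain ⟨q3, q4⟩ := hτpos _ _ p2
    rw [mem_ball] at hx1 hx2
    obtain ⟨z, -, -, -, e⟩ := hlabs x1 x2 q2 (by
      have := dist_triangle_right x1 x2 x
      linarith)
    rw [← q1, ← q3, e]
  obtain ⟨lam, hB, hl⟩ := h.core V hok' hk hη hη1 hηb hT
    (by
      intro x j hj hTj
      rcases (hTp x (j : ℝ)).1 hTj with h1 | h1
      · exfalso
        have h2 : (j : ℝ) ≤ m - 10 := by exact_mod_cast hj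
        have h3 : (m : ℝ) - 9 ≤ j := h1
        linarith
      · rwa [Real.rpow_intCast] at h1)
    τ hτc hτfin hτ0
    (by
      intro y y' x h1 h2
      rw [← (hτpos y x h1).1, ← (hτpos y' x h2).1])
    (m - 10)
    (by
      intro y x h1 i hi h2
      have h3 := (hτpos y x h1).2
      rw [abs_lt] at h2
      have h4 : (m : ℝ) - 11 < i := by linarith
      have h5 : (m - 11 : ℤ) < i := by exact_mod_cast h4
      have h6 : i ≤ m - 10 := hi
      omega)
    (by
      intro x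
      by_cases hx : (m : ℝ) - 11 < T x
      · right
        refine ⟨lb x, ?_⟩
        simp only [hτ, if_true]
        exact (hτ₀p x).2 hx
      · left
        rw [not_lt] at hx
        have h1 : round (T x) ≤ m - 11 := by
          rw [round_eq]
          have h2 := Int.floor_lt.2 (by push_cast; linarith :
            T x + 1 / 2 < ((m - 10 : ℤ) : ℝ))
          omega
        show round (T x) + 1 ≤ m - 10
        omega)
  refine ⟨_, lam, hB, fun v x y hvx hvy u hu => ?_⟩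
  have hpos1 : 0 ≤ 4 * Cd ^ 3 * 24 ^ n * 3 ^ n * Lam := by positivity
  have hpos2 : 0 ≤ 128 * (D + 2) * (Cd ^ 3 * 3 ^ n * 6 ^ n * A ^ (1 / b)) := by
    positivity
  rcases hl v x y hvx hvy with ⟨p, h1, h2, h3, h4⟩ | ⟨y₀, h1, h2⟩
  · rw [abs_lt] at h1 h2
    have h5 := h.ordinary hu x.2 y.2 (hok' _ (V.okv p)) h3 h4 ((hTp x _).2 (by linarith)).2
      ((hTp y _).2 (by linarith)).2
    linarith
  · obtain ⟨hx1, hx2⟩ := hτpos _ _ h1
    obtain ⟨hy1, hy2⟩ := hτpos _ _ h2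
    obtain ⟨zx, -, hzx, ex, -⟩ := hlabs x x hx2 (by rw [dist_self]; exact hr)
    obtain ⟨zy, -, hzy, ey, -⟩ := hlabs y y hy2 (by rw [dist_self]; exact hr)
    have hrc : Chn ρ (64 / 3 * Lam) r zx zy := by
      have e3 : zy ∈ {z | Chn ρ (64 / 3 * Lam) r zy z} := Relation.ReflTransGen.refl
      rw [← ey, hy1, ← hx1, ex] at e3
      exact e3
    have hd := hZ _ _ hrc
    have hxy' : dist (x : X) y ≤ (D + 1) * r := by
      have t1 := dist_triangle (x : X) zx y
      have t2 := dist_triangle zx zy (y : X)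
      rw [dist_comm zy (y : X)] at t2
      linarith
    have hN : dist (x : X) y ≤ (⌈128 * (D + 1)⌉₊ : ℝ) * (s / 64) := by
      have c1 : 128 * (D + 1) ≤ (⌈128 * (D + 1)⌉₊ : ℝ) := Nat.le_ceil _
      calc dist (x : X) y ≤ (D + 1) * r := hxy'
        _ ≤ (D + 1) * (2 * s) := by gcongr
        _ = 128 * (D + 1) * (s / 64) := by ring
        _ ≤ _ := by gcongr
    have hN2 : (⌈128 * (D + 1)⌉₊ : ℝ) ≤ 128 * (D + 2) := by
      have := Nat.ceil_lt_add_one (a := 128 * (D + 1)) (by positivity)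
      linarith
    have hs64 : 0 < s / 64 := by positivity
    have hoks64 : ok (6 * (s / 64)) := h.okm _ _ hoks (by linarith)
    have hoks64' : ok (s / 64) := h.okm _ _ hoks (by linarith)
    have c1 := h.uav_chain hu hs64 (h.okm _ _ hoks (by linarith)) _ x y hN
    have c2 := h.uav_center hu x.2 hs64 (h.okm _ _ hoks (by linarith))
    have c3 := h.uav_center hu y.2 hs64 (h.okm _ _ hoks (by linarith))
    rw [show (6 : ℝ) * (s / 64) = 3 / 32 * s by ring] at c2 c3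
    have p1 := hcap x hx2
    have p2 := hcap y hy2
    have c4 : |u x - u y| ≤ |u x - uav μ u x (s / 64)| + |uav μ u x (s / 64) - uav μ u y (s / 64)|
        + |uav μ u y (s / 64) - u y| := by
      calc |u x - u y| = |(u x - uav μ u x (s / 64)) + (uav μ u x (s / 64) - uav μ u y (s / 64)) +
          (uav μ u y (s / 64) - u y)| := by congr 1; ring
        _ ≤ _ := abs_add_three _ _ _
    rw [abs_sub_comm (uav μ u y (s / 64))] at c4
    have c5 : Cd ^ 2 * 24 ^ n * pot μ ρ x (3 / 32 * s) ≤ Cd ^ 2 * 24 ^ n * Lam := by gcongr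
    have c6 : Cd ^ 2 * 24 ^ n * pot μ ρ y (3 / 32 * s) ≤ Cd ^ 2 * 24 ^ n * Lam := by gcongr
    have c7 : 2 * (Cd ^ 2 * 24 ^ n * Lam) ≤ 4 * Cd ^ 3 * 24 ^ n * 3 ^ n * Lam := by
      have q1 : (1 : ℝ) ≤ Cd * 3 ^ n :=
        one_le_mul_of_one_le_of_one_le h.cd (one_le_pow₀ (by norm_num))
      have q2 : 0 ≤ Cd ^ 2 * 24 ^ n * Lam := by positivity
      calc 2 * (Cd ^ 2 * 24 ^ n * Lam) ≤ 4 * (Cd ^ 2 * 24 ^ n * Lam) * 1 := by linarith
        _ ≤ 4 * (Cd ^ 2 * 24 ^ n * Lam) * (Cd * 3 ^ n) := by gcongr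
        _ = _ := by ring
    have c8 : (⌈128 * (D + 1)⌉₊ : ℝ) * (Cd ^ 3 * 3 ^ n * 6 ^ n * A ^ (1 / b)) ≤
        128 * (D + 2) * (Cd ^ 3 * 3 ^ n * 6 ^ n * A ^ (1 / b)) := by gcongr
    linarith

end Vale.Agent.P210.Cw.Om
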