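import Vale.Agent.P210.Cx.TwP
import Vale.Agent.P210.Cx.Slc
import Vale.Agent.P210.Cx.Wid
import Vale.Agent.P210.Cx.Inf
import Vale.Agent.P210.Cx.Dim
import Vale.Agent.P210.Cx.Mean

/-!
# Final assembly, open subsets
-/

open scoped Manifold ContDiff Topology Bundle ENNReal NNReal
open Set Metric Filter Bundle IsManifold MeasureTheory Manifold Asymptotics

set_option maxSynthPendingDepth 3
set_option linter.all false

noncomputable section

namespace Vale.Agent.P210.Cw.Om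

open Vale.Agent.P210.R2 Vale.Agent.P210.R2.H53 Vale.Agent.P210.R2.H999 Vale.Agent.P210.R2.H973

/-- the density -/
def rho {N : Type} (Ω : Set N) (w : N → ℝ) : N → ℝ := Ω.indicator fun x => √(w x)

theorem rho_mem {N : Type} {Ω : Set N} {w : N → ℝ} {x : N} (h : x ∈ Ω) :
    rho Ω w x = √(w x) := indicator_of_mem h _

theorem rho_notMem {N : Type} {Ω : Set N} {w : N → ℝ} {x : N} (h : x ∉ Ω) :
    rho Ω w x = 0 := indicator_of_notMem h _

theorem rho_nonneg {N : Type} {Ω : Set N} {w : N → ℝ} (x : N) : 0 ≤ rho Ω w x :=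
  indicator_nonneg (fun _ _ => Real.sqrt_nonneg _) _

theorem rho_smul {N : Type} {Ω : Set N} {w : N → ℝ} {c : ℝ} (hc : 0 ≤ c) (x : N) :
    rho Ω (fun x => c * w x) x = √c * rho Ω w x := by
  by_cases hx : x ∈ Ω
  · rw [rho_mem hx, rho_mem hx, Real.sqrt_mul hc]
  · rw [rho_notMem hx, rho_notMem hx, mul_zero]

theorem Ex.smul {X : Type} [MetricSpace X] {Ω : Set X} {ρ u : X → ℝ} (h : Ex Ω ρ u) {s : ℝ}
    (hs : 0 < s) : Ex Ω (fun x => s * ρ x) (fun x => s * u x) := by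
  refine ⟨fun z hz ε hε => ?_, fun c => ?_⟩
  · filter_upwards [h.pl z hz (ε / s) (by positivity)] with y hy
    calc |s * u y - s * u z| = s * |u y - u z| := by rw [← mul_sub, abs_mul, abs_of_pos hs]
      _ ≤ s * ((ρ z + ε / s) * dist y z) := by gcongr
      _ = _ := by field_simp
  · have h1 : {z | z ∈ Ω ∧ s * u z ≤ c} = {z | z ∈ Ω ∧ u z ≤ c / s} := by
      ext z
      simp only [mem_setOf_eq]
      rw [le_div_iff₀ hs, mul_comm]
    rw [h1]
    exact h.cpt _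

/-- the constant -/
def CO (n : ℕ) (p L : ℝ) (D : ℝ) : ℝ :=
  4 * CdN n ^ 3 * 24 ^ n * 3 ^ n * LamO n p L +
    128 * (max D 0 + 2) * (CdN n ^ 3 * 3 ^ n * 6 ^ n * AO n p L ^ (1 / (βN p + 2)))

/-- the critical value of the density -/
def ΛO (n : ℕ) (p L : ℝ) : ℝ := (64 / 3 * LamO n p L) ^ 2

theorem LamO_pos {n : ℕ} (hn : 3 ≤ n) {p : ℝ} (hp : 1 < p) (L : ℝ) : 0 < LamO n p L :=
  LamC_pos (by linarith [βN_pos hp]) (AO_pos hn hp L) (one_le_CdN n) (ηN_pos hn hp)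
      (ηN_b hn hp)

theorem ΛO_pos {n : ℕ} (hn : 3 ≤ n) {p : ℝ} (hp : 1 < p) (L : ℝ) : 0 < ΛO n p L := by
  have := LamO_pos hn hp L
  unfold ΛO
  positivity

section Tw

variable
    (E : Type) [NormedAddCommGroup E] [NormedSpace ℝ E] [FiniteDimensional ℝ E]
    [MeasurableSpace E] [BorelSpace E]
    (V : Type) [NormedAddCommGroup V] [NormedSpace ℝ V] [FiniteDimensional ℝ V]
    (N : Type) [MetricSpace N] [ChartedSpace E N]
    [RiemannianBundle (fun x : N => TangentSpace 𝓘(ℝ, E) x)] [IsManifold 𝓘(ℝ, E) ∞ N]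
    [IsContMDiffRiemannianBundle 𝓘(ℝ, E) ∞ E (fun x : N => TangentSpace 𝓘(ℝ, E) x)]
    [IsRiemannianManifold 𝓘(ℝ, E) N] [MeasurableSpace N] [BorelSpace N]
    (F : Type) [TopologicalSpace F] [ChartedSpace V F] [IsManifold 𝓘(ℝ, V) ∞ F]
    (M : Type) [MetricSpace M] [ChartedSpace (E × V) M]
    [RiemannianBundle (fun x : M => TangentSpace 𝓘(ℝ, E × V) x)]
    [IsManifold 𝓘(ℝ, E × V) ∞ M]
    [IsContMDiffRiemannianBundle 𝓘(ℝ, E × V) ∞ (E × V)
      (fun x : M => TangentSpace 𝓘(ℝ, E × V) x)]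
    [IsRiemannianManifold 𝓘(ℝ, E × V) M]

variable {E V N F M} in
/-- the product structure as a homeomorphism -/
def homeo {Ω : Set N} (Φ : OpenPartialHomeomorph M (N × F)) (hΦ : PD E V Ω Φ) : M ≃ₜ Ω × F where
  toFun p := (⟨(Φ p).1, hΦ.mem p⟩, (Φ p).2)
  invFun z := Φ.symm (z.1, z.2)
  left_inv p := hΦ.left p
  right_inv z := by
    have h := hΦ.right z.1.2 z.2
    have h1 : (Φ (Φ.symm ((z.1 : N), z.2))).1 = z.1 := by rw [h]
    have h2 : (Φ (Φ.symm ((z.1 : N), z.2))).2 = z.2 := by rw [h]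
    exact Prod.ext (Subtype.ext h1) h2
  continuous_toFun := by
    have hΦc : Continuous Φ := hΦ.sm.continuous
    exact ((continuous_fst.comp hΦc).subtype_mk _).prodMk (continuous_snd.comp hΦc)
  continuous_invFun := by
    have h2 : ContinuousOn Φ.symm (Ω ×ˢ univ) := hΦ.sms.continuousOn
    exact h2.comp_continuous ((continuous_subtype_val.comp continuous_fst).prodMk continuous_snd)
      (fun z => ⟨z.1.2, mem_univ _⟩)

/-- from the base to the total space -/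
theorem lift [ProperSpace N] [ProperSpace M] {Ω : Set N} (hΩ : IsOpen Ω) (w : N → ℝ)
    (Φ : OpenPartialHomeomorph M (N × F)) (hΦ : PD E V Ω Φ)
    (hw : ContMDiffOn 𝓘(ℝ, E) 𝓘(ℝ, ℝ) ∞ w Ω) (hw0 : ∀ x ∈ Ω, 0 < w x)
    (hT : IsTw (E := E) (V := V) w Φ) {m : ℕ} {c : ℝ} (hc : 0 < c)
    {C : ℝ} (H : ∃ (W : Type) (lam : W → Ω → ℝ), TP.Bary Ω W m lam ∧
      ∀ v, ∀ x y : Ω, 0 < lam v x → 0 < lam v y → ∀ u, Adm (rho Ω fun x => c * w x) u →
        |u x - u y| ≤ C) :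
    H53.UrysohnWidthLE M (m + Module.finrank ℝ V) (C / √c + 1) := by
  classical
  obtain ⟨W, lam, hB, hd⟩ := H
  have hc' : 0 < √c := Real.sqrt_pos.2 hc
  have hwc : ContinuousOn w Ω := hw.continuousOn
  have hρc : ContinuousOn (rho Ω fun x => c * w x) Ω :=
    (Real.continuous_sqrt.comp_continuousOn (continuousOn_const.mul hwc)).congr
      fun x hx => rho_mem hx
  refine width_prod (homeo Φ hΦ) hB (C := C / √c) (by linarith) (fun v x x' hx hx' y => ?_)
  have hx0 : 0 < lam v x := lt_of_le_of_ne (hB.nonneg v x) (Ne.symm hx)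
  have hx0' : 0 < lam v x' := lt_of_le_of_ne (hB.nonneg v x') (Ne.symm hx')
  change dist (Φ.symm ((x : N), y)) (Φ.symm ((x' : N), y)) ≤ _
  have hex : Ex Ω (rho Ω fun x => c * w x)
      (fun z => √c * dist (Φ.symm (z, y)) (Φ.symm ((x' : N), y))) := by
    have h1 := (ex_slice hΩ hΦ hT hwc hw0 (fun x hx => rho_mem hx) y
      (Φ.symm ((x' : N), y))).smul hc'
    have h2 : (rho Ω fun x => c * w x) = fun x => √c * rho Ω w x :=
      funext fun x => rho_smul hc.le x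
    rw [h2]
    exact h1
  have hadm := hex.adm hΩ hρc rho_nonneg (√c * dist (Φ.symm ((x : N), y)) (Φ.symm ((x' : N), y)))
  have h8 := hd v x x' hx0 hx0' _ hadm
  have h0 : 0 ≤ √c * dist (Φ.symm ((x : N), y)) (Φ.symm ((x' : N), y)) := by positivity
  rw [ext_mem x.2, ext_mem x'.2] at h8
  rw [min_self, dist_self, mul_zero, min_eq_left h0, sub_zero, abs_of_nonneg h0] at h8
  rw [le_div_iff₀ hc', mul_comm]
  exact h8

/-- the metric measure space of the base -/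
theorem dat0 [ProperSpace N] [ProperSpace M] {n : ℕ} (hn : 3 ≤ n) {p : ℝ} (hp : 1 < p) {L : ℝ}
    (μ : Measure N) {Ω : Set N} (hΩ : IsOpen Ω) (w S σ : N → ℝ) {t : ℝ} (ht : t < 1)
    (Φ : OpenPartialHomeomorph M (N × F)) (hΦ : PD E V Ω Φ)
    (hμ : IsVol E μ) (hw : ContMDiffOn 𝓘(ℝ, E) 𝓘(ℝ, ℝ) ∞ w Ω) (hw0 : ∀ x ∈ Ω, 0 < w x)
    (hT : IsTw (E := E) (V := V) w Φ) (hdE : Module.finrank ℝ E = n)
    {ok : ℝ → Prop} (hokm : ∀ r s, ok r → s ≤ r → ok s) (hok : ∃ r, 0 < r ∧ ok r)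
    (hRic : ∀ r, 0 < r → ok r → RicGE E N (-(1 / r ^ 2)))
    (hS : ContinuousOn S Ω) (hS0 : ∀ x ∈ Ω, 0 ≤ S x)
    (hSc : ScalLEOn E N Ω fun x => S x - w x * (σ x - t))
    (hMor : ∀ x r, 0 < r → ok r → IntegrableOn (fun y => S y ^ p) (ball x (2 * r) ∩ Ω) μ ∧
      ∫ y in ball x (2 * r) ∩ Ω, S y ^ p ∂μ ≤
      L * (2 * r) ^ (-(2 * p)) * μ.real (ball x (2 * r)))
    (hScal : ScalGE (E × V) M 1)
    (hfib : ∀ K : Set N, IsCompact K → K ⊆ Ω →
      ∃ (r : ℕ) (p : Fin r → ℝ) (Y : Fin r → Set F), (∀ j, 0 ≤ p j) ∧ ∑ j, p j = 1 ∧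
      (∀ j, PropOn Ω (fun x y => fibM (E := E) Φ.symm x (chartAt V y)) (fun y => chartAt V y y)
        (Y j)) ∧
      ∀ x ∈ K, ∃ (y : Fin r → F) (s : Fin r → ℝ),
      (∀ j, y j ∈ Y j ∧ ((Module.finrank ℝ V ≤ 1 ∧ 0 ≤ s j) ∨
        ScalLEAt (fibM (E := E) Φ.symm x (chartAt V (y j))) (chartAt V (y j) (y j)) (s j))) ∧
      ∑ j, p j * s j ≤ σ x + (1 - t) / 2) [hM : Nonempty M] :
    Dat μ Ω (rho Ω fun x => (1 - t) * w x) n (βN p + 2) (AO n p L) (CdN n) ok := by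
  classical
  obtain ⟨p₀⟩ := hM
  have h1 : 1 ≤ Module.finrank ℝ E := by omega
  have ht' : 0 < 1 - t := by linarith
  set a : N → ℝ := fun x => Real.log ((1 - t) * w x) / 2 with ha
  have hlog : ContMDiffOn 𝓘(ℝ, E) 𝓘(ℝ, ℝ) ∞ a Ω := by
    have h3 : ContMDiffOn 𝓘(ℝ, E) 𝓘(ℝ, ℝ) ∞ (fun x => (1 - t) * w x) Ω :=
      contMDiffOn_const.mul hw
    have h2 : ContMDiffOn 𝓘(ℝ, E) 𝓘(ℝ, ℝ) ∞ (fun x => Real.log ((1 - t) * w x)) Ω := fun x hx =>
      ((Real.contDiffAt_log.2 (mul_pos ht' (hw0 x hx)).ne').contMDiffAt).comp_contMDiffWithinAt x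
        (h3 x hx)
    exact h2.div_const 2
  have hwc : ContinuousOn w Ω := hw.continuousOn
  have hex : Ex Ω (rho Ω fun x => (1 - t) * w x)
      (fun z => √(1 - t) * dist (Φ.symm (z, (Φ p₀).2)) p₀) := by
    have h1 := (ex_slice hΩ hΦ hT hwc hw0 (fun x hx => rho_mem hx) (Φ p₀).2 p₀).smul
      (Real.sqrt_pos.2 ht')
    have h2 : (rho Ω fun x => (1 - t) * w x) = fun x => √(1 - t) * rho Ω w x :=
      funext fun x => rho_smul ht'.le x
    rw [h2]
    exact h1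
  refine dat_en hn hdE hμ hp hokm hok hRic hΩ hlog hS hS0 (fun K hK hKΩ => ?_) ?_
    (fun x hx => rho_notMem hx) hex hMor
  · have h2 := tw_K hΦ hΩ hw hw0 hT h1 hScal ht hSc hKΩ (hfib K hK hKΩ)
    rw [hdE] at h2
    exact h2
  · intro x hx
    rw [rho_mem hx, ha]
    simp only
    rw [Real.sqrt_eq_rpow, Real.rpow_def_of_pos (mul_pos ht' (hw0 x hx))]
    congr 1
    ring

/-- The width of twisted products over open subsets. -/
theorem fin [CompleteSpace N] [CompleteSpace M] {n : ℕ} (hn : 3 ≤ n) {p : ℝ} (hp : 1 < p)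
    {L t : ℝ} (ht : t < 1) (D : ℝ) (μ : Measure N) {Ω : Set N} (hΩ : IsOpen Ω) (w S σ : N → ℝ)
    (Φ : OpenPartialHomeomorph M (N × F)) (hΦ : PD E V Ω Φ)
    (hμ : IsVol E μ) (hw : ContMDiffOn 𝓘(ℝ, E) 𝓘(ℝ, ℝ) ∞ w Ω) (hw0 : ∀ x ∈ Ω, 0 < w x)
    (hT : IsTw (E := E) (V := V) w Φ) (hdE : Module.finrank ℝ E = n) {k : ℕ}
    (hdV : Module.finrank ℝ V = k)
    (hS : ContinuousOn S Ω) (hS0 : ∀ x ∈ Ω, 0 ≤ S x)
    (hSc : ScalLEOn E N Ω fun x => S x - w x * (σ x - t))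
    (hcase : (RicGE E N 0 ∧ ∀ x r, 0 < r → IntegrableOn (fun y => S y ^ p) (ball x r ∩ Ω) μ ∧
        ∫ y in ball x r ∩ Ω, S y ^ p ∂μ ≤ L * r ^ (-(2 * p)) * μ.real (ball x r)) ∨
      ∃ r₀ : ℝ, 0 < r₀ ∧ RicGE E N (-(1 / r₀ ^ 2)) ∧
        (∀ x r, 0 < r → r ≤ 2 * r₀ → IntegrableOn (fun y => S y ^ p) (ball x r ∩ Ω) μ ∧
          ∫ y in ball x r ∩ Ω, S y ^ p ∂μ ≤ L * r ^ (-(2 * p)) * μ.real (ball x r)) ∧
        ∀ x y, Relation.ReflTransGen (fun a c => (a ∈ Ω → r₀ ^ 2 * w a ≤ ΛO n p L / (1 - t)) ∧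
          (c ∈ Ω → r₀ ^ 2 * w c ≤ ΛO n p L / (1 - t)) ∧ dist a c ≤ 4 * r₀) x y →
          dist x y ≤ D * r₀)
    (hScal : ScalGE (E × V) M 1)
    (hfib : (k ≤ 1 ∧ ∀ x ∈ Ω, 0 ≤ σ x) ∨
      FibreScalLEOn Ω σ (fun x y => fibM (E := E) Φ.symm x (chartAt V y))
        (fun y => chartAt V y y) ∨
      MeanScalLEOn Ω σ (fun x y => fibM (E := E) Φ.symm x (chartAt V y))
        (fun y => chartAt V y y)) :
    H53.UrysohnWidthLE M (n - 2 + k) (CO n p L D / √(1 - t) + 1) := by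
  classical
  rcases isEmpty_or_nonempty M with hM | hM
  · exact H912.urysohn_of_isEmpty _ _
  haveI : ProperSpace N := properSpace_riemannian E N
  haveI : ProperSpace M := properSpace_riemannian (E × V) M
  have ht' : 0 < 1 - t := by linarith
  have hts : 0 < √(1 - t) := Real.sqrt_pos.2 ht'
  rw [← hdV]
  apply lift E V N F M hΩ w Φ hΦ hw hw0 hT ht'
  set y : F := (Φ hM.some).2 with hyd
  have hfib' : ∀ K : Set N, IsCompact K → K ⊆ Ω →
      ∃ (r : ℕ) (p : Fin r → ℝ) (Y : Fin r → Set F), (∀ j, 0 ≤ p j) ∧ ∑ j, p j = 1 ∧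
      (∀ j, PropOn Ω (fun x y => fibM (E := E) Φ.symm x (chartAt V y)) (fun y => chartAt V y y)
        (Y j)) ∧
      ∀ x ∈ K, ∃ (y : Fin r → F) (s : Fin r → ℝ),
      (∀ j, y j ∈ Y j ∧ ((Module.finrank ℝ V ≤ 1 ∧ 0 ≤ s j) ∨
        ScalLEAt (fibM (E := E) Φ.symm x (chartAt V (y j))) (chartAt V (y j) (y j)) (s j))) ∧
      ∑ j, p j * s j ≤ σ x + (1 - t) / 2 := by
    intro K hK hKΩ
    rcases hfib with ⟨h, h'⟩ | ⟨r, q, Y, hq, hq1, hY, hs⟩ | ⟨ν, A, T, hν, hA, hA0, hT, hTk, hm⟩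
    · refine ⟨1, fun _ => 1, fun _ => {y}, fun _ => zero_le_one, by simp, fun j => ?_,
        fun x hx => ⟨fun _ => y, fun _ => σ x, fun j => ⟨rfl, Or.inl ⟨by omega, h' x (hKΩ hx)⟩⟩,
          ?_⟩⟩
      · rintro _ rfl _ rfl x _ x' _
        exact mul_comm _ _
      · simp only [Finset.univ_unique, Finset.sum_singleton, one_mul]
        linarith
    · refine ⟨r, q, Y, hq, hq1, hY, fun x hx => ?_⟩
      obtain ⟨y, s, h1, h2⟩ := hs x (hKΩ hx)
      exact ⟨y, s, fun j => ⟨(h1 j).1, Or.inr (h1 j).2⟩, by linarith⟩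
    · let _ : MeasurableSpace F := borel F
      have _ : BorelSpace F := ⟨rfl⟩
      have hT' : Continuous fun z : Ω × F => T ((z.1 : N), z.2) :=
        hT.comp_continuous ((continuous_subtype_val.comp continuous_fst).prodMk continuous_snd)
          (fun z => ⟨z.1.2, mem_univ _⟩)
      have hK' : IsCompact (Subtype.val ⁻¹' K : Set Ω) := by
        rw [Subtype.isCompact_iff, Subtype.image_preimage_coe, inter_eq_right.2 hKΩ]
        exact hK
      obtain ⟨r, q, y, hq, hq1, hy⟩ := mean_fin hA hA0 hT' hK' (half_pos ht')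
      refine ⟨r, q, fun j => {y j}, hq, hq1, fun j => ?_, fun x hx => ⟨y, fun j => T (x, y j),
        fun j => ⟨rfl, Or.inr (hTk x (hKΩ hx) (y j))⟩, ?_⟩⟩
      · rintro _ rfl _ rfl x _ x' _
        exact mul_comm _ _
      · have h1 := hy ⟨x, hKΩ hx⟩ hx
        have h2 := hm x (hKΩ hx)
        simp only at h1
        linarith
  have hA := (AO_pos hn hp L).le
  have hCd : 0 < CdN n := zero_lt_one.trans_le (one_le_CdN n)
  have hD0 : 0 ≤ max D 0 := le_max_right _ _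
  have hLam0 : 0 < LamO n p L := LamO_pos hn hp L
  have hwc : ContinuousOn w Ω := hw.continuousOn
  have hρc : ContinuousOn (rho Ω fun x => (1 - t) * w x) Ω :=
    (Real.continuous_sqrt.comp_continuousOn (continuousOn_const.mul hwc)).congr
      fun x hx => rho_mem hx
  rcases hcase with ⟨hRic, hMor⟩ | ⟨r₀, hr₀, hRic, hMor, hchain⟩
  · have hdat := dat0 E V N F M hn hp (L := L) μ hΩ w S σ ht Φ hΦ hμ hw hw0 hT hdE
      (ok := fun _ => True)
      (fun _ _ _ _ => trivial) ⟨1, one_pos, trivial⟩ (fun r hr _ => hRic.mono (by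
        rw [neg_nonpos]
        positivity)) hS hS0 hSc (fun x r hr _ => hMor x (2 * r) (by positivity)) hScal hfib'
    obtain ⟨V₁, lam, hB, hd⟩ := hdat.widA (fun _ => trivial) (k := n - 2) (by omega)
      (ηN_pos hn hp) (ηN_lt hn hp) (ηN_b hn hp) (fun x => by
        have hex : Ex Ω (rho Ω fun x => (1 - t) * w x)
            (fun z => √(1 - t) * dist (Φ.symm (z, y)) hM.some) := by
          have h1 := (ex_slice hΩ hΦ hT hwc hw0 (fun x hx => rho_mem hx) y hM.some).smul hts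
          have h2 : (rho Ω fun x => (1 - t) * w x) = fun x => √(1 - t) * rho Ω w x :=
            funext fun x => rho_smul ht'.le x
          rw [h2]
          exact h1
        refine hdat.pot_inf (fun _ => trivial) x.2
          (u₀ := √(1 - t) * dist (Φ.symm ((x : N), y)) hM.some) (fun c => ?_) _
        have hc0 : 0 ≤ max c 0 := le_max_right _ _
        have hc1 : c ≤ max c 0 := le_max_left _ _
        refine ⟨_, hex.adm hΩ hρc rho_nonneg (max c 0 + 1), fun z => ?_, ?_, ?_⟩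
        · by_cases hz : z ∈ Ω
          · rw [ext_mem hz]
            exact le_min (by positivity) (by positivity)
          · rw [ext_notMem hz]
            positivity
        · rw [ext_mem x.2]
          exact min_le_left _ _
        · refine (hex.cpt c).isBounded.subset fun z hz => ?_
          simp only [mem_setOf_eq] at hz
          by_cases hzΩ : z ∈ Ω
          · rw [ext_mem hzΩ] at hz
            refine ⟨hzΩ, ?_⟩
            rcases min_le_iff.1 hz with h | h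
            · exact h
            · linarith
          · rw [ext_notMem hzΩ] at hz
            linarith)
    refine ⟨V₁, lam, hB, fun v x y hx hy u hu => (hd v x y hx hy u hu).trans ?_⟩
    unfold CO
    change 4 * CdN n ^ 3 * 24 ^ n * 3 ^ n * LamO n p L ≤ _
    have : 0 ≤ 128 * (max D 0 + 2) *
      (CdN n ^ 3 * 3 ^ n * 6 ^ n * AO n p L ^ (1 / (βN p + 2))) := by positivity
    linarith
  · have hdat := dat0 E V N F M hn hp (L := L) μ hΩ w S σ ht Φ hΦ hμ hw hw0 hT hdE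
      (ok := fun r => r ≤ r₀) (fun _ _ h1 h2 => h2.trans h1) ⟨r₀, hr₀, le_rfl⟩
      (fun r hr hr1 => hRic.mono (by
        rw [neg_le_neg_iff]
        gcongr)) hS hS0 hSc (fun x r hr hr1 => hMor x (2 * r) (by positivity) (by
          linarith [show r ≤ r₀ from hr1])) hScal hfib'
    obtain ⟨V₁, lam, hB, hd⟩ := hdat.widB hr₀ (le_refl r₀) (k := n - 2) (by omega)
      (ηN_pos hn hp) (ηN_lt hn hp) (ηN_b hn hp) (D := max D 0) (by
        intro x y hxy
        have h2 : dist x y ≤ D * r₀ := by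
          apply hchain x y
          refine Relation.ReflTransGen.mono (fun a c hac => ?_) _ _ hxy
          have key : ∀ a, r₀ * rho Ω (fun x => (1 - t) * w x) a ≤ 64 / 3 * LamO n p L → a ∈ Ω →
              r₀ ^ 2 * w a ≤ ΛO n p L / (1 - t) := by
            intro a ha haΩ
            rw [le_div_iff₀ ht']
            have h0 : 0 ≤ rho Ω (fun x => (1 - t) * w x) a := rho_nonneg a
            have hwa := hw0 a haΩ
            calc r₀ ^ 2 * w a * (1 - t) = (r₀ * rho Ω (fun x => (1 - t) * w x) a) ^ 2 := by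
                  rw [mul_pow, rho_mem haΩ, Real.sq_sqrt (by positivity)]
                  ring
              _ ≤ (64 / 3 * LamO n p L) ^ 2 := by gcongr
          exact ⟨key a hac.1, key c hac.2.1, hac.2.2⟩
        refine h2.trans ?_
        gcongr
        exact le_max_left _ _) hD0
    refine ⟨V₁, lam, hB, fun v x y hx hy u hu => (hd v x y hx hy u hu).trans ?_⟩
    unfold CO
    rfl

end Tw

end Vale.Agent.P210.Cw.Om
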