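import Vale.Agent.P210.Cx.Mfd

/-!
# Open subsets of Riemannian manifolds with doubling and Poincare inequality
-/

open scoped Manifold ContDiff Topology Bundle ENNReal NNReal
open Set Metric Filter Bundle IsManifold MeasureTheory Manifold Asymptotics

set_option maxSynthPendingDepth 3
set_option linter.all false

noncomputable section

namespace Vale.Agent.P210.Cw.Om

open Vale.Agent.P210.R2 Vale.Agent.P210.R2.H53 Vale.Agent.P210.R2.H999 Vale.Agent.P210.R2.H973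

/-- doubling and Poincare inequality on the admissible scales -/
structure Bs {X : Type} [MetricSpace X] [MeasurableSpace X] (μ : Measure X) (n : ℕ) (Cd : ℝ)
    (ok : ℝ → Prop) : Prop where
  dbl : ∀ x s t, 0 < s → s ≤ t → ok t →
    μ.real (ball x t) ≤ Cd * (t / s) ^ n * μ.real (ball x s)
  d2 : ∀ x r, 0 < r → ok r → μ.real (ball x (2 * r)) ≤ Cd * μ.real (ball x r)
  poi : ∀ u g : X → ℝ, Continuous g → (∀ x, 0 ≤ g x) → PL g u → ∀ x r, 0 < r → ok r →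
    ∀ S₁ S₂ : Set X, MeasurableSet S₁ → MeasurableSet S₂ → S₁ ⊆ ball x r → S₂ ⊆ ball x r →
    |μ.real S₂ * ∫ y in S₁, u y ∂μ - μ.real S₁ * ∫ y in S₂, u y ∂μ| ≤
      Cd * r * μ.real (ball x r) * ∫ y in ball x (3 * r), g y ∂μ

theorem Bs.mono {X : Type} [MetricSpace X] [MeasurableSpace X] {μ : Measure X} {n : ℕ} {Cd C : ℝ}
    {ok : ℝ → Prop} (h : Bs μ n Cd ok) (hC : Cd ≤ C) : Bs μ n C ok := by
  refine ⟨fun x s t hs hst ht => (h.dbl x s t hs hst ht).trans ?_,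
    fun x r hr hok => (h.d2 x r hr hok).trans ?_,
    fun u g hg hg0 hu x r hr hok S₁ S₂ h1 h2 h3 h4 =>
      (h.poi u g hg hg0 hu x r hr hok S₁ S₂ h1 h2 h3 h4).trans ?_⟩
  · have : 0 ≤ μ.real (ball x s) := measureReal_nonneg
    have : 0 < t := hs.trans_le hst
    gcongr
  · have : 0 ≤ μ.real (ball x r) := measureReal_nonneg
    gcongr
  · have : 0 ≤ μ.real (ball x r) := measureReal_nonneg
    have : 0 ≤ ∫ y in ball x (3 * r), g y ∂μ := integral_nonneg fun y => hg0 y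
    gcongr

section Base

variable {E : Type} [NormedAddCommGroup E] [NormedSpace ℝ E] [FiniteDimensional ℝ E]
    [MeasurableSpace E] [BorelSpace E]
    {M : Type} [MetricSpace M] [ChartedSpace E M]
    [RiemannianBundle (fun x : M => TangentSpace 𝓘(ℝ, E) x)]
    [IsManifold 𝓘(ℝ, E) ∞ M]
    [IsContMDiffRiemannianBundle 𝓘(ℝ, E) ∞ E (fun x : M => TangentSpace 𝓘(ℝ, E) x)]
    [IsRiemannianManifold 𝓘(ℝ, E) M] [MeasurableSpace M] [BorelSpace M] [ProperSpace M]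

/-- lower Ricci bounds -/
theorem bs_of {n : ℕ} (hn : 2 ≤ n) (hfin : Module.finrank ℝ E = n) {μ : Measure M}
    (hvol : IsVol E μ) {ok : ℝ → Prop}
    (hRic : ∀ r, 0 < r → ok r → RicGE E M (-(1 / r ^ 2))) :
    Bs μ n (CdN n) ok := by
  have hfr : 1 ≤ Module.finrank ℝ E := by omega
  have hc : Cal E μ := cal_of H934.cala H34.calb H34.cald hfr hvol
  haveI := hc.isFinOn
  refine ⟨?_, ?_, ?_⟩
  · intro x s t hs hst ht
    have ht0 : 0 < t := hs.trans_le hst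
    have h0 := H912.bg' n hn E M hfr hfin μ (1 / t ^ 2) hvol (by positivity) (hRic t ht0 ht) x s t
      hs hst
    refine h0.trans ?_
    have h2 : 1 / t ^ 2 * t ^ 2 = 1 := by field_simp
    rw [h2]
    have h3 : 0 ≤ μ.real (ball x s) := measureReal_nonneg
    have h4 := exp_one_le_CdN n
    calc (t / s) ^ n * Real.exp 1 * μ.real (ball x s)
        ≤ (t / s) ^ n * CdN n * μ.real (ball x s) := by gcongr
      _ = _ := by ring
  · intro x r hr hok
    have h0 := H912.bg' n (by omega) E M hfr hfin μ (1 / r ^ 2) hvol (by positivity)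
      (hRic r hr hok) x r (2 * r) hr (by linarith)
    rw [show 2 * r / r = 2 by field_simp, show 1 / r ^ 2 * (2 * r) ^ 2 = 4 by
        field_simp; norm_num] at h0
    refine h0.trans ?_
    have h3 : 0 ≤ μ.real (ball x r) := measureReal_nonneg
    have h4 : (2 : ℝ) ^ n * Real.exp 4 ≤ CdN n := by
      unfold CdN
      have : 0 < (2 : ℝ) ^ n * Real.exp 4 := by positivity
      linarith
    gcongr
  · intro u ρ' hρ'c hρ'0 hu x r hr hok S₁ S₂ hS₁ hS₂ h₁ h₂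
    have hsd := seg_data hn hfin hvol hr (hRic r hr hok)
    exact hsd.poi hr (by positivity) hρ'c hρ'0 hu hu.continuous x S₁ S₂ hS₁ hS₂ h₁ h₂

theorem dat_ofP {n : ℕ} (hn : 2 ≤ n) (hfin : Module.finrank ℝ E = n) {μ : Measure M}
    (hvol : IsVol E μ) {ok : ℝ → Prop} (hokm : ∀ r s, ok r → s ≤ r → ok s)
    {Cd : ℝ} (hCd1 : 1 ≤ Cd) (hbs : Bs μ n Cd ok) {Ω : Set M} (hΩ : IsOpen Ω)
    {ρ : M → ℝ} (hρ : ContinuousOn ρ Ω) (hρ0 : ∀ x ∈ Ω, 0 < ρ x) (hρz : ∀ x ∉ Ω, ρ x = 0)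
    {b A : ℝ} (hb : 1 < b) (hA : 0 < A)
    (hri : ∀ x r, IntegrableOn (fun y => ρ y ^ b) (ball x r) μ)
    (hE : ∀ x r, 0 < r → ok r →
      ∫ y in ball x r, ρ y ^ b ∂μ ≤ A * r ^ (-b) * μ.real (ball x r)) :
    Dat μ Ω ρ n b A Cd ok := by
  have hfr : 1 ≤ Module.finrank ℝ E := by omega
  have hc : Cal E μ := cal_of H934.cala H34.calb H34.cald hfr hvol
  haveI := hc.isFinOn
  have hnn : ∀ x, 0 ≤ ρ x := by
    intro x
    by_cases hx : x ∈ Ω
    · exact (hρ0 x hx).le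
    · rw [hρz x hx]
  refine ⟨hc.fin, fun x r hr => hc.pos _ isOpen_ball ⟨x, mem_ball_self hr⟩, ?_, hΩ, hρ, hρ0, hρz,
    hri, hCd1, hb, hA, hokm, hbs.dbl, ?_, hE⟩
  · intro x y t ht
    obtain ⟨c, c1, c2, c3⟩ := exists_geo E x y
    have hd : 0 ≤ dist x y := dist_nonneg
    have hm : t * dist x y ∈ Icc 0 (dist x y) :=
      ⟨mul_nonneg ht.1 hd, mul_le_of_le_one_left hd ht.2⟩
    have k1 := c1 0 ⟨le_rfl, hd⟩ _ hm
    have k2 := c1 _ hm (dist x y) ⟨hd, le_rfl⟩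
    rw [c2, zero_sub, abs_neg, abs_of_nonneg hm.1] at k1
    rw [c3, abs_sub_comm, abs_of_nonneg (by linarith [hm.2])] at k2
    exact ⟨_, k1, by rw [k2]; ring⟩
  · rintro u ⟨ρ', hρ'c, hρ'0, hρ'le, hu⟩ x r hr hok S₁ S₂ hS₁ hS₂ h₁ h₂
    refine (hbs.poi u ρ' hρ'c hρ'0 hu x r hr hok S₁ S₂ hS₁ hS₂ h₁ h₂).trans ?_
    have hbf : μ (ball x (3 * r)) ≠ ⊤ :=
      ne_top_of_le_ne_top (isCompact_closedBall x (3 * r)).measure_ne_top
        (measure_mono ball_subset_closedBall)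
    have e1 : ∫ y in ball x (3 * r), ρ' y ∂μ ≤ ∫ y in ball x (3 * r), ρ y ∂μ := by
      apply setIntegral_mono_on
      · exact (hρ'c.continuousOn.integrableOn_compact (isCompact_closedBall x _)).mono_set
          ball_subset_closedBall
      · exact int_of_pow hb (meas_of hΩ hρ hρz) hnn hbf (hri _ _)
      · exact measurableSet_ball
      · intro y _
        exact hρ'le y
    have e2 : 0 < Cd := zero_lt_one.trans_le hCd1
    have e3 : 0 ≤ μ.real (ball x r) := measureReal_nonneg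
    gcongr

end Base

/-- the energy constant -/
def AP (n : ℕ) (p L Cd : ℝ) : ℝ :=
  (D1 (βN p) * (max L 0) ^ ((βN p + 2) / (2 * p)) + D2 n (βN p)) * Cd

theorem AP_pos {n : ℕ} (hn : 3 ≤ n) {p : ℝ} (hp : 1 < p) (L : ℝ) {Cd : ℝ} (hCd : 1 ≤ Cd) :
    0 < AP n p L Cd := by
  have h1 := D2_pos (δ_pos hn hp)
  have h2 : 0 ≤ D1 (βN p) := D1_nonneg
  have h3 : 0 ≤ max L 0 := le_max_right _ _
  have h4 : 0 < Cd := zero_lt_one.trans_le hCd
  unfold AP
  positivity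

/-- the constant of the capped region -/
def LamP (n : ℕ) (p L Cd : ℝ) : ℝ := LamC n (n - 2) (βN p + 2) (AP n p L Cd) Cd (ηN n p)

section Base

variable {E : Type} [NormedAddCommGroup E] [NormedSpace ℝ E] [FiniteDimensional ℝ E]
    [MeasurableSpace E] [BorelSpace E]
    {M : Type} [MetricSpace M] [ChartedSpace E M]
    [RiemannianBundle (fun x : M => TangentSpace 𝓘(ℝ, E) x)]
    [IsManifold 𝓘(ℝ, E) ∞ M]
    [IsContMDiffRiemannianBundle 𝓘(ℝ, E) ∞ E (fun x : M => TangentSpace 𝓘(ℝ, E) x)]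
    [IsRiemannianManifold 𝓘(ℝ, E) M] [MeasurableSpace M] [BorelSpace M] [ProperSpace M]

/-- the metric measure space of an open subset with a conformal factor -/
theorem dat_enP {n : ℕ} (hn : 3 ≤ n) (hfin : Module.finrank ℝ E = n) {μ : Measure M}
    (hvol : IsVol E μ) {p : ℝ} (hp : 1 < p) {L : ℝ} {ok : ℝ → Prop}
    (hokm : ∀ r s, ok r → s ≤ r → ok s) (hok : ∃ r, 0 < r ∧ ok r)
    {Cd : ℝ} (hCd1 : 1 ≤ Cd) (hbs : Bs μ n Cd ok) {Ω : Set M} (hΩ : IsOpen Ω)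
    {a S ρ u : M → ℝ}
    (ha : ContMDiffOn 𝓘(ℝ, E) 𝓘(ℝ, ℝ) ∞ a Ω)
    (hS : ContinuousOn S Ω) (hS0 : ∀ p ∈ Ω, 0 ≤ S p)
    (hpt : ∀ K : Set M, IsCompact K → K ⊆ Ω → ∃ φ : M → ℝ,
      ContMDiffOn 𝓘(ℝ, E) 𝓘(ℝ, ℝ) ∞ φ Ω ∧
      ∀ p ∈ K, TwS E n (fun x => Real.exp (2 * a x) / 2) a φ p ≤ S p)
    (hρ : ∀ p ∈ Ω, ρ p = Real.exp (a p)) (hρz : ∀ p ∉ Ω, ρ p = 0) (hu : Ex Ω ρ u)
    (hM : ∀ x r, 0 < r → ok r → IntegrableOn (fun y => S y ^ p) (ball x (2 * r) ∩ Ω) μ ∧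
      ∫ y in ball x (2 * r) ∩ Ω, S y ^ p ∂μ ≤
      L * (2 * r) ^ (-(2 * p)) * μ.real (ball x (2 * r))) :
    Dat μ Ω ρ n (βN p + 2) (AP n p L Cd) Cd ok := by
  have hfr : 1 ≤ Module.finrank ℝ E := by omega
  have hc : Cal E μ := cal_of H934.cala H34.calb H34.cald hfr hvol
  haveI := hc.isFinOn
  have hβ0 := βN_pos hp
  have hρc : ContinuousOn ρ Ω := by
    refine ContinuousOn.congr (f := fun p => Real.exp (a p)) ?_ hρ
    exact Real.continuous_exp.comp_continuousOn ha.continuousOn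
  have hρ0 : ∀ x ∈ Ω, 0 < ρ x := fun x hx => by rw [hρ x hx]; exact Real.exp_pos _
  have hnn : ∀ x, 0 ≤ ρ x := by
    intro x
    by_cases hx : x ∈ Ω
    · exact (hρ0 x hx).le
    · rw [hρz x hx]
  have hL0 : 0 ≤ max L 0 := le_max_right _ _
  have hen := fun (x : M) (r : ℝ) (hr : 0 < r) (hokr : ok r) =>
    en_ball H755.calc_holds hfr hc hβ0 ((βN_le p).trans (by norm_num)) (δ_pos hn hp) hΩ ha
      hρ hρz (meas_of hΩ hρc hρz) (comp_of hc hΩ hu hρc hnn) x hr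
      (Q₁ := (max L 0) ^ ((βN p + 2) / (2 * p)) * (2 * r) ^ (-(βN p + 2)) *
        μ.real (ball x (2 * r)))
      (by
        have : 0 ≤ μ.real (ball x (2 * r)) := measureReal_nonneg
        positivity)
      (by
        intro K hK hKΩ
        obtain ⟨φ, hφ, hφK⟩ := hpt K hK hKΩ
        obtain ⟨S', h1, h2, h3, h4⟩ := morreyO hc hΩ hS hS0 (b := βN p + 2) (by linarith)
          (βN_le' p) (by positivity : (0 : ℝ) < 2 * r) (hM x r hr hokr).1 (hM x r hr hokr).2 hK hKΩ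
        exact ⟨φ, S', hφ, h1, h2, fun q hq => by rw [h3 q hq]; exact hφK q hq, h4⟩)
  apply dat_ofP (by omega) hfin hvol hokm hCd1 hbs hΩ hρc hρ0 hρz (by linarith)
    (AP_pos hn hp L hCd1)
  · intro x R
    obtain ⟨r, hr, hokr⟩ := hok
    obtain ⟨t, -, ht⟩ := (isCompact_closedBall x R).elim_nhds_subcover (fun y => ball y r)
      (fun y _ => ball_mem_nhds y hr)
    have h1 : IntegrableOn (fun y => ρ y ^ (βN p + 2)) (⋃ y ∈ t, ball y r) μ := by
      rw [integrableOn_finset_iUnion]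
      exact fun y _ => (hen y r hr hokr).1
    exact h1.mono_set (ball_subset_closedBall.trans ht)
  · intro x r hr hok
    refine (hen x r hr hok).2.trans ?_
    have hm : 0 ≤ μ.real (ball x (2 * r)) := measureReal_nonneg
    have h3 : (2 * r) ^ (-(βN p + 2)) ≤ r ^ (-(βN p + 2)) := by
      apply Real.rpow_le_rpow_of_nonpos hr (by linarith) (by linarith)
    have hbg := hbs.d2 x r hr hok
    have hC1 : 0 ≤ D1 (βN p) := D1_nonneg
    have hC2 := D2_pos (δ_pos hn hp)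
    set m2 := μ.real (ball x (2 * r)) with hm2
    set m1 := μ.real (ball x r) with hm1
    calc D1 (βN p) * (max L 0 ^ ((βN p + 2) / (2 * p)) * (2 * r) ^ (-(βN p + 2)) * m2) +
          D2 n (βN p) * r ^ (-(βN p + 2)) * m2
        ≤ D1 (βN p) * (max L 0 ^ ((βN p + 2) / (2 * p)) * r ^ (-(βN p + 2)) * m2) +
          D2 n (βN p) * r ^ (-(βN p + 2)) * m2 := by gcongr
      _ = (D1 (βN p) * max L 0 ^ ((βN p + 2) / (2 * p)) + D2 n (βN p)) * r ^ (-(βN p + 2)) *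
          m2 := by ring
      _ ≤ (D1 (βN p) * max L 0 ^ ((βN p + 2) / (2 * p)) + D2 n (βN p)) * r ^ (-(βN p + 2)) *
          (Cd * m1) := by gcongr
      _ = _ := by unfold AP; ring

end Base

end Vale.Agent.P210.Cw.Om
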