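import Vale.Agent.P210.Cx.DefsP
import Vale.Agent.P210.Cx.MfdP

/-!
# From the Poincaré inequality to its form for pairs of sets
-/

open scoped ENNReal NNReal Topology
open MeasureTheory Set Metric Filter

set_option linter.all false

noncomputable section

namespace Vale.Agent.P210.Cw.Om

variable {X : Type} [MetricSpace X] [ProperSpace X] [MeasurableSpace X] [BorelSpace X]
variable {μ : Measure X} {n : ℕ} {K : ℝ} {ok : ℝ → Prop}

/-- the standing assumptions -/
structure Geo (μ : Measure X) : Prop where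
  fin : ∀ K : Set X, IsCompact K → μ K < ⊤
  pos : ∀ x r, 0 < r → 0 < μ (ball x r)
  geo : ∀ x y : X, ∀ t ∈ Icc (0 : ℝ) 1, ∃ z, dist x z = t * dist x y ∧
    dist z y = (1 - t) * dist x y

theorem Geo.lt (h : Geo μ) (x : X) (r : ℝ) : μ (ball x r) < ⊤ :=
  (measure_mono ball_subset_closedBall).trans_lt (h.fin _ (isCompact_closedBall x r))

theorem Geo.rpos (h : Geo μ) (x : X) {r : ℝ} (hr : 0 < r) : 0 < μ.real (ball x r) :=
  ENNReal.toReal_pos (h.pos x r hr).ne' (h.lt x r).ne

theorem Geo.int (h : Geo μ) {f : X → ℝ} (hf : Continuous f) (x : X) (r : ℝ) :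
    IntegrableOn f (ball x r) μ := by
  haveI : IsFiniteMeasureOnCompacts μ := ⟨fun K hK => h.fin K hK⟩
  exact (hf.continuousOn.integrableOn_compact (isCompact_closedBall x r)).mono_set
    ball_subset_closedBall

theorem IsPI.one_le (h : IsPI μ n K ok) (hG : Geo μ) (x : X) {r : ℝ} (hr : 0 < r) (hok : ok r) :
    1 ≤ K := by
  have h1 := h.doubling x r r hr le_rfl hok
  rw [div_self hr.ne', one_pow, mul_one] at h1
  have h2 := hG.rpos x hr
  by_contra hcon
  push Not at hcon
  nlinarith

theorem PI_card (h : IsPI μ n K ok) (hG : Geo μ) (hK : 1 ≤ K) (hokm : ∀ r s, ok r → s ≤ r → ok s)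
    (s : Finset X) (x : X) {r ε : ℝ} (hε : 0 < ε) (hεr : ε ≤ r) (hok : ok (3 * r))
    (hd : ∀ y ∈ s, dist y x < r) (hsep : ∀ y ∈ s, ∀ z ∈ s, y ≠ z → ε ≤ dist y z) :
    (s.card : ℝ) ≤ K * (6 * r / ε) ^ n := by
  have hr : 0 < r := hε.trans_le hεr
  set m := μ.real (ball x (2 * r)) with hm
  have hm0 : 0 < m := hG.rpos x (by positivity)
  set Q := K * (6 * r / ε) ^ n with hQ
  have hK0 : 0 < K := zero_lt_one.trans_le hK
  have hQ0 : 0 < Q := by positivity
  have h1 : ∀ y ∈ s, m ≤ Q * μ.real (ball y (ε / 2)) := by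
    intro y hy
    have k1 := h.doubling y (ε / 2) (3 * r) (by positivity) (by linarith) hok
    rw [show (3 * r) / (ε / 2) = 6 * r / ε by field_simp; ring] at k1
    refine le_trans ?_ k1
    exact measureReal_mono (ball_subset_ball' (by linarith [hd y hy, dist_comm x y]))
      (hG.lt _ _).ne
  have h2 : ∑ y ∈ s, μ.real (ball y (ε / 2)) ≤ m := by
    have h3 : μ.real (⋃ y ∈ s, ball y (ε / 2)) = ∑ y ∈ s, μ.real (ball y (ε / 2)) := by
      apply measureReal_biUnion_finset
      · intro y hy z hz hne
        apply ball_disjoint_ball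
        have := hsep y hy z hz hne
        linarith
      · intro y _
        exact measurableSet_ball
      · intro y _
        exact (hG.lt _ _).ne
    rw [← h3]
    apply measureReal_mono _ (hG.lt _ _).ne
    apply iUnion₂_subset
    intro y hy
    exact ball_subset_ball' (by linarith [hd y hy])
  have h4 : (s.card : ℝ) * m ≤ Q * m := by
    calc (s.card : ℝ) * m = ∑ _y ∈ s, m := by rw [Finset.sum_const, nsmul_eq_mul]
      _ ≤ ∑ y ∈ s, Q * μ.real (ball y (ε / 2)) := Finset.sum_le_sum h1
      _ = Q * ∑ y ∈ s, μ.real (ball y (ε / 2)) := by rw [Finset.mul_sum]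
      _ ≤ Q * m := by gcongr
  exact le_of_mul_le_mul_right h4 hm0

/-- the constant -/
def CPI (n : ℕ) (K : ℝ) : ℝ :=
  2 * (K * (24 * K) ^ n) * (1 + K * 2 ^ n * ((4 * K + 1) * (K * (12 * K) ^ n)))

theorem le_CPI {n : ℕ} {K : ℝ} (hK : 1 ≤ K) : K * 2 ^ n ≤ CPI n K := by
  unfold CPI
  have h0 : (0 : ℝ) < K := by linarith
  have h1 : (2 : ℝ) ^ n ≤ (24 * K) ^ n := by
    gcongr
    linarith
  have h2 : 0 ≤ K * 2 ^ n * ((4 * K + 1) * (K * (12 * K) ^ n)) := by positivity
  have h3 : 0 ≤ K * (24 * K) ^ n := by positivity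
  calc K * 2 ^ n ≤ K * (24 * K) ^ n := by gcongr
    _ ≤ 2 * (K * (24 * K) ^ n) * 1 := by linarith
    _ ≤ 2 * (K * (24 * K) ^ n) * (1 + K * 2 ^ n * ((4 * K + 1) * (K * (12 * K) ^ n))) := by
        gcongr
        linarith

theorem PI_poi (h : IsPI μ n K ok) (hG : Geo μ) (hK : 1 ≤ K) (hokm : ∀ r s, ok r → s ≤ r → ok s)
    {u g : X → ℝ} (hg : Continuous g) (hg0 : ∀ y, 0 ≤ g y) (hu : PL g u) (x : X) {r : ℝ}
    (hr : 0 < r) (hok : ok (4 * r)) {S₁ S₂ : Set X} (hS₁ : MeasurableSet S₁)
    (hS₂ : MeasurableSet S₂) (h₁ : S₁ ⊆ ball x r) (h₂ : S₂ ⊆ ball x r) :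
    |μ.real S₂ * ∫ y in S₁, u y ∂μ - μ.real S₁ * ∫ y in S₂, u y ∂μ| ≤
      CPI n K * r * μ.real (ball x r) * ∫ y in ball x (3 * r), g y ∂μ := by
  classical
  have huc : Continuous u := hu.continuous
  have hK0 : 0 < K := zero_lt_one.trans_le hK
  set m := μ.real (ball x r) with hm
  have hm0 : 0 < m := hG.rpos x hr
  set G := ∫ y in ball x (3 * r), g y ∂μ with hGd
  have hG0 : 0 ≤ G := integral_nonneg fun y => hg0 y
  set ε : ℝ := r / (4 * K) with hε
  have hε0 : 0 < ε := by positivity
  have hKε : K * ε = r / 4 := by rw [hε]; field_simp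
  have hεr : ε ≤ r / 4 := by
    rw [← hKε]
    nlinarith
  set Q : ℝ := K * (12 * K) ^ n with hQ
  have hQ0 : 0 < Q := by positivity
  -- integrals of `g`
  have hGle : ∀ y a, dist y x + a ≤ 3 * r → ∫ z in ball y a, g z ∂μ ≤ G := by
    intro y a hya
    apply setIntegral_mono_set (hG.int hg _ _) (Eventually.of_forall hg0)
    apply HasSubset.Subset.eventuallyLE
    exact ball_subset_ball' (by linarith)
  -- measures of small balls
  have hmQ : ∀ y, dist x y ≤ 2 * r → m ≤ Q * μ.real (ball y ε) := by
    intro y hy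
    have k1 := h.doubling y ε (3 * r) hε0 (by linarith) (hokm _ _ hok (by linarith))
    rw [show 3 * r / ε = 12 * K by rw [hε]; field_simp; ring] at k1
    exact (measureReal_mono (ball_subset_ball' (by linarith)) (hG.lt _ _).ne).trans k1
  set av : X → ℝ := fun y => ⨍ z in ball y ε, u z ∂μ with hav
  have havd : ∀ y (A : ℝ), μ.real (ball y ε) * |av y - A| ≤ ∫ z in ball y ε, |u z - A| ∂μ := by
    intro y A
    have hp := hG.rpos y hε0
    have e1 : μ.real (ball y ε) * (av y - A) = ∫ z in ball y ε, (u z - A) ∂μ := by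
      rw [integral_sub (hG.int huc _ _) (integrableOn_const (hG.lt _ _).ne), setIntegral_const,
        smul_eq_mul, hav, mul_sub]
      simp only
      rw [setAverage_eq, smul_eq_mul, ← mul_assoc, mul_inv_cancel₀ hp.ne', one_mul]
    calc μ.real (ball y ε) * |av y - A| = |μ.real (ball y ε) * (av y - A)| := by
          rw [abs_mul, abs_of_pos hp]
      _ ≤ _ := by rw [e1]; exact abs_integral_le_integral_abs
  -- neighbouring balls
  have hstep : ∀ z z', dist z x < r → dist z z' ≤ ε → |av z - av z'| ≤ r * G * Q / m := by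
    intro z z' hz hzz
    set A : ℝ := ⨍ y in ball z (2 * ε), u y ∂μ with hA
    have hP := h.poincare z (2 * ε) (by positivity) (hokm _ _ hok (by linarith)) u g hg hg0 hu
    have hP' : ∫ y in ball z (2 * ε), |u y - A| ∂μ ≤ r / 2 * G := by
      refine hP.trans ?_
      have e1 : K * (2 * ε) = r / 2 := by linarith
      rw [e1]
      have := hGle z (r / 2) (by linarith)
      gcongr
    have key : ∀ y, dist y z ≤ ε → |av y - A| ≤ r / 2 * G * Q / m := by
      intro y hy
      have hyx : dist x y ≤ 2 * r := by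
        have := dist_triangle_left x y z
        rw [dist_comm z y] at this
        linarith
      have h3 := havd y A
      have h4 : ∫ w in ball y ε, |u w - A| ∂μ ≤ ∫ w in ball z (2 * ε), |u w - A| ∂μ := by
        apply setIntegral_mono_set (hG.int (huc.sub continuous_const).abs _ _)
          (Eventually.of_forall fun w => abs_nonneg _)
        apply HasSubset.Subset.eventuallyLE
        exact ball_subset_ball' (by linarith)
      have h5 := hmQ y hyx
      rw [le_div_iff₀ hm0]
      calc |av y - A| * m ≤ |av y - A| * (Q * μ.real (ball y ε)) := by gcongr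
        _ = Q * (μ.real (ball y ε) * |av y - A|) := by ring
        _ ≤ Q * (r / 2 * G) := mul_le_mul_of_nonneg_left ((h3.trans h4).trans hP') hQ0.le
        _ = _ := by ring
    have h6 := key z (by rw [dist_self]; exact hε0.le)
    have h7 := key z' (by rw [dist_comm]; exact hzz)
    have h8 := abs_sub_le (av z) A (av z')
    rw [abs_sub_comm A] at h8
    have h9 : r / 2 * G * Q / m + r / 2 * G * Q / m = r * G * Q / m := by ring
    linarith
  -- chains
  have hchain : ∀ N : ℕ, ∀ y, dist y x < r → dist x y ≤ N * ε →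
      |av x - av y| ≤ N * (r * G * Q / m) := by
    intro N
    induction N with
    | zero =>
      intro y _ hxy
      have : x = y := dist_le_zero.1 (by simpa using hxy)
      subst this
      simp
    | succ N ih =>
      intro y hy hxy
      have hN : (0 : ℝ) < N + 1 := by positivity
      obtain ⟨z, hz1, hz2⟩ := hG.geo x y (N / ((N : ℝ) + 1)) ⟨by positivity, by
        rw [div_le_one hN]; linarith⟩
      have hxy0 : 0 ≤ dist x y := dist_nonneg
      have e1 : (1 - N / ((N : ℝ) + 1)) * dist x y = dist x y / (N + 1) := by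
        field_simp
        ring
      push_cast at hxy
      have h1 : dist x z ≤ N * ε := by
        rw [hz1, div_mul_eq_mul_div, div_le_iff₀ hN]
        have : 0 ≤ (N : ℝ) := by positivity
        nlinarith
      have h2 : dist z y ≤ ε := by
        rw [hz2, e1, div_le_iff₀ hN]
        linarith
      have h3 : dist z x < r := by
        rw [dist_comm, hz1]
        have : N / ((N : ℝ) + 1) ≤ 1 := by rw [div_le_one hN]; linarith
        rw [dist_comm] at hy
        nlinarith
      have h4 := ih z h3 h1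
      have h5 := hstep z y h3 h2
      have h6 := abs_sub_le (av x) (av z) (av y)
      push_cast
      linarith
  set a := av x with ha
  have hN1 : (⌈4 * K⌉₊ : ℝ) ≤ 4 * K + 1 := (Nat.ceil_lt_add_one (by positivity)).le
  have hball : ∀ y, dist y x < r → ∫ z in ball y ε, |u z - a| ∂μ ≤
      r * G * (1 + K * 2 ^ n * ((4 * K + 1) * Q)) := by
    intro y hy
    have h1 : |av x - av y| ≤ (4 * K + 1) * (r * G * Q / m) := by
      refine (hchain ⌈4 * K⌉₊ y hy ?_).trans ?_
      · have e1 : 4 * K * ε = r := by linarith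
        have e2 : 4 * K * ε ≤ (⌈4 * K⌉₊ : ℝ) * ε := by
          gcongr
          exact Nat.le_ceil _
        rw [dist_comm] at hy
        linarith
      · gcongr
    have hP := h.poincare y ε hε0 (hokm _ _ hok (by linarith)) u g hg hg0 hu
    have hP' : ∫ z in ball y ε, |u z - av y| ∂μ ≤ r * G := by
      refine hP.trans ?_
      rw [hKε]
      have := hGle y (r / 4) (by linarith)
      have h5 : r / 4 * ∫ z in ball y (r / 4), g z ∂μ ≤ r / 4 * G := by gcongr
      nlinarith
    have h2 : μ.real (ball y ε) ≤ K * 2 ^ n * m := by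
      have k1 := h.doubling x r (2 * r) hr (by linarith) (hokm _ _ hok (by linarith))
      rw [show 2 * r / r = 2 by field_simp] at k1
      exact (measureReal_mono (ball_subset_ball' (by linarith)) (hG.lt _ _).ne).trans k1
    have h3 : ∫ z in ball y ε, |u z - a| ∂μ ≤
        ∫ z in ball y ε, (|u z - av y| + |av x - av y|) ∂μ := by
      apply setIntegral_mono_on (hG.int (huc.sub continuous_const).abs _ _)
        ((hG.int (huc.sub continuous_const).abs _ _).add (integrableOn_const (hG.lt _ _).ne))
        measurableSet_ball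
      intro z _
      have := abs_sub_le (u z) (av y) a
      rw [abs_sub_comm (av y) a] at this
      exact this
    have i1 : IntegrableOn (fun z => |u z - av y|) (ball y ε) μ :=
      hG.int (huc.sub continuous_const).abs _ _
    have i2 : IntegrableOn (fun _ : X => |av x - av y|) (ball y ε) μ :=
      integrableOn_const (hG.lt _ _).ne
    rw [integral_add i1 i2, setIntegral_const, smul_eq_mul] at h3
    refine h3.trans ?_
    calc ∫ z in ball y ε, |u z - av y| ∂μ + μ.real (ball y ε) * |av x - av y|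
        ≤ r * G + (K * 2 ^ n * m) * ((4 * K + 1) * (r * G * Q / m)) := by
          gcongr
      _ = _ := by
          field_simp
  -- the cover
  obtain ⟨N, hNsub, hNsep, hNcov⟩ : ∃ N : Finset X, (∀ y ∈ N, dist y x < r) ∧
      (∀ y ∈ N, ∀ z ∈ N, y ≠ z → ε ≤ dist y z) ∧ ball x r ⊆ ⋃ y ∈ N, ball y ε := by
    obtain ⟨S, hS1, hS2⟩ := exists_net (ball x r) hε0
    have hfin : (Subtype.val '' S : Set X).Finite := by
      apply (Cw.finite_of_card (N := ⌊K * (6 * r / ε) ^ n⌋₊) _).1
      intro s hs
      apply Nat.le_floor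
      apply PI_card h hG hK hokm s x hε0 (by linarith) (hokm _ _ hok (by linarith))
      · intro y hy
        obtain ⟨z, -, rfl⟩ := hs hy
        exact z.2
      · intro y hy z hz hne
        obtain ⟨y', hy', rfl⟩ := hs hy
        obtain ⟨z', hz', rfl⟩ := hs hz
        exact hS1 y' hy' z' hz' fun hh => hne (by rw [hh])
    refine ⟨hfin.toFinset, ?_, ?_, ?_⟩
    · intro y hy
      rw [Set.Finite.mem_toFinset] at hy
      obtain ⟨z, -, rfl⟩ := hy
      exact z.2
    · intro y hy z hz hne
      rw [Set.Finite.mem_toFinset] at hy hz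
      obtain ⟨y', hy', rfl⟩ := hy
      obtain ⟨z', hz', rfl⟩ := hz
      exact hS1 y' hy' z' hz' fun hh => hne (by rw [hh])
    · intro z hz
      obtain ⟨y, hy, hyz⟩ := hS2 ⟨z, hz⟩
      rw [mem_iUnion₂]
      exact ⟨y, by rw [Set.Finite.mem_toFinset]; exact ⟨y, hy, rfl⟩, hyz⟩
  have hcard : (N.card : ℝ) ≤ K * (24 * K) ^ n := by
    have := PI_card h hG hK hokm N x hε0 (by linarith) (hokm _ _ hok (by linarith)) hNsub hNsep
    rwa [show 6 * r / ε = 24 * K by rw [hε]; field_simp; ring] at this
  have hfin : ∫ z in ball x r, |u z - a| ∂μ ≤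
      K * (24 * K) ^ n * (r * G * (1 + K * 2 ^ n * ((4 * K + 1) * Q))) := by
    have hc : Continuous fun z => |u z - a| := (huc.sub continuous_const).abs
    calc ∫ z in ball x r, |u z - a| ∂μ ≤ ∫ z in ⋃ y ∈ N, ball y ε, |u z - a| ∂μ := by
          apply setIntegral_mono_set
          · rw [integrableOn_finset_iUnion]
            exact fun y _ => hG.int hc _ _
          · exact Eventually.of_forall fun w => abs_nonneg _
          · exact HasSubset.Subset.eventuallyLE hNcov
      _ ≤ ∑ y ∈ N, ∫ z in ball y ε, |u z - a| ∂μ := by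
          clear hcard hNcov hNsep
          induction N using Finset.induction_on with
          | empty => simp
          | insert y N hy ih =>
            rw [Finset.sum_insert hy, Finset.set_biUnion_insert]
            have i1 : IntegrableOn (fun z => |u z - a|) (⋃ x ∈ N, ball x ε) μ := by
              rw [integrableOn_finset_iUnion]
              exact fun y _ => hG.int hc _ _
            have i0 := hG.int hc y ε
            have h1 : ∫ z in ball y ε ∪ ⋃ x ∈ N, ball x ε, |u z - a| ∂μ ≤
                ∫ z in ball y ε, |u z - a| ∂μ + ∫ z in ⋃ x ∈ N, ball x ε, |u z - a| ∂μ := by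
              rw [← Set.union_diff_self, setIntegral_union disjoint_sdiff_self_right
                (((Finset.measurableSet_biUnion N fun _ _ => measurableSet_ball)).diff
                  measurableSet_ball) i0 (i1.mono_set diff_subset)]
              exact add_le_add le_rfl (setIntegral_mono_set i1
                (Eventually.of_forall fun w => abs_nonneg _)
                (HasSubset.Subset.eventuallyLE diff_subset))
            have h2 := ih (fun y hy => hNsub y (Finset.mem_insert_of_mem hy))
            linarith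
      _ ≤ ∑ y ∈ N, r * G * (1 + K * 2 ^ n * ((4 * K + 1) * Q)) :=
          Finset.sum_le_sum fun y hy => hball y (hNsub y hy)
      _ = N.card * (r * G * (1 + K * 2 ^ n * ((4 * K + 1) * Q))) := by
          rw [Finset.sum_const, nsmul_eq_mul]
      _ ≤ _ := by gcongr
  -- the two sets
  have hS : ∀ S : Set X, MeasurableSet S → S ⊆ ball x r →
      |∫ y in S, (u y - a) ∂μ| ≤ ∫ z in ball x r, |u z - a| ∂μ := by
    intro S hS hSB
    refine abs_integral_le_integral_abs.trans ?_
    apply setIntegral_mono_set (hG.int (huc.sub continuous_const).abs _ _)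
      (Eventually.of_forall fun w => abs_nonneg _)
    exact HasSubset.Subset.eventuallyLE hSB
  have hSi : ∀ S : Set X, S ⊆ ball x r → ∫ y in S, (u y - a) ∂μ =
      ∫ y in S, u y ∂μ - μ.real S * a := by
    intro S hSB
    have hSf : μ S ≠ ⊤ := ((measure_mono hSB).trans_lt (hG.lt _ _)).ne
    rw [integral_sub ((hG.int huc x r).mono_set hSB) (integrableOn_const hSf), setIntegral_const,
      smul_eq_mul]
  have e1 : μ.real S₂ * ∫ y in S₁, u y ∂μ - μ.real S₁ * ∫ y in S₂, u y ∂μ =
      μ.real S₂ * ∫ y in S₁, (u y - a) ∂μ - μ.real S₁ * ∫ y in S₂, (u y - a) ∂μ := by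
    rw [hSi S₁ h₁, hSi S₂ h₂]
    ring
  have m1 : μ.real S₁ ≤ m := measureReal_mono h₁ (hG.lt _ _).ne
  have m2 : μ.real S₂ ≤ m := measureReal_mono h₂ (hG.lt _ _).ne
  have m1' : 0 ≤ μ.real S₁ := measureReal_nonneg
  have m2' : 0 ≤ μ.real S₂ := measureReal_nonneg
  rw [e1]
  refine (abs_sub _ _).trans ?_
  rw [abs_mul, abs_mul, abs_of_nonneg m1', abs_of_nonneg m2']
  set I := ∫ z in ball x r, |u z - a| ∂μ with hI
  have hI0 : 0 ≤ I := integral_nonneg fun _ => abs_nonneg _
  have a1 := hS S₁ hS₁ h₁
  have a2 := hS S₂ hS₂ h₂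
  calc μ.real S₂ * |∫ y in S₁, (u y - a) ∂μ| + μ.real S₁ * |∫ y in S₂, (u y - a) ∂μ|
      ≤ m * I + m * I := by gcongr
    _ = 2 * m * I := by ring
    _ ≤ 2 * m * (K * (24 * K) ^ n * (r * G * (1 + K * 2 ^ n * ((4 * K + 1) * Q)))) := by gcongr
    _ = _ := by unfold CPI; ring

/-- doubling and Poincaré inequality with dilation -/
theorem bs_ofPI (hG : Geo μ) (h : IsPI μ n K ok) (hK : 1 ≤ K) (hokm : ∀ r s, ok r → s ≤ r → ok s)
    {ok' : ℝ → Prop} (hok' : ∀ r, 0 < r → ok' r → ok (4 * r)) : Bs μ n (CPI n K) ok' := by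
  have h1 := le_CPI (n := n) hK
  have h2 : K ≤ K * 2 ^ n := le_mul_of_one_le_right (by linarith) (one_le_pow₀ (by norm_num))
  refine ⟨fun x s t hs hst ht => ?_, fun x r hr hok => ?_,
    fun u g hg hg0 hu x r hr hok S₁ S₂ h3 h4 h5 h6 =>
      PI_poi h hG hK hokm hg hg0 hu x hr (hok' r hr hok) h3 h4 h5 h6⟩
  · have ht0 : 0 < t := hs.trans_le hst
    refine (h.doubling x s t hs hst (hokm _ _ (hok' t ht0 ht) (by linarith))).trans ?_
    have : 0 ≤ μ.real (ball x s) := measureReal_nonneg
    gcongr
    linarith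
  · refine (h.doubling x r (2 * r) hr (by linarith) (hokm _ _ (hok' r hr hok) (by linarith))).trans ?_
    rw [show 2 * r / r = 2 by field_simp]
    have : 0 ≤ μ.real (ball x r) := measureReal_nonneg
    gcongr

end Vale.Agent.P210.Cw.Om
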