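import Vale.Agent.P210.Cx.CoreCl
import Vale.Agent.P210.Cx.Wid

/-!
# Width estimates on open subsets: regions of small density of dimension at most `k`
-/

open scoped ENNReal NNReal Topology
open MeasureTheory Set Metric Filter

set_option linter.all false

noncomputable section

namespace Vale.Agent.P210.Cw.Om

section

variable {X : Type} [MetricSpace X]

/-- chains with steps at most `4 r` in a set -/
def ChZ (Z : Set X) (r : ℝ) : X → X → Prop :=
  Relation.ReflTransGen fun a c => a ∈ Z ∧ c ∈ Z ∧ dist a c ≤ 4 * r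

theorem ChZ.symm {Z : Set X} {r : ℝ} {x y : X} (h : ChZ Z r x y) : ChZ Z r y x := by
  unfold ChZ at h ⊢
  induction h with
  | refl => exact Relation.ReflTransGen.refl
  | tail _ hac ih =>
    exact Relation.ReflTransGen.head ⟨hac.2.1, hac.1, by rw [dist_comm]; exact hac.2.2⟩ ih

theorem ChZ.eq {Z : Set X} {r : ℝ} {x y : X} (h : ChZ Z r x y) :
    {z | ChZ Z r x z} = {z | ChZ Z r y z} := by
  ext z
  exact ⟨fun h1 => Relation.ReflTransGen.trans h.symm h1, fun h1 => Relation.ReflTransGen.trans h h1⟩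

end

variable {X : Type} [MetricSpace X] [ProperSpace X] [MeasurableSpace X] [BorelSpace X]
variable {μ : Measure X} {Ω : Set X} {ρ : X → ℝ} {n : ℕ} {b A Cd : ℝ} {ok : ℝ → Prop}

/-- admissible scales up to `r`; the set of the points with small density is the union of `k + 1`
sets whose chain components have diameter at most `D r` -/
theorem Dat.widM (h : Dat μ Ω ρ n b A Cd ok) {r : ℝ} (hr : 0 < r) (hok : ok r) {k : ℕ} (hk : 0 < k)
    {η : ℝ} (hη : 0 < η) (hη1 : η < 1) (hηb : (n : ℝ) - k * (1 - η) < b) {D : ℝ}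
    (Z : Fin (k + 1) → Set X)
    (hZc : ∀ z, r * ρ z ≤ 128 / 3 * LamC n k b A Cd η → ∃ i, z ∈ Z i)
    (hZ : ∀ i x y, ChZ (Z i) r x y → dist x y ≤ D * r) (hD : 0 ≤ D) :
    ∃ (W : Type) (lam : W → Ω → ℝ), TP.Bary Ω W k lam ∧ ∀ v, ∀ x y : Ω, 0 < lam v x → 0 < lam v y →
      ∀ u, Adm ρ u → |u x - u y| ≤ 4 * Cd ^ 3 * 24 ^ n * 3 ^ n * LamC n k b A Cd η +
        256 * (D + 2) * (Cd ^ 3 * 3 ^ n * 6 ^ n * A ^ (1 / b)) := by
  classical
  set Lam := LamC n k b A Cd η with hLamdef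
  have hLam : 0 < Lam := LamC_pos h.b1 h.a0 h.cd hη hηb
  have hCd : 0 < Cd := zero_lt_one.trans_le h.cd
  have hA := h.a0
  obtain ⟨m, hm1, hm2⟩ := exists_mem_Ico_zpow hr (one_lt_two (α := ℝ))
  set s : ℝ := (2 : ℝ) ^ m with hs
  have hs0 : 0 < s := by positivity
  have hm3 : r < 2 * s := by
    rw [zpow_add₀ (by norm_num), zpow_one] at hm2
    linarith
  have hoks : ok s := h.okm _ _ hok hm1
  set okl : ℤ → Prop := fun j => j ≤ m - 10 with hokl
  obtain ⟨V⟩ := exists_vs X okl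
  have hJs : (2 : ℝ) ^ (m - 10 : ℤ) = s / 1024 := by
    rw [zpow_sub₀ (by norm_num)]
    norm_num
    rfl
  have hok' : ∀ j, okl j → ok (1024 * (2 : ℝ) ^ j) := by
    intro j hj
    refine h.okm _ _ hoks ?_
    have : (2 : ℝ) ^ j ≤ (2 : ℝ) ^ (m - 10 : ℤ) := zpow_le_zpow_right₀ (by norm_num) hj
    rw [hJs] at this
    linarith
  obtain ⟨T, hT, hTp⟩ := h.exists_scale hLam (Ici ((m : ℝ) - 9)) (fun s hs t hst => le_trans hs hst)
    (fun x => ⟨(m : ℝ) - 9, Or.inl (le_refl ((m : ℝ) - 9))⟩) bddBelow_Ici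
  have hpc : (192 : ℝ) * (2 : ℝ) ^ ((m : ℝ) - 12) = 3 / 64 * s := by
    rw [show ((m : ℝ) - 12) = ((m - 12 : ℤ) : ℝ) by push_cast; ring, Real.rpow_intCast,
      zpow_sub₀ (by norm_num)]
    rw [← hs]
    norm_num
    ring
  -- capped points
  have hcap : ∀ x : Ω, (m : ℝ) - 12 < T x → pot μ ρ x (3 / 64 * s) < Lam := by
    intro x hx
    have := ((hTp x ((m : ℝ) - 12)).2 hx).2
    rwa [hpc] at this
  have hnear : ∀ x : Ω, (m : ℝ) - 12 < T x → ∃ z, r * ρ z ≤ 128 / 3 * Lam ∧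
      dist (x : X) z < 3 / 32 * s := by
    intro x hx
    have h1 := hcap x hx
    obtain ⟨x', hx', hρ⟩ : ∃ x', dist (x : X) x' < 3 / 32 * s ∧ ρ x' ≤ 64 / 3 * Lam / s := by
      by_contra hcon
      push Not at hcon
      have h2 : ∀ ε, 0 < ε → ε ≤ 3 / 64 * s →
          (3 / 64 * s - ε) * (64 / 3 * Lam / s) ≤ pot μ ρ x (3 / 64 * s) := by
        intro ε hε hε1
        have h3 := h.pot_ge x.2 (R := ε) (R' := 3 / 64 * s) (B := 64 / 3 * Lam / s) hε hε1
          (fun s hs hs' => h.av_ge_const (hε.trans_le hs) fun y hy =>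
            (hcon y (by linarith)).le)
        have h4 := h.pot_nonneg x ε
        linarith
      have h5 := h2 (min (3 / 64 * s) ((Lam - pot μ ρ x (3 / 64 * s)) / (2 * (64 / 3 * Lam / s))))
        (lt_min (by positivity) (div_pos (by linarith) (by positivity))) (min_le_left _ _)
      have h6 : min (3 / 64 * s) ((Lam - pot μ ρ x (3 / 64 * s)) / (2 * (64 / 3 * Lam / s))) *
          (64 / 3 * Lam / s) ≤ (Lam - pot μ ρ x (3 / 64 * s)) / 2 := by
        calc _ ≤ ((Lam - pot μ ρ x (3 / 64 * s)) / (2 * (64 / 3 * Lam / s))) *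
              (64 / 3 * Lam / s) := by
              gcongr; exact min_le_right _ _
          _ = _ := by field_simp
      have h7 : 3 / 64 * s * (64 / 3 * Lam / s) = Lam := by field_simp
      nlinarith
    refine ⟨x', ?_, hx'⟩
    rw [le_div_iff₀ hs0] at hρ
    have h0 : 0 ≤ ρ x' := h.r0 x'
    nlinarith
  -- the clusters
  have hclex : ∀ p : V.ι, ∃ o : Option (Fin (k + 1) × Set X),
      (∀ y, o = some y → ∃ z, z ∈ Z y.1 ∧ dist (V.ps p) z < s / 8 ∧ y.2 = {z' | ChZ (Z y.1) r z z'}) ∧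
      ((∃ z, r * ρ z ≤ 128 / 3 * Lam ∧ dist (V.ps p) z < s / 8) → ∃ y, o = some y) := by
    intro p
    by_cases hp : ∃ z, r * ρ z ≤ 128 / 3 * Lam ∧ dist (V.ps p) z < s / 8
    · obtain ⟨z, hz1, hz2⟩ := hp
      obtain ⟨i, hi⟩ := hZc z hz1
      refine ⟨some (i, {z' | ChZ (Z i) r z z'}), ?_, fun _ => ⟨_, rfl⟩⟩
      intro y hy
      have hy' := Option.some_injective _ hy
      subst hy'
      exact ⟨z, hi, hz2, rfl⟩
    · exact ⟨none, fun y hy => by simp at hy, fun hh => absurd hh hp⟩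
  choose cl hcl1 hcl2 using hclex
  set τ : Ω → ℝ := fun x => min 1 (max 0 (T x - m + 12)) with hτ
  have hτc : Continuous τ := by rw [hτ]; fun_prop
  have hτ0 : ∀ x, 0 ≤ τ x := fun x => le_min zero_le_one (le_max_left _ _)
  have hτp : ∀ x, 0 < τ x ↔ (m : ℝ) - 12 < T x := by
    intro x
    simp only [hτ, lt_min_iff, lt_max_iff, lt_irrefl, false_or, zero_lt_one, true_and]
    constructor <;> intro h <;> linarith
  have hdist : ∀ (p : V.ι) (x : X), V.lv p = m - 10 → 0 < V.hat p x →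
      dist x (V.ps p) < s / 512 := by
    intro p x hp hh
    have h1 := V.dist_of_hat p hh
    rw [hp, hJs] at h1
    linarith
  obtain ⟨lam, hB, hl⟩ := h.coreM V hok' hk hη hη1 hηb hT
    (by
      intro x j hj hTj
      rcases (hTp x (j : ℝ)).1 hTj with h1 | h1
      · exfalso
        have h2 : (j : ℝ) ≤ m - 10 := by exact_mod_cast hj
        have h3 : (m : ℝ) - 9 ≤ j := h1
        linarith
      · rwa [Real.rpow_intCast] at h1)
    (m - 10) τ hτc hτ0
    (by
      intro x hx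
      have := (hτp x).1 hx
      push_cast
      linarith)
    cl
    (by
      intro x S hx hS
      have hinj : Set.InjOn Prod.fst (S : Set (Fin (k + 1) × Set X)) := by
        rintro ⟨i, κ⟩ hy ⟨i', κ'⟩ hy' hii
        simp only at hii
        subst hii
        obtain ⟨p, h1, h2, h3⟩ := hS _ hy
        obtain ⟨p', h1', h2', h3'⟩ := hS _ hy'
        obtain ⟨z, hz1, hz2, hz3⟩ := hcl1 p _ h2
        obtain ⟨z', hz1', hz2', hz3'⟩ := hcl1 p' _ h2'
        simp only at hz1 hz3 hz1' hz3'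
        have d1 := hdist p x h1 h3
        have d2 := hdist p' x h1' h3'
        have hzz : dist z z' ≤ 4 * r := by
          have t1 := dist_triangle_left z z' (x : X)
          have t2 := dist_triangle (x : X) (V.ps p) z
          have t3 := dist_triangle (x : X) (V.ps p') z'
          linarith
        have hch : ChZ (Z i) r z z' := Relation.ReflTransGen.single ⟨hz1, hz1', hzz⟩
        rw [hz3, hz3', hch.eq]
      have h1 := Finset.card_image_of_injOn hinj
      have h2 := Finset.card_le_univ (S.image Prod.fst)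
      rw [h1, Fintype.card_fin] at h2
      exact h2)
    (by
      intro x
      by_cases hx : (m : ℝ) - 12 < T x
      · right
        refine ⟨(hτp x).2 hx, ?_⟩
        obtain ⟨p, hp, hh⟩ := V.exists_hat (j := m - 10) (le_refl _) (x : X)
        obtain ⟨z, hz1, hz2⟩ := hnear x hx
        have d1 := hdist p x hp (by linarith)
        obtain ⟨y, hy⟩ := hcl2 p ⟨z, hz1, by
          have := dist_triangle_left (V.ps p) z (x : X)
          linarith⟩
        exact ⟨p, y, hp, hy, hh⟩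
      · left
        rw [not_lt] at hx
        have h1 : round (T x) ≤ m - 12 := by
          rw [round_eq]
          have h2 := Int.floor_lt.2 (by push_cast; linarith :
            T x + 1 / 2 < ((m - 11 : ℤ) : ℝ))
          omega
        constructor
        · show round (T x) + 1 ≤ m - 10
          omega
        · omega)
  refine ⟨_, lam, hB, fun v x y hvx hvy u hu => ?_⟩
  have hpos1 : 0 ≤ 4 * Cd ^ 3 * 24 ^ n * 3 ^ n * Lam := by positivity
  have hpos2 : 0 ≤ 256 * (D + 2) * (Cd ^ 3 * 3 ^ n * 6 ^ n * A ^ (1 / b)) := by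
    positivity
  rcases hl v x y hvx hvy with ⟨p, h1, h2, h3, h4⟩ | ⟨y₀, ⟨h1, p, p1, p2, p3⟩, h2, p', p1', p2', p3'⟩
  · rw [abs_lt] at h1 h2
    have h5 := h.ordinary hu x.2 y.2 (hok' _ (V.okv p)) h3 h4 ((hTp x _).2 (by linarith)).2
      ((hTp y _).2 (by linarith)).2
    linarith
  · have hx2 := (hτp x).1 h1
    have hy2 := (hτp y).1 h2
    obtain ⟨zx, hzx1, hzx2, hzx3⟩ := hcl1 p _ p2
    obtain ⟨zy, hzy1, hzy2, hzy3⟩ := hcl1 p' _ p2'
    have d1 := hdist p x p1 p3
    have d2 := hdist p' y p1' p3'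
    have hrc : ChZ (Z y₀.1) r zx zy := by
      have e3 : zy ∈ {z | ChZ (Z y₀.1) r zy z} := Relation.ReflTransGen.refl
      rw [← hzy3, hzx3] at e3
      exact e3
    have hd := hZ _ _ _ hrc
    have hxy' : dist (x : X) y ≤ (D + 1) * r := by
      have t1 := dist_triangle (x : X) zx y
      have t2 := dist_triangle zx zy (y : X)
      have t3 := dist_triangle (x : X) (V.ps p) zx
      have t4 := dist_triangle (y : X) (V.ps p') zy
      rw [dist_comm zy (y : X)] at t2
      linarith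
    have hN : dist (x : X) y ≤ (⌈256 * (D + 1)⌉₊ : ℝ) * (s / 128) := by
      have c1 : 256 * (D + 1) ≤ (⌈256 * (D + 1)⌉₊ : ℝ) := Nat.le_ceil _
      calc dist (x : X) y ≤ (D + 1) * r := hxy'
        _ ≤ (D + 1) * (2 * s) := by gcongr
        _ = 256 * (D + 1) * (s / 128) := by ring
        _ ≤ _ := by gcongr
    have hN2 : (⌈256 * (D + 1)⌉₊ : ℝ) ≤ 256 * (D + 2) := by
      have := Nat.ceil_lt_add_one (a := 256 * (D + 1)) (by positivity)
      linarith
    have hs64 : 0 < s / 128 := by positivity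
    have c1 := h.uav_chain hu hs64 (h.okm _ _ hoks (by linarith)) _ x y hN
    have c2 := h.uav_center hu x.2 hs64 (h.okm _ _ hoks (by linarith))
    have c3 := h.uav_center hu y.2 hs64 (h.okm _ _ hoks (by linarith))
    rw [show (6 : ℝ) * (s / 128) = 3 / 64 * s by ring] at c2 c3
    have p1 := hcap x hx2
    have p2 := hcap y hy2
    have c4 : |u x - u y| ≤ |u x - uav μ u x (s / 128)| + |uav μ u x (s / 128) - uav μ u y (s / 128)|
        + |uav μ u y (s / 128) - u y| := by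
      calc |u x - u y| = |(u x - uav μ u x (s / 128)) + (uav μ u x (s / 128) - uav μ u y (s / 128)) +
          (uav μ u y (s / 128) - u y)| := by congr 1; ring
        _ ≤ _ := abs_add_three _ _ _
    rw [abs_sub_comm (uav μ u y (s / 128))] at c4
    have c5 : Cd ^ 2 * 24 ^ n * pot μ ρ x (3 / 64 * s) ≤ Cd ^ 2 * 24 ^ n * Lam := by gcongr
    have c6 : Cd ^ 2 * 24 ^ n * pot μ ρ y (3 / 64 * s) ≤ Cd ^ 2 * 24 ^ n * Lam := by gcongr
    have c7 : 2 * (Cd ^ 2 * 24 ^ n * Lam) ≤ 4 * Cd ^ 3 * 24 ^ n * 3 ^ n * Lam := by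
      have q1 : (1 : ℝ) ≤ Cd * 3 ^ n :=
        one_le_mul_of_one_le_of_one_le h.cd (one_le_pow₀ (by norm_num))
      have q2 : 0 ≤ Cd ^ 2 * 24 ^ n * Lam := by positivity
      calc 2 * (Cd ^ 2 * 24 ^ n * Lam) ≤ 4 * (Cd ^ 2 * 24 ^ n * Lam) * 1 := by linarith
        _ ≤ 4 * (Cd ^ 2 * 24 ^ n * Lam) * (Cd * 3 ^ n) := by gcongr
        _ = _ := by ring
    have c8 : (⌈256 * (D + 1)⌉₊ : ℝ) * (Cd ^ 3 * 3 ^ n * 6 ^ n * A ^ (1 / b)) ≤
        256 * (D + 2) * (Cd ^ 3 * 3 ^ n * 6 ^ n * A ^ (1 / b)) := by gcongr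
    linarith

end Vale.Agent.P210.Cw.Om
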