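import Vale.Agent.P210.Cx.MfdP

/-!
# Open subsets, on every ball a Morrey bound of one of two functions
-/

open scoped Manifold ContDiff Topology Bundle ENNReal NNReal
open Set Metric Filter Bundle IsManifold MeasureTheory Manifold Asymptotics

set_option maxSynthPendingDepth 3
set_option linter.all false

noncomputable section

namespace Vale.Agent.P210.Cw.Om

open Vale.Agent.P210.R2 Vale.Agent.P210.R2.H53 Vale.Agent.P210.R2.H999 Vale.Agent.P210.R2.H973

/-- the energy constant -/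
def AQ (n : ℕ) (p L Cd : ℝ) : ℝ := AP n p L Cd + (max L 0 + 1) * Cd

theorem AQ_pos {n : ℕ} (hn : 3 ≤ n) {p : ℝ} (hp : 1 < p) (L : ℝ) {Cd : ℝ} (hCd : 1 ≤ Cd) :
    0 < AQ n p L Cd := by
  have h1 := AP_pos hn hp L hCd
  have h3 : 0 ≤ max L 0 := le_max_right _ _
  have h4 : 0 < Cd := zero_lt_one.trans_le hCd
  unfold AQ
  positivity

/-- the constant of the capped region -/
def LamQ (n : ℕ) (p L Cd : ℝ) : ℝ := LamC n (n - 2) (βN p + 2) (AQ n p L Cd) Cd (ηN n p)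

theorem pow_split {f q p l : ℝ} (hf : 0 ≤ f) (hl : 0 < l) (hq : 0 < q) (hqp : q ≤ p) :
    f ^ q ≤ l ^ (q - p) * f ^ p + l ^ q := by
  rcases le_total f l with h | h
  · have h1 : f ^ q ≤ l ^ q := Real.rpow_le_rpow hf h hq.le
    have h2 : 0 ≤ l ^ (q - p) * f ^ p :=
      mul_nonneg (Real.rpow_nonneg hl.le _) (Real.rpow_nonneg hf _)
    linarith
  · have hf0 : 0 < f := hl.trans_le h
    have h1 : f ^ q = f ^ (q - p) * f ^ p := by
      rw [← Real.rpow_add hf0]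
      congr 1
      ring
    have h2 : f ^ (q - p) ≤ l ^ (q - p) :=
      Real.rpow_le_rpow_of_nonpos hl h (by linarith)
    have h3 : 0 ≤ f ^ p := Real.rpow_nonneg hf _
    have h4 : 0 ≤ l ^ q := Real.rpow_nonneg hl.le _
    rw [h1]
    nlinarith

/-- energy bounds from bounds of a majorant -/
theorem en_major {X : Type} [MetricSpace X] [MeasurableSpace X] [BorelSpace X] {μ : Measure X}
    {Ω : Set X} (hΩ : IsOpen Ω) {ρ W : X → ℝ} (hρm : Measurable ρ) (hnn : ∀ x, 0 ≤ ρ x)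
    (hρz : ∀ x ∉ Ω, ρ x = 0) {b p L : ℝ} (hb : 0 < b) (hbp : b ≤ 2 * p)
    (hW : ∀ x ∈ Ω, ρ x ^ 2 ≤ W x) {x : X} {R : ℝ} (hR : 0 < R)
    (hfin : μ (ball x R) < ⊤)
    (hi : IntegrableOn (fun y => W y ^ p) (ball x R ∩ Ω) μ)
    (h : ∫ y in ball x R ∩ Ω, W y ^ p ∂μ ≤ L * R ^ (-(2 * p)) * μ.real (ball x R)) :
    IntegrableOn (fun y => ρ y ^ b) (ball x R) μ ∧
    ∫ y in ball x R, ρ y ^ b ∂μ ≤ (max L 0 + 1) * R ^ (-b) * μ.real (ball x R) := by
  have hp : 0 < p := by linarith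
  have hW0 : ∀ x ∈ Ω, 0 ≤ W x := fun x hx => (sq_nonneg _).trans (hW x hx)
  have hms : MeasurableSet (ball x R ∩ Ω) := measurableSet_ball.inter hΩ.measurableSet
  have hfin' : μ (ball x R ∩ Ω) < ⊤ := (measure_mono inter_subset_left).trans_lt hfin
  have hR2 : (0 : ℝ) < R ^ (-2 : ℝ) := Real.rpow_pos_of_pos hR _
  have hpt : ∀ y ∈ Ω, ρ y ^ b ≤ (R ^ (-2 : ℝ)) ^ (b / 2 - p) * W y ^ p + (R ^ (-2 : ℝ)) ^ (b / 2) := by
    intro y hy
    have h1 : ρ y ^ b ≤ W y ^ (b / 2) := by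
      have h2 : ρ y ^ b = (ρ y ^ 2) ^ (b / 2) := by
        rw [← Real.rpow_natCast, ← Real.rpow_mul (hnn y)]
        congr 1
        push_cast
        ring
      rw [h2]
      exact Real.rpow_le_rpow (sq_nonneg _) (hW y hy) (by linarith)
    exact h1.trans (pow_split (hW0 y hy) hR2 (by linarith) (by linarith))
  have hi2 : IntegrableOn (fun y => (R ^ (-2 : ℝ)) ^ (b / 2 - p) * W y ^ p +
      (R ^ (-2 : ℝ)) ^ (b / 2)) (ball x R ∩ Ω) μ :=
    (hi.const_mul _).add (integrableOn_const hfin'.ne)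
  have hi3 : IntegrableOn (fun y => ρ y ^ b) (ball x R ∩ Ω) μ := by
    refine Integrable.mono' hi2 (hρm.pow_const _).aestronglyMeasurable ?_
    rw [ae_restrict_iff' hms]
    refine Eventually.of_forall fun y hy => ?_
    rw [Real.norm_of_nonneg (Real.rpow_nonneg (hnn y) _)]
    exact hpt y hy.2
  have hz : ∀ y, y ∉ Ω → ρ y ^ b = 0 := fun y hy => by rw [hρz y hy, Real.zero_rpow hb.ne']
  have hi4 : IntegrableOn (fun y => ρ y ^ b) (ball x R) μ := by
    have h1 : IntegrableOn (fun y => ρ y ^ b) (ball x R \ Ω) μ := by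
      refine IntegrableOn.congr_fun (f := fun _ => (0 : ℝ)) integrableOn_zero (fun y hy => ?_)
        (measurableSet_ball.diff hΩ.measurableSet)
      exact (hz y hy.2).symm
    have h2 := hi3.union h1
    rwa [inter_union_diff] at h2
  refine ⟨hi4, ?_⟩
  have e1 : ∫ y in ball x R, ρ y ^ b ∂μ = ∫ y in ball x R ∩ Ω, ρ y ^ b ∂μ := by
    apply setIntegral_eq_of_subset_of_forall_diff_eq_zero measurableSet_ball inter_subset_left
    intro q hq
    exact hz q fun hh => hq.2 ⟨hq.1, hh⟩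
  have hm : 0 ≤ μ.real (ball x R) := measureReal_nonneg
  have hm2 : μ.real (ball x R ∩ Ω) ≤ μ.real (ball x R) :=
    measureReal_mono inter_subset_left hfin.ne
  have c1 : (R ^ (-2 : ℝ)) ^ (b / 2) = R ^ (-b) := by
    rw [← Real.rpow_mul hR.le]
    congr 1
    ring
  have c2 : (R ^ (-2 : ℝ)) ^ (b / 2 - p) * R ^ (-(2 * p)) = R ^ (-b) := by
    rw [← Real.rpow_mul hR.le, ← Real.rpow_add hR]
    congr 1
    ring
  rw [e1]
  calc ∫ y in ball x R ∩ Ω, ρ y ^ b ∂μ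
      ≤ ∫ y in ball x R ∩ Ω, ((R ^ (-2 : ℝ)) ^ (b / 2 - p) * W y ^ p +
        (R ^ (-2 : ℝ)) ^ (b / 2)) ∂μ := setIntegral_mono_on hi3 hi2 hms fun y hy => hpt y hy.2
    _ = (R ^ (-2 : ℝ)) ^ (b / 2 - p) * ∫ y in ball x R ∩ Ω, W y ^ p ∂μ +
        (R ^ (-2 : ℝ)) ^ (b / 2) * μ.real (ball x R ∩ Ω) := by
      rw [integral_add (hi.const_mul _) (integrableOn_const hfin'.ne), integral_const_mul,
        setIntegral_const, smul_eq_mul]
      ring
    _ ≤ (R ^ (-2 : ℝ)) ^ (b / 2 - p) * (max L 0 * R ^ (-(2 * p)) * μ.real (ball x R)) +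
        (R ^ (-2 : ℝ)) ^ (b / 2) * μ.real (ball x R) := by
      have h5 : L * R ^ (-(2 * p)) * μ.real (ball x R) ≤
          max L 0 * R ^ (-(2 * p)) * μ.real (ball x R) := by
        gcongr
        exact le_max_left _ _
      have h6 := h.trans h5
      gcongr
    _ = max L 0 * ((R ^ (-2 : ℝ)) ^ (b / 2 - p) * R ^ (-(2 * p))) * μ.real (ball x R) +
        (R ^ (-2 : ℝ)) ^ (b / 2) * μ.real (ball x R) := by ring
    _ = _ := by rw [c1, c2]; ring

section Base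

variable {E : Type} [NormedAddCommGroup E] [NormedSpace ℝ E] [FiniteDimensional ℝ E]
    [MeasurableSpace E] [BorelSpace E]
    {M : Type} [MetricSpace M] [ChartedSpace E M]
    [RiemannianBundle (fun x : M => TangentSpace 𝓘(ℝ, E) x)]
    [IsManifold 𝓘(ℝ, E) ∞ M]
    [IsContMDiffRiemannianBundle 𝓘(ℝ, E) ∞ E (fun x : M => TangentSpace 𝓘(ℝ, E) x)]
    [IsRiemannianManifold 𝓘(ℝ, E) M] [MeasurableSpace M] [BorelSpace M] [ProperSpace M]

/-- the metric measure space of an open subset with a conformal factor -/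
theorem dat_enQ {n : ℕ} (hn : 3 ≤ n) (hfin : Module.finrank ℝ E = n) {μ : Measure M}
    (hvol : IsVol E μ) {p : ℝ} (hp : 1 < p) {L : ℝ} {ok : ℝ → Prop}
    (hokm : ∀ r s, ok r → s ≤ r → ok s) (hok : ∃ r, 0 < r ∧ ok r)
    {Cd : ℝ} (hCd1 : 1 ≤ Cd) (hbs : Bs μ n Cd ok) {Ω : Set M} (hΩ : IsOpen Ω)
    {a S W ρ u : M → ℝ}
    (ha : ContMDiffOn 𝓘(ℝ, E) 𝓘(ℝ, ℝ) ∞ a Ω)
    (hS : ContinuousOn S Ω) (hS0 : ∀ p ∈ Ω, 0 ≤ S p)
    (hpt : ∀ K : Set M, IsCompact K → K ⊆ Ω → ∃ φ : M → ℝ,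
      ContMDiffOn 𝓘(ℝ, E) 𝓘(ℝ, ℝ) ∞ φ Ω ∧
      ∀ p ∈ K, TwS E n (fun x => Real.exp (2 * a x) / 2) a φ p ≤ S p)
    (hρ : ∀ p ∈ Ω, ρ p = Real.exp (a p)) (hρz : ∀ p ∉ Ω, ρ p = 0) (hu : Ex Ω ρ u)
    (hW : ∀ x ∈ Ω, ρ x ^ 2 ≤ W x)
    (hM : ∀ x r, 0 < r → ok r → (IntegrableOn (fun y => S y ^ p) (ball x (2 * r) ∩ Ω) μ ∧
      ∫ y in ball x (2 * r) ∩ Ω, S y ^ p ∂μ ≤
      L * (2 * r) ^ (-(2 * p)) * μ.real (ball x (2 * r))) ∨
      (IntegrableOn (fun y => W y ^ p) (ball x (2 * r) ∩ Ω) μ ∧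
      ∫ y in ball x (2 * r) ∩ Ω, W y ^ p ∂μ ≤
      L * (2 * r) ^ (-(2 * p)) * μ.real (ball x (2 * r)))) :
    Dat μ Ω ρ n (βN p + 2) (AQ n p L Cd) Cd ok := by
  have hfr : 1 ≤ Module.finrank ℝ E := by omega
  have hc : Cal E μ := cal_of H934.cala H34.calb H34.cald hfr hvol
  haveI := hc.isFinOn
  have hβ0 := βN_pos hp
  have hρc : ContinuousOn ρ Ω := by
    refine ContinuousOn.congr (f := fun p => Real.exp (a p)) ?_ hρ
    exact Real.continuous_exp.comp_continuousOn ha.continuousOn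
  have hρ0 : ∀ x ∈ Ω, 0 < ρ x := fun x hx => by rw [hρ x hx]; exact Real.exp_pos _
  have hnn : ∀ x, 0 ≤ ρ x := by
    intro x
    by_cases hx : x ∈ Ω
    · exact (hρ0 x hx).le
    · rw [hρz x hx]
  have hL0 : 0 ≤ max L 0 := le_max_right _ _
  have hC1 : 0 ≤ D1 (βN p) := D1_nonneg
  have hC2 := D2_pos (δ_pos hn hp)
  have hCd0 : 0 < Cd := zero_lt_one.trans_le hCd1
  have hen : ∀ (x : M) (r : ℝ), 0 < r → ok r →
      IntegrableOn (fun p_1 => ρ p_1 ^ (βN p + 2)) (ball x r) μ ∧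
      ∫ y in ball x r, ρ y ^ (βN p + 2) ∂μ ≤ AQ n p L Cd * r ^ (-(βN p + 2)) *
        μ.real (ball x r) := by
    intro x r hr hokr
    have hm : 0 ≤ μ.real (ball x (2 * r)) := measureReal_nonneg
    have hm' : 0 ≤ μ.real (ball x r) := measureReal_nonneg
    have h3 : (2 * r) ^ (-(βN p + 2)) ≤ r ^ (-(βN p + 2)) := by
      apply Real.rpow_le_rpow_of_nonpos hr (by linarith) (by linarith)
    have hbg := hbs.d2 x r hr hokr
    have hrp : 0 ≤ r ^ (-(βN p + 2)) := Real.rpow_nonneg hr.le _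
    rcases hM x r hr hokr with hMs | hMw
    · obtain ⟨h5, h6⟩ := en_ball H755.calc_holds hfr hc hβ0 ((βN_le p).trans (by norm_num))
        (δ_pos hn hp) hΩ ha hρ hρz (meas_of hΩ hρc hρz) (comp_of hc hΩ hu hρc hnn) x hr
        (Q₁ := (max L 0) ^ ((βN p + 2) / (2 * p)) * (2 * r) ^ (-(βN p + 2)) *
          μ.real (ball x (2 * r)))
        (by positivity)
        (by
          intro K hK hKΩ
          obtain ⟨φ, hφ, hφK⟩ := hpt K hK hKΩ
          obtain ⟨S', h1, h2, h3, h4⟩ := morreyO hc hΩ hS hS0 (b := βN p + 2) (by linarith)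
            (βN_le' p) (by positivity : (0 : ℝ) < 2 * r) hMs.1 hMs.2 hK hKΩ
          exact ⟨φ, S', hφ, h1, h2, fun q hq => by rw [h3 q hq]; exact hφK q hq, h4⟩)
      refine ⟨h5, h6.trans ?_⟩
      set m2 := μ.real (ball x (2 * r)) with hm2
      set m1 := μ.real (ball x r) with hm1
      calc D1 (βN p) * (max L 0 ^ ((βN p + 2) / (2 * p)) * (2 * r) ^ (-(βN p + 2)) * m2) +
            D2 n (βN p) * r ^ (-(βN p + 2)) * m2
          ≤ D1 (βN p) * (max L 0 ^ ((βN p + 2) / (2 * p)) * r ^ (-(βN p + 2)) * m2) +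
            D2 n (βN p) * r ^ (-(βN p + 2)) * m2 := by gcongr
        _ = (D1 (βN p) * max L 0 ^ ((βN p + 2) / (2 * p)) + D2 n (βN p)) * r ^ (-(βN p + 2)) *
            m2 := by ring
        _ ≤ (D1 (βN p) * max L 0 ^ ((βN p + 2) / (2 * p)) + D2 n (βN p)) * r ^ (-(βN p + 2)) *
            (Cd * m1) := by gcongr
        _ = AP n p L Cd * r ^ (-(βN p + 2)) * m1 := by unfold AP; ring
        _ ≤ AQ n p L Cd * r ^ (-(βN p + 2)) * m1 := by
          have h7 : AP n p L Cd ≤ AQ n p L Cd := by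
            unfold AQ
            have : 0 ≤ (max L 0 + 1) * Cd := by positivity
            linarith
          gcongr
    · obtain ⟨h5, h6⟩ := en_major hΩ (meas_of hΩ hρc hρz) hnn hρz (b := βN p + 2) (p := p)
        (by linarith) (βN_le' p) hW (by positivity : (0 : ℝ) < 2 * r)
        ((measure_mono ball_subset_closedBall).trans_lt (hc.fin _ (isCompact_closedBall x (2 * r))))
        hMw.1 hMw.2
      refine ⟨h5.mono_set (ball_subset_ball (by linarith)), ?_⟩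
      have h8 : ∫ y in ball x r, ρ y ^ (βN p + 2) ∂μ ≤
          ∫ y in ball x (2 * r), ρ y ^ (βN p + 2) ∂μ := by
        apply setIntegral_mono_set h5 (Eventually.of_forall fun y => Real.rpow_nonneg (hnn y) _)
        exact HasSubset.Subset.eventuallyLE (ball_subset_ball (by linarith))
      refine h8.trans (h6.trans ?_)
      set m2 := μ.real (ball x (2 * r)) with hm2
      set m1 := μ.real (ball x r) with hm1
      calc (max L 0 + 1) * (2 * r) ^ (-(βN p + 2)) * m2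
          ≤ (max L 0 + 1) * r ^ (-(βN p + 2)) * (Cd * m1) := by gcongr
        _ = (max L 0 + 1) * Cd * r ^ (-(βN p + 2)) * m1 := by ring
        _ ≤ AQ n p L Cd * r ^ (-(βN p + 2)) * m1 := by
          have h7 : (max L 0 + 1) * Cd ≤ AQ n p L Cd := by
            unfold AQ
            have := AP_pos hn hp L hCd1
            linarith
          gcongr
  apply dat_ofP (by omega) hfin hvol hokm hCd1 hbs hΩ hρc hρ0 hρz (by linarith)
    (AQ_pos hn hp L hCd1)
  · intro x R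
    obtain ⟨r, hr, hokr⟩ := hok
    obtain ⟨t, -, ht⟩ := (isCompact_closedBall x R).elim_nhds_subcover (fun y => ball y r)
      (fun y _ => ball_mem_nhds y hr)
    have h1 : IntegrableOn (fun y => ρ y ^ (βN p + 2)) (⋃ y ∈ t, ball y r) μ := by
      rw [integrableOn_finset_iUnion]
      exact fun y _ => (hen y r hr hokr).1
    exact h1.mono_set (ball_subset_closedBall.trans ht)
  · intro x r hr hok
    exact (hen x r hr hok).2

end Base

end Vale.Agent.P210.Cw.Om
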