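import Vale.Agent.P210.Cx.FinP
import Vale.Agent.P210.Cx.MfdQ

/-!
# Final assembly, open subsets, on every ball a bound of one of two functions
-/

open scoped Manifold ContDiff Topology Bundle ENNReal NNReal
open Set Metric Filter Bundle IsManifold MeasureTheory Manifold Asymptotics

set_option maxSynthPendingDepth 3
set_option linter.all false

noncomputable section

namespace Vale.Agent.P210.Cw.Om

open Vale.Agent.P210.R2 Vale.Agent.P210.R2.H53 Vale.Agent.P210.R2.H999 Vale.Agent.P210.R2.H973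

/-- the constant of the Morrey bounds of `S` and `(1 - t) w` -/
def LT (p L t : ℝ) : ℝ := max L 0 * max 1 ((1 - t) ^ p)

theorem le_LT (p L t : ℝ) : L ≤ LT p L t := by
  have h1 : L ≤ max L 0 := le_max_left _ _
  have h2 : 0 ≤ max L 0 := le_max_right _ _
  have h3 : 1 ≤ max 1 ((1 - t) ^ p) := le_max_left _ _
  unfold LT
  nlinarith

theorem le_LT' (p L : ℝ) {t : ℝ} (ht : t < 1) : (1 - t) ^ p * L ≤ LT p L t := by
  have h0 : 0 ≤ (1 - t) ^ p := Real.rpow_nonneg (by linarith) _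
  have h2 : 0 ≤ max L 0 := le_max_right _ _
  calc (1 - t) ^ p * L ≤ (1 - t) ^ p * max L 0 := by
        gcongr
        exact le_max_left _ _
    _ ≤ max 1 ((1 - t) ^ p) * max L 0 := by
        gcongr
        exact le_max_right _ _
    _ = LT p L t := by unfold LT; ring

/-- the constant -/
def CQ (n : ℕ) (p L Cd : ℝ) (D : ℝ) : ℝ :=
  4 * Cd ^ 3 * 24 ^ n * 3 ^ n * LamQ n p L Cd +
    256 * (max D 0 + 2) * (Cd ^ 3 * 3 ^ n * 6 ^ n * AQ n p L Cd ^ (1 / (βN p + 2)))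

/-- the critical value of the density -/
def ΛQ (n : ℕ) (p L Cd : ℝ) : ℝ := (128 / 3 * LamQ n p L Cd) ^ 2

theorem LamQ_pos {n : ℕ} (hn : 3 ≤ n) {p : ℝ} (hp : 1 < p) (L : ℝ) {Cd : ℝ} (hCd : 1 ≤ Cd) :
    0 < LamQ n p L Cd :=
  LamC_pos (by linarith [βN_pos hp]) (AQ_pos hn hp L hCd) hCd (ηN_pos hn hp)
      (ηN_b hn hp)

theorem ΛQ_pos {n : ℕ} (hn : 3 ≤ n) {p : ℝ} (hp : 1 < p) (L : ℝ) {Cd : ℝ} (hCd : 1 ≤ Cd) :
    0 < ΛQ n p L Cd := by
  have := LamQ_pos hn hp L hCd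
  unfold ΛQ
  positivity

section Tw

variable
    (E : Type) [NormedAddCommGroup E] [NormedSpace ℝ E] [FiniteDimensional ℝ E]
    [MeasurableSpace E] [BorelSpace E]
    (V : Type) [NormedAddCommGroup V] [NormedSpace ℝ V] [FiniteDimensional ℝ V]
    (N : Type) [MetricSpace N] [ChartedSpace E N]
    [RiemannianBundle (fun x : N => TangentSpace 𝓘(ℝ, E) x)] [IsManifold 𝓘(ℝ, E) ∞ N]
    [IsContMDiffRiemannianBundle 𝓘(ℝ, E) ∞ E (fun x : N => TangentSpace 𝓘(ℝ, E) x)]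
    [IsRiemannianManifold 𝓘(ℝ, E) N] [MeasurableSpace N] [BorelSpace N]
    (F : Type) [TopologicalSpace F] [ChartedSpace V F] [IsManifold 𝓘(ℝ, V) ∞ F]
    (M : Type) [MetricSpace M] [ChartedSpace (E × V) M]
    [RiemannianBundle (fun x : M => TangentSpace 𝓘(ℝ, E × V) x)]
    [IsManifold 𝓘(ℝ, E × V) ∞ M]
    [IsContMDiffRiemannianBundle 𝓘(ℝ, E × V) ∞ (E × V)
      (fun x : M => TangentSpace 𝓘(ℝ, E × V) x)]
    [IsRiemannianManifold 𝓘(ℝ, E × V) M]

/-- the metric measure space of the base -/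
theorem dat0Q [ProperSpace N] [ProperSpace M] {n : ℕ} (hn : 3 ≤ n) {p : ℝ} (hp : 1 < p) {L : ℝ}
    (μ : Measure N) {Ω : Set N} (hΩ : IsOpen Ω) (w S σ : N → ℝ) {t : ℝ} (ht : t < 1)
    (Φ : OpenPartialHomeomorph M (N × F)) (hΦ : PD E V Ω Φ)
    (hμ : IsVol E μ) (hw : ContMDiffOn 𝓘(ℝ, E) 𝓘(ℝ, ℝ) ∞ w Ω) (hw0 : ∀ x ∈ Ω, 0 < w x)
    (hT : IsTw (E := E) (V := V) w Φ) (hdE : Module.finrank ℝ E = n)
    {ok : ℝ → Prop} (hokm : ∀ r s, ok r → s ≤ r → ok s) (hok : ∃ r, 0 < r ∧ ok r)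
    {Cd : ℝ} (hCd1 : 1 ≤ Cd) (hbs : Bs μ n Cd ok)
    (hS : ContinuousOn S Ω) (hS0 : ∀ x ∈ Ω, 0 ≤ S x)
    (hSc : ScalLEOn E N Ω fun x => S x - w x * (σ x - t))
    (hMor : ∀ x r, 0 < r → ok r → ∃ f ∈ ({S, w} : Set (N → ℝ)),
      IntegrableOn (fun y => f y ^ p) (ball x (2 * r) ∩ Ω) μ ∧
      ∫ y in ball x (2 * r) ∩ Ω, f y ^ p ∂μ ≤
      L * (2 * r) ^ (-(2 * p)) * μ.real (ball x (2 * r)))
    (hScal : ScalGE (E × V) M 1)
    (hfib : ∀ K : Set N, IsCompact K → K ⊆ Ω →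
      ∃ (r : ℕ) (p : Fin r → ℝ) (Y : Fin r → Set F), (∀ j, 0 ≤ p j) ∧ ∑ j, p j = 1 ∧
      (∀ j, PropOn Ω (fun x y => fibM (E := E) Φ.symm x (chartAt V y)) (fun y => chartAt V y y)
        (Y j)) ∧
      ∀ x ∈ K, ∃ (y : Fin r → F) (s : Fin r → ℝ),
      (∀ j, y j ∈ Y j ∧ ((Module.finrank ℝ V ≤ 1 ∧ 0 ≤ s j) ∨
        ScalLEAt (fibM (E := E) Φ.symm x (chartAt V (y j))) (chartAt V (y j) (y j)) (s j))) ∧
      ∑ j, p j * s j ≤ σ x + (1 - t) / 2) [hM : Nonempty M] :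
    Dat μ Ω (rho Ω fun x => (1 - t) * w x) n (βN p + 2) (AQ n p (LT p L t) Cd) Cd ok := by
  classical
  obtain ⟨p₀⟩ := hM
  have h1 : 1 ≤ Module.finrank ℝ E := by omega
  have ht' : 0 < 1 - t := by linarith
  set a : N → ℝ := fun x => Real.log ((1 - t) * w x) / 2 with ha
  have hlog : ContMDiffOn 𝓘(ℝ, E) 𝓘(ℝ, ℝ) ∞ a Ω := by
    have h3 : ContMDiffOn 𝓘(ℝ, E) 𝓘(ℝ, ℝ) ∞ (fun x => (1 - t) * w x) Ω :=
      contMDiffOn_const.mul hw
    have h2 : ContMDiffOn 𝓘(ℝ, E) 𝓘(ℝ, ℝ) ∞ (fun x => Real.log ((1 - t) * w x)) Ω := fun x hx =>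
      ((Real.contDiffAt_log.2 (mul_pos ht' (hw0 x hx)).ne').contMDiffAt).comp_contMDiffWithinAt x
        (h3 x hx)
    exact h2.div_const 2
  have hwc : ContinuousOn w Ω := hw.continuousOn
  have hex : Ex Ω (rho Ω fun x => (1 - t) * w x)
      (fun z => √(1 - t) * dist (Φ.symm (z, (Φ p₀).2)) p₀) := by
    have h1 := (ex_slice hΩ hΦ hT hwc hw0 (fun x hx => rho_mem hx) (Φ p₀).2 p₀).smul
      (Real.sqrt_pos.2 ht')
    have h2 : (rho Ω fun x => (1 - t) * w x) = fun x => √(1 - t) * rho Ω w x :=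
      funext fun x => rho_smul ht'.le x
    rw [h2]
    exact h1
  refine dat_enQ (W := fun x => (1 - t) * w x) hn hdE hμ hp hokm hok hCd1 hbs hΩ hlog hS hS0
    (fun K hK hKΩ => ?_) ?_ (fun x hx => rho_notMem hx) hex (fun x hx => ?_)
    (fun x r hr hokr => ?_)
  · have h2 := tw_K hΦ hΩ hw hw0 hT h1 hScal ht hSc hKΩ (hfib K hK hKΩ)
    rw [hdE] at h2
    exact h2
  · intro x hx
    rw [rho_mem hx, ha]
    simp only
    rw [Real.sqrt_eq_rpow, Real.rpow_def_of_pos (mul_pos ht' (hw0 x hx))]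
    congr 1
    ring
  · rw [rho_mem hx, Real.sq_sqrt (mul_pos ht' (hw0 x hx)).le]
  · have hm : 0 ≤ μ.real (ball x (2 * r)) := measureReal_nonneg
    have hrp : (0 : ℝ) ≤ (2 * r) ^ (-(2 * p)) := Real.rpow_nonneg (by positivity) _
    obtain ⟨f, hf, h1, h2⟩ := hMor x r hr hokr
    rcases hf with rfl | rfl
    · refine Or.inl ⟨h1, h2.trans ?_⟩
      have := le_LT p L t
      gcongr
    · have e : ∀ y ∈ ball x (2 * r) ∩ Ω, ((1 - t) * f y) ^ p = (1 - t) ^ p * f y ^ p :=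
        fun y hy => Real.mul_rpow ht'.le (hw0 y hy.2).le
      have hms : MeasurableSet (ball x (2 * r) ∩ Ω) := measurableSet_ball.inter hΩ.measurableSet
      refine Or.inr ⟨IntegrableOn.congr_fun (f := fun y => (1 - t) ^ p * f y ^ p)
        (Integrable.const_mul h1 _) (fun y hy => (e y hy).symm) hms, ?_⟩
      rw [setIntegral_congr_fun hms e, integral_const_mul]
      have h0 : 0 ≤ (1 - t) ^ p := Real.rpow_nonneg ht'.le _
      calc (1 - t) ^ p * ∫ y in ball x (2 * r) ∩ Ω, f y ^ p ∂μ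
          ≤ (1 - t) ^ p * (L * (2 * r) ^ (-(2 * p)) * μ.real (ball x (2 * r))) := by gcongr
        _ = (1 - t) ^ p * L * (2 * r) ^ (-(2 * p)) * μ.real (ball x (2 * r)) := by ring
        _ ≤ _ := by
          have := le_LT' p L ht
          gcongr

/-- The width of twisted products over open subsets. -/
theorem finQ [CompleteSpace N] [CompleteSpace M] {n : ℕ} (hn : 3 ≤ n) {p : ℝ} (hp : 1 < p)
    {L t : ℝ} (ht : t < 1) (K Cd : ℝ) (hCd1 : 1 ≤ Cd) (hCd2 : CdN n ≤ Cd) (hCd3 : CPI n K ≤ Cd)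
    (D : ℝ) (μ : Measure N) {Ω : Set N} (hΩ : IsOpen Ω) (w S σ : N → ℝ)
    (Φ : OpenPartialHomeomorph M (N × F)) (hΦ : PD E V Ω Φ)
    (hμ : IsVol E μ) (hw : ContMDiffOn 𝓘(ℝ, E) 𝓘(ℝ, ℝ) ∞ w Ω) (hw0 : ∀ x ∈ Ω, 0 < w x)
    (hT : IsTw (E := E) (V := V) w Φ) (hdE : Module.finrank ℝ E = n) {k : ℕ}
    (hdV : Module.finrank ℝ V = k)
    (hS : ContinuousOn S Ω) (hS0 : ∀ x ∈ Ω, 0 ≤ S x)
    (hSc : ScalLEOn E N Ω fun x => S x - w x * (σ x - t))
    (hcase : ((RicGE E N 0 ∨ IsPI μ n K fun _ => True) ∧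
        ∀ x r, 0 < r → ∃ f ∈ ({S, w} : Set (N → ℝ)),
        IntegrableOn (fun y => f y ^ p) (ball x r ∩ Ω) μ ∧
        ∫ y in ball x r ∩ Ω, f y ^ p ∂μ ≤ L * r ^ (-(2 * p)) * μ.real (ball x r)) ∨
      ∃ r₀ : ℝ, 0 < r₀ ∧ (RicGE E N (-(1 / r₀ ^ 2)) ∨ IsPI μ n K fun r => r ≤ 4 * r₀) ∧
        (∀ x r, 0 < r → r ≤ 2 * r₀ → ∃ f ∈ ({S, w} : Set (N → ℝ)),
          IntegrableOn (fun y => f y ^ p) (ball x r ∩ Ω) μ ∧
          ∫ y in ball x r ∩ Ω, f y ^ p ∂μ ≤ L * r ^ (-(2 * p)) * μ.real (ball x r)) ∧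
        ∃ Z : Fin (n - 1) → Set N,
          (∀ x, (x ∈ Ω → r₀ ^ 2 * w x ≤ ΛQ n p (LT p L t) Cd / (1 - t)) → ∃ i, x ∈ Z i) ∧
          ∀ i x y, Relation.ReflTransGen (fun a c => a ∈ Z i ∧ c ∈ Z i ∧ dist a c ≤ 4 * r₀) x y →
            dist x y ≤ D * r₀)
    (hScal : ScalGE (E × V) M 1)
    (hfib : (k ≤ 1 ∧ ∀ x ∈ Ω, 0 ≤ σ x) ∨
      FibreScalLEOn Ω σ (fun x y => fibM (E := E) Φ.symm x (chartAt V y))
        (fun y => chartAt V y y) ∨
      MeanScalLEOn Ω σ (fun x y => fibM (E := E) Φ.symm x (chartAt V y))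
        (fun y => chartAt V y y)) :
    H53.UrysohnWidthLE M (n - 2 + k) (CQ n p (LT p L t) Cd D / √(1 - t) + 1) ∧
      ∀ y : F, H53.UrysohnWidthLE ↥((fun x => Φ.symm (x, y)) '' Ω) (n - 2)
        (CQ n p (LT p L t) Cd D / √(1 - t) + 1) := by
  classical
  rcases isEmpty_or_nonempty M with hM | hM
  · refine ⟨H912.urysohn_of_isEmpty _ _, fun y => ?_⟩
    haveI : IsEmpty ↥((fun x => Φ.symm (x, y)) '' Ω) := ⟨fun q => hM.false q.1⟩
    exact H912.urysohn_of_isEmpty _ _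
  haveI : ProperSpace N := properSpace_riemannian E N
  haveI : ProperSpace M := properSpace_riemannian (E × V) M
  have ht' : 0 < 1 - t := by linarith
  have hts : 0 < √(1 - t) := Real.sqrt_pos.2 ht'
  rw [← hdV]
  suffices H : ∃ (W : Type) (lam : W → Ω → ℝ), TP.Bary Ω W (n - 2) lam ∧
      ∀ v, ∀ x y : Ω, 0 < lam v x → 0 < lam v y → ∀ u, Adm (rho Ω fun x => (1 - t) * w x) u →
        |u x - u y| ≤ CQ n p (LT p L t) Cd D from
    ⟨lift E V N F M hΩ w Φ hΦ hw hw0 hT ht' H, leafw E V N F M hΩ w Φ hΦ hw hw0 hT ht' H⟩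
  set y : F := (Φ hM.some).2 with hyd
  have hG : Geo μ := geo_of (by omega) hμ
  have hfib' : ∀ K : Set N, IsCompact K → K ⊆ Ω →
      ∃ (r : ℕ) (p : Fin r → ℝ) (Y : Fin r → Set F), (∀ j, 0 ≤ p j) ∧ ∑ j, p j = 1 ∧
      (∀ j, PropOn Ω (fun x y => fibM (E := E) Φ.symm x (chartAt V y)) (fun y => chartAt V y y)
        (Y j)) ∧
      ∀ x ∈ K, ∃ (y : Fin r → F) (s : Fin r → ℝ),
      (∀ j, y j ∈ Y j ∧ ((Module.finrank ℝ V ≤ 1 ∧ 0 ≤ s j) ∨
        ScalLEAt (fibM (E := E) Φ.symm x (chartAt V (y j))) (chartAt V (y j) (y j)) (s j))) ∧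
      ∑ j, p j * s j ≤ σ x + (1 - t) / 2 := by
    intro K hK hKΩ
    rcases hfib with ⟨h, h'⟩ | ⟨r, q, Y, hq, hq1, hY, hs⟩ | ⟨ν, A, T, hν, hA, hA0, hT, hTk, hm⟩
    · refine ⟨1, fun _ => 1, fun _ => {y}, fun _ => zero_le_one, by simp, fun j => ?_,
        fun x hx => ⟨fun _ => y, fun _ => σ x, fun j => ⟨rfl, Or.inl ⟨by omega, h' x (hKΩ hx)⟩⟩,
          ?_⟩⟩
      · rintro _ rfl _ rfl x _ x' _
        exact mul_comm _ _
      · simp only [Finset.univ_unique, Finset.sum_singleton, one_mul]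
        linarith
    · refine ⟨r, q, Y, hq, hq1, hY, fun x hx => ?_⟩
      obtain ⟨y, s, h1, h2⟩ := hs x (hKΩ hx)
      exact ⟨y, s, fun j => ⟨(h1 j).1, Or.inr (h1 j).2⟩, by linarith⟩
    · let _ : MeasurableSpace F := borel F
      have _ : BorelSpace F := ⟨rfl⟩
      have hT' : Continuous fun z : Ω × F => T ((z.1 : N), z.2) :=
        hT.comp_continuous ((continuous_subtype_val.comp continuous_fst).prodMk continuous_snd)
          (fun z => ⟨z.1.2, mem_univ _⟩)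
      have hK' : IsCompact (Subtype.val ⁻¹' K : Set Ω) := by
        rw [Subtype.isCompact_iff, Subtype.image_preimage_coe, inter_eq_right.2 hKΩ]
        exact hK
      obtain ⟨r, q, y, hq, hq1, hy⟩ := mean_fin hA hA0 hT' hK' (half_pos ht')
      refine ⟨r, q, fun j => {y j}, hq, hq1, fun j => ?_, fun x hx => ⟨y, fun j => T (x, y j),
        fun j => ⟨rfl, Or.inr (hTk x (hKΩ hx) (y j))⟩, ?_⟩⟩
      · rintro _ rfl _ rfl x _ x' _
        exact mul_comm _ _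
      · have h1 := hy ⟨x, hKΩ hx⟩ hx
        have h2 := hm x (hKΩ hx)
        simp only at h1
        linarith
  have hA := (AQ_pos hn hp (LT p L t) hCd1).le
  have hCd : 0 < Cd := zero_lt_one.trans_le hCd1
  have hD0 : 0 ≤ max D 0 := le_max_right _ _
  have hLam0 : 0 < LamQ n p (LT p L t) Cd := LamQ_pos hn hp (LT p L t) hCd1
  have hwc : ContinuousOn w Ω := hw.continuousOn
  have hρc : ContinuousOn (rho Ω fun x => (1 - t) * w x) Ω :=
    (Real.continuous_sqrt.comp_continuousOn (continuousOn_const.mul hwc)).congr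
      fun x hx => rho_mem hx
  rcases hcase with ⟨hgeo, hMor⟩ | ⟨r₀, hr₀, hgeo, hMor, Z, hZc, hZ⟩
  · have hbs : Bs μ n Cd fun _ => True := by
      rcases hgeo with hRic | hPI
      · exact (bs_of (by omega) hdE hμ (fun r hr _ => hRic.mono (by
          rw [neg_nonpos]
          positivity))).mono hCd2
      · exact (bs_ofPI hG hPI (hPI.one_le hG (Φ hM.some).1 one_pos trivial)
          (fun _ _ _ _ => trivial) (fun _ _ _ => trivial)).mono hCd3
    have hdat := dat0Q E V N F M hn hp (L := L) μ hΩ w S σ ht Φ hΦ hμ hw hw0 hT hdE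
      (ok := fun _ => True)
      (fun _ _ _ _ => trivial) ⟨1, one_pos, trivial⟩ hCd1 hbs hS hS0 hSc
      (fun x r hr _ => hMor x (2 * r) (by positivity)) hScal hfib'
    obtain ⟨V₁, lam, hB, hd⟩ := hdat.widA (fun _ => trivial) (k := n - 2) (by omega)
      (ηN_pos hn hp) (ηN_lt hn hp) (ηN_b hn hp) (fun x => by
        have hex : Ex Ω (rho Ω fun x => (1 - t) * w x)
            (fun z => √(1 - t) * dist (Φ.symm (z, y)) hM.some) := by
          have h1 := (ex_slice hΩ hΦ hT hwc hw0 (fun x hx => rho_mem hx) y hM.some).smul hts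
          have h2 : (rho Ω fun x => (1 - t) * w x) = fun x => √(1 - t) * rho Ω w x :=
            funext fun x => rho_smul ht'.le x
          rw [h2]
          exact h1
        refine hdat.pot_inf (fun _ => trivial) x.2
          (u₀ := √(1 - t) * dist (Φ.symm ((x : N), y)) hM.some) (fun c => ?_) _
        have hc0 : 0 ≤ max c 0 := le_max_right _ _
        have hc1 : c ≤ max c 0 := le_max_left _ _
        refine ⟨_, hex.adm hΩ hρc rho_nonneg (max c 0 + 1), fun z => ?_, ?_, ?_⟩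
        · by_cases hz : z ∈ Ω
          · rw [ext_mem hz]
            exact le_min (by positivity) (by positivity)
          · rw [ext_notMem hz]
            positivity
        · rw [ext_mem x.2]
          exact min_le_left _ _
        · refine (hex.cpt c).isBounded.subset fun z hz => ?_
          simp only [mem_setOf_eq] at hz
          by_cases hzΩ : z ∈ Ω
          · rw [ext_mem hzΩ] at hz
            refine ⟨hzΩ, ?_⟩
            rcases min_le_iff.1 hz with h | h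
            · exact h
            · linarith
          · rw [ext_notMem hzΩ] at hz
            linarith)
    refine ⟨V₁, lam, hB, fun v x y hx hy u hu => (hd v x y hx hy u hu).trans ?_⟩
    unfold CQ
    change 4 * Cd ^ 3 * 24 ^ n * 3 ^ n * LamQ n p (LT p L t) Cd ≤ _
    have : 0 ≤ 256 * (max D 0 + 2) *
      (Cd ^ 3 * 3 ^ n * 6 ^ n * AQ n p (LT p L t) Cd ^ (1 / (βN p + 2))) := by positivity
    linarith
  · have hbs : Bs μ n Cd fun r => r ≤ r₀ := by
      rcases hgeo with hRic | hPI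
      · exact (bs_of (by omega) hdE hμ (fun r hr hr1 => hRic.mono (by
          rw [neg_le_neg_iff]
          gcongr))).mono hCd2
      · exact (bs_ofPI hG hPI (hPI.one_le hG (Φ hM.some).1 hr₀ (by linarith))
          (fun _ _ h1 h2 => h2.trans h1) (fun r hr hr1 => by
            have : r ≤ r₀ := hr1
            linarith)).mono hCd3
    have hdat := dat0Q E V N F M hn hp (L := L) μ hΩ w S σ ht Φ hΦ hμ hw hw0 hT hdE
      (ok := fun r => r ≤ r₀) (fun _ _ h1 h2 => h2.trans h1) ⟨r₀, hr₀, le_rfl⟩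
      hCd1 hbs hS hS0 hSc (fun x r hr hr1 => hMor x (2 * r) (by positivity) (by
          linarith [show r ≤ r₀ from hr1])) hScal hfib'
    have hn1 : n - 2 + 1 = n - 1 := by omega
    obtain ⟨V₁, lam, hB, hd⟩ := hdat.widM hr₀ (le_refl r₀) (k := n - 2) (by omega)
      (ηN_pos hn hp) (ηN_lt hn hp) (ηN_b hn hp) (D := max D 0) (fun i => Z (Fin.cast hn1 i))
      (by
        intro a ha
        obtain ⟨i, hi⟩ := hZc a (by
          intro haΩ
          rw [le_div_iff₀ ht']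
          have h0 : 0 ≤ rho Ω (fun x => (1 - t) * w x) a := rho_nonneg a
          have hwa := hw0 a haΩ
          have ha' : r₀ * rho Ω (fun x => (1 - t) * w x) a ≤ 128 / 3 * LamQ n p (LT p L t) Cd := ha
          calc r₀ ^ 2 * w a * (1 - t) = (r₀ * rho Ω (fun x => (1 - t) * w x) a) ^ 2 := by
                rw [mul_pow, rho_mem haΩ, Real.sq_sqrt (by positivity)]
                ring
            _ ≤ (128 / 3 * LamQ n p (LT p L t) Cd) ^ 2 := by gcongr)
        exact ⟨Fin.cast hn1.symm i, by simpa using hi⟩)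
      (by
        intro i x y hxy
        refine (hZ _ x y hxy).trans ?_
        gcongr
        exact le_max_left _ _) hD0
    refine ⟨V₁, lam, hB, fun v x y hx hy u hu => (hd v x y hx hy u hu).trans ?_⟩
    unfold CQ
    rfl

end Tw

end Vale.Agent.P210.Cw.Om
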