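import Vale.Agent.P210.Cx.Tel
import Vale.Agent.P210.Cw.Sel

/-!
# Generic shifts of the functions of nets
-/

open scoped ENNReal NNReal Topology
open MeasureTheory Set Metric Filter

set_option linter.all false

noncomputable section

namespace Vale.Agent.P210.Cw.Om

variable {X : Type} [MetricSpace X] {okl : ℤ → Prop}

section

variable [ProperSpace X] [MeasurableSpace X] [BorelSpace X]
variable {μ : Measure X} {Ω : Set X} {ρ : X → ℝ} {n : ℕ} {b A Cd : ℝ} {ok : ℝ → Prop}

theorem Dat.card_sep (h : Dat μ Ω ρ n b A Cd ok) {κ : Type} (s : Finset κ) (f : κ → X) (x : X)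
    {a ε : ℝ} (hε : 0 < ε) (ha : 0 ≤ a) (hok : ok (2 * a + ε))
    (hd : ∀ y ∈ s, dist (f y) x ≤ a) (hsep : ∀ y ∈ s, ∀ z ∈ s, y ≠ z → ε ≤ dist (f y) (f z)) :
    (s.card : ℝ) ≤ Cd * ((4 * a + 2 * ε) / ε) ^ n := by
  have hCd : 0 < Cd := zero_lt_one.trans_le h.cd
  set m := μ.real (ball x (a + ε / 2)) with hm
  have hm0 : 0 < m := h.real_pos x (by positivity)
  set Q := Cd * ((4 * a + 2 * ε) / ε) ^ n with hQ
  have hQ0 : 0 < Q := by positivity
  have h1 : ∀ y ∈ s, m ≤ Q * μ.real (ball (f y) (ε / 2)) := by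
    intro y hy
    have k1 := h.dbl (f y) (ε / 2) (2 * a + ε) (by positivity) (by linarith) hok
    rw [show (2 * a + ε) / (ε / 2) = (4 * a + 2 * ε) / ε by field_simp; ring] at k1
    refine le_trans ?_ k1
    exact measureReal_mono (ball_subset_ball' (by linarith [hd y hy, dist_comm x (f y)]))
      (h.ball_lt _ _).ne
  have h2 : ∑ y ∈ s, μ.real (ball (f y) (ε / 2)) ≤ m := by
    have h3 : μ.real (⋃ y ∈ s, ball (f y) (ε / 2)) = ∑ y ∈ s, μ.real (ball (f y) (ε / 2)) := by
      apply measureReal_biUnion_finset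
      · intro y hy z hz hne
        apply ball_disjoint_ball
        have := hsep y hy z hz hne
        linarith
      · intro y _
        exact measurableSet_ball
      · intro y _
        exact (h.ball_lt _ _).ne
    rw [← h3]
    apply measureReal_mono _ (h.ball_lt _ _).ne
    apply iUnion₂_subset
    intro y hy
    exact ball_subset_ball' (by linarith [hd y hy])
  have h4 : (s.card : ℝ) * m ≤ Q * m := by
    calc (s.card : ℝ) * m = ∑ _y ∈ s, m := by rw [Finset.sum_const, nsmul_eq_mul]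
      _ ≤ ∑ y ∈ s, Q * μ.real (ball (f y) (ε / 2)) := Finset.sum_le_sum h1
      _ = Q * ∑ y ∈ s, μ.real (ball (f y) (ε / 2)) := by rw [Finset.mul_sum]
      _ ≤ Q * m := by gcongr
  exact le_of_mul_le_mul_right h4 hm0

theorem Dat.nb_finite (h : Dat μ Ω ρ n b A Cd ok) (V : Vs X okl)
    (hokl : ∀ j, okl j → ok (1024 * (2 : ℝ) ^ j)) (p : V.ι) :
    (V.nb p).Finite ∧ (V.nb p).ncard ≤ nbB n Cd := by
  classical
  apply finite_of_card
  intro s hs
  set l := V.lv p with hl
  have h2l : (0 : ℝ) < (2 : ℝ) ^ l := by positivity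
  have hlev : ∀ i : ℤ, (l - 1 ≤ i) →
      (s.filter fun q => V.lv q = i).card ≤ ⌊Cd * (66 : ℝ) ^ n⌋₊ := by
    intro i hi
    apply Nat.le_floor
    have h3 : (2 : ℝ) ^ l / 2 ≤ (2 : ℝ) ^ i := by
      have : (2 : ℝ) ^ (l - 1) ≤ (2 : ℝ) ^ i := zpow_le_zpow_right₀ (by norm_num) hi
      rwa [zpow_sub₀ (by norm_num), zpow_one] at this
    have h4 := h.card_sep (s.filter fun q => V.lv q = i) V.ps (V.ps p) (a := 8 * (2 : ℝ) ^ l)
      (ε := (2 : ℝ) ^ l / 2) (by positivity) (by positivity)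
      (h.okm _ _ (hokl _ (V.okv p)) (by rw [← hl]; linarith))
      (fun q hq => (hs (Finset.mem_filter.1 hq).1).2.2)
      (fun q hq q' hq' hne => by
        have e1 := (Finset.mem_filter.1 hq).2
        have e2 := (Finset.mem_filter.1 hq').2
        have := V.sep q q' (e1.trans e2.symm) hne
        rw [e1] at this
        linarith)
    rwa [show (4 * (8 * (2 : ℝ) ^ l) + 2 * ((2 : ℝ) ^ l / 2)) / ((2 : ℝ) ^ l / 2) = 66 by
      field_simp; norm_num] at h4
  have hsub : s ⊆ (s.filter fun q => V.lv q = l - 1) ∪ (s.filter fun q => V.lv q = l) ∪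
      (s.filter fun q => V.lv q = l + 1) := by
    intro q hq
    obtain ⟨h5, h6, -⟩ := hs hq
    simp only [Finset.mem_union, Finset.mem_filter, hq, true_and]
    omega
  refine (Finset.card_le_card hsub).trans ((Finset.card_union_le _ _).trans ?_)
  have h7 := Finset.card_union_le (s.filter fun q => V.lv q = l - 1) (s.filter fun q => V.lv q = l)
  have h8 := hlev (l - 1) (by omega)
  have h9 := hlev l (by omega)
  have h10 := hlev (l + 1) (by omega)
  unfold nbB
  omega

theorem Dat.cf_count (h : Dat μ Ω ρ n b A Cd ok) (V : Vs X okl)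
    (hokl : ∀ j, okl j → ok (1024 * (2 : ℝ) ^ j)) (k : ℕ) (p : V.ι) :
    {κ : Cf V k | p ∈ κ.V}.Finite ∧
      {κ : Cf V k | p ∈ κ.V}.ncard ≤ 2 * (nbB n Cd ^ k * nbB n Cd ^ k) := by
  classical
  obtain ⟨hfin, hcard⟩ := h.nb_finite V hokl p
  set T : Finset V.ι := hfin.toFinset with hT
  have hTc : T.card ≤ nbB n Cd := by
    rw [hT, ← Set.ncard_eq_toFinset_card _ hfin]
    exact hcard
  let t : Finset (ℤ × ((Fin k → V.ι) × (Fin k → V.ι))) :=
    ({V.lv p, V.lv p + 1} : Finset ℤ) ×ˢ ((Fintype.piFinset (fun _ => T)) ×ˢ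
      (Fintype.piFinset (fun _ => T)))
  let f : Cf V k → ℤ × ((Fin k → V.ι) × (Fin k → V.ι)) := fun κ => (κ.j, κ.P, κ.B)
  have hmem : ∀ κ ∈ {κ : Cf V k | p ∈ κ.V}, f κ ∈ (t : Set _) := by
    intro κ hκ
    simp only [mem_ofPred_eq] at hκ
    rw [κ.mem_V] at hκ
    have hp := κ.lev p hκ
    simp only [f, t, Finset.coe_product, Set.mem_prod, Finset.mem_coe, Finset.mem_insert,
      Finset.mem_singleton, Fintype.mem_piFinset]
    have hV : ∀ q, (∃ i, q = κ.P i ∨ q = κ.B i) → q ∈ T := by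
      intro q hq
      rw [hT, Finite.mem_toFinset]
      have hq' := κ.lev q hq
      have hd := κ.near q p hq hκ
      have h2 : (2 : ℝ) ^ κ.j ≤ 2 * (2 : ℝ) ^ V.lv p := by
        have : (2 : ℝ) ^ κ.j ≤ (2 : ℝ) ^ (V.lv p + 1) :=
          zpow_le_zpow_right₀ (by norm_num) (by omega)
        rw [zpow_add₀ (by norm_num)] at this
        linarith
      exact ⟨by omega, by omega, by linarith⟩
    refine ⟨?_, ?_, ?_⟩
    · rcases hp with h | h <;> omega
    · exact fun i => hV _ ⟨i, Or.inl rfl⟩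
    · exact fun i => hV _ ⟨i, Or.inr rfl⟩
  have hinj : InjOn f {κ : Cf V k | p ∈ κ.V} := by
    intro κ _ κ' _ h
    cases κ; cases κ'
    simp only [f, Prod.mk.injEq] at h
    obtain ⟨h1, h2, h3⟩ := h
    subst h1; subst h2; subst h3
    rfl
  have hfin : (t : Set (ℤ × ((Fin k → V.ι) × (Fin k → V.ι)))).Finite := t.finite_toSet
  refine ⟨Set.Finite.of_injOn hmem hinj hfin, ?_⟩
  refine (Set.ncard_le_ncard_of_injOn f hmem hinj hfin).trans ?_
  rw [Set.ncard_coe_finset]
  simp only [t, Finset.card_product, Fintype.card_piFinset, Finset.prod_const, Finset.card_univ,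
    Fintype.card_fin]
  have h2 : ({V.lv p, V.lv p + 1} : Finset ℤ).card ≤ 2 := Finset.card_le_two
  gcongr

end

end Vale.Agent.P210.Cw.Om
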