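import Vale.Agent.P210.Cx.TwFin
import Vale.Agent.P210.Cx.FinQ
import Vale.Agent.P210.Cx.Clo
import Vale.Agent.P210.Cx.DefsQ

/-!
# The general theorem and closed manifolds
-/

open scoped Manifold ContDiff Topology
open Bundle IsManifold MeasureTheory Metric

set_option maxSynthPendingDepth 3

namespace Vale.Agent.P210.Cw.Om

open Vale.Agent.P210.R2 Vale.Agent.P210.R2.H53

theorem general : ∀ n : ℕ, 3 ≤ n → ∀ p : ℝ, 1 < p → ∀ L K θ : ℝ, θ < 1 → ∃ Λ > 0, ∀ D : ℝ,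
    ∃ C : ℝ, ∀ k : ℕ,
    ∀ (E : Type) [NormedAddCommGroup E] [NormedSpace ℝ E] [FiniteDimensional ℝ E]
      [MeasurableSpace E] [BorelSpace E]
      (N : Type) [MetricSpace N] [ChartedSpace E N]
      [RiemannianBundle (fun x : N => TangentSpace 𝓘(ℝ, E) x)] [IsManifold 𝓘(ℝ, E) ∞ N]
      [MeasurableSpace N] [BorelSpace N] (μ : Measure N) (Ω : Set N) (w S σ : N → ℝ),
      IsRiem E N → CompleteSpace N → IsVol E μ → Module.finrank ℝ E = n → IsOpen Ω →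
      ContMDiffOn 𝓘(ℝ, E) 𝓘(ℝ, ℝ) ∞ w Ω → (∀ x ∈ Ω, 0 < w x) →
      ContinuousOn S Ω → (∀ x ∈ Ω, 0 ≤ S x) →
      ScalLEOn E N Ω (fun x => S x - w x * (σ x - θ)) →
      (((RicGE E N 0 ∨ IsPI μ n K fun _ => True) ∧
          ∀ x r, 0 < r → ∃ f ∈ ({S, w} : Set (N → ℝ)),
            IntegrableOn (fun y => f y ^ p) (ball x r ∩ Ω) μ ∧
            ∫ y in ball x r ∩ Ω, f y ^ p ∂μ ≤ L * r ^ (-(2 * p)) * μ.real (ball x r)) ∨
        ∃ r₀ : ℝ, 0 < r₀ ∧ (RicGE E N (-(1 / r₀ ^ 2)) ∨ IsPI μ n K fun r => r ≤ 4 * r₀) ∧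
          (∀ x r, 0 < r → r ≤ 2 * r₀ → ∃ f ∈ ({S, w} : Set (N → ℝ)),
            IntegrableOn (fun y => f y ^ p) (ball x r ∩ Ω) μ ∧
            ∫ y in ball x r ∩ Ω, f y ^ p ∂μ ≤ L * r ^ (-(2 * p)) * μ.real (ball x r)) ∧
          ∃ Z : Fin (n - 1) → Set N,
            (∀ x, (x ∈ Ω → r₀ ^ 2 * w x ≤ Λ) → ∃ i, x ∈ Z i) ∧
            ∀ i x y, Relation.ReflTransGen
              (fun a c => a ∈ Z i ∧ c ∈ Z i ∧ dist a c ≤ 4 * r₀) x y → dist x y ≤ D * r₀) →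
      ProductWidthLE E N k Ω w σ C := by
  intro n hn p hp L K θ hθ
  set Cd : ℝ := max (Vale.Agent.P210.Cw.CdN n) (CPI n K) with hCd
  have hCd1 : 1 ≤ Cd := (Vale.Agent.P210.Cw.one_le_CdN n).trans (le_max_left _ _)
  refine ⟨ΛQ n p (LT p L θ) Cd / (1 - θ), div_pos (ΛQ_pos hn hp _ hCd1) (by linarith),
    fun D => ⟨CQ n p (LT p L θ) Cd D / √(1 - θ) + 1, ?_⟩⟩
  intro k E _ _ _ _ _ N _ _ _ _ _ _ μ Ω w S σ hN hcN hμ hE hΩ hw hw0 hS hS0 hSc hcase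
    V _ _ _ F _ _ _ M _ _ _ _ Ψ hΨ hM hcM hV hT hScal hF
  obtain ⟨Φ, h1, h2, h3, h4, rfl⟩ := hΨ
  obtain ⟨_, _⟩ := hN
  obtain ⟨_, _⟩ := hM
  have := hcN
  have := hcM
  have hPD : PD E V Ω Φ.symm := ⟨h2, h1, h4, h3⟩
  have h := finQ E V N F M hn hp (L := L) hθ K Cd hCd1 (le_max_left _ _) (le_max_right _ _) D μ hΩ
    w S σ Φ.symm hPD hμ hw hw0 (isTw_of hΩ hPD hT) hE hV hS hS0 hSc hcase hScal hF
  rw [hE]
  refine ⟨?_, h.2⟩
  have h5 := h.1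
  rwa [show n + k - 2 = n - 2 + k by omega]

theorem closed : ∀ n : ℕ, 3 ≤ n → ∀ θ : ℝ, θ < 1 →
    ∀ (E : Type) [NormedAddCommGroup E] [NormedSpace ℝ E] [FiniteDimensional ℝ E]
      (N : Type) [MetricSpace N] [ChartedSpace E N]
      [RiemannianBundle (fun x : N => TangentSpace 𝓘(ℝ, E) x)] [IsManifold 𝓘(ℝ, E) ∞ N],
      IsRiem E N → CompactSpace N → Module.finrank ℝ E = n → ∃ C : ℝ,
      ∀ (k : ℕ) (Ω : Set N) (w : N → ℝ), IsOpen Ω → ContMDiffOn 𝓘(ℝ, E) 𝓘(ℝ, ℝ) ∞ w Ω →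
      (∀ x ∈ Ω, 0 < w x) → ProductWidthLE E N k Ω w (fun _ => θ) C := by
  intro n hn θ hθ E _ _ _ N _ _ _ _ hN hcN hE
  obtain ⟨_, _⟩ := hN
  have := hcN
  let _ : MeasurableSpace E := borel E
  have : BorelSpace E := ⟨rfl⟩
  let _ : MeasurableSpace N := borel N
  have : BorelSpace N := ⟨rfl⟩
  obtain ⟨κ, hκ, hRic, hSc⟩ := ricGE_clo E N
  have : ProperSpace N := properSpace_riemannian E N
  obtain ⟨μ, hμ⟩ := H999.vol E N (by omega : 1 ≤ Module.finrank ℝ E)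
  set r₀ : ℝ := 1 / √(κ + 1) with hr₀
  have hk1 : 0 < √(κ + 1) := Real.sqrt_pos.2 (by linarith)
  have hr0 : 0 < r₀ := by positivity
  have hr2 : 1 / r₀ ^ 2 = κ + 1 := by
    rw [hr₀, div_pow, one_pow, one_div_one_div, Real.sq_sqrt (by linarith)]
  set s₀ : ℝ := Module.finrank ℝ E * κ with hs₀
  have hs0 : 0 ≤ s₀ := by positivity
  obtain ⟨Λ, -, hΛ⟩ := general n hn 2 one_lt_two (s₀ ^ (2 : ℝ) * (2 * r₀) ^ (2 * 2 : ℝ)) 0 θ hθ
  obtain ⟨C, hC⟩ := hΛ (diam (Set.univ : Set N) / r₀)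
  refine ⟨C, ?_⟩
  intro k Ω w hΩ hw hw0
  have hfin : ∀ x r, μ (ball x r) < ⊤ := fun x r => by
    have h1 : 1 ≤ Module.finrank ℝ E := by omega
    have hc : H53.Cal E μ := H53.cal_of H934.cala H34.calb H34.cald h1 hμ
    exact (measure_mono ball_subset_closedBall).trans_lt (hc.fin _ (isCompact_closedBall x _))
  refine hC k E N μ Ω w (fun _ => s₀) (fun _ => θ) ⟨inferInstance, inferInstance⟩
    inferInstance hμ hE hΩ hw hw0 continuousOn_const (fun _ _ => hs0) ?_ (Or.inr ⟨r₀, hr0, Or.inl ?_, fun x r hr hr1 =>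
      ⟨_, Or.inl rfl, ?_, ?_⟩, fun _ => Set.univ, ?_, ?_⟩)
  · simpa using hSc Ω
  · refine hRic.mono ?_
    rw [hr2]
    linarith
  · exact integrableOn_const ((measure_mono Set.inter_subset_left).trans_lt (hfin x r)).ne
  · rw [setIntegral_const, smul_eq_mul, mul_comm]
    have h1 : μ.real (ball x r ∩ Ω) ≤ μ.real (ball x r) :=
      measureReal_mono Set.inter_subset_left (hfin x r).ne
    have h2 : 0 ≤ μ.real (ball x r) := measureReal_nonneg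
    have h3 : 1 ≤ (2 * r₀) ^ (2 * 2 : ℝ) * r ^ (-(2 * 2) : ℝ) := by
      rw [Real.rpow_neg hr.le, ← div_eq_mul_inv, ← Real.div_rpow (by positivity) hr.le]
      refine Real.one_le_rpow ?_ (by norm_num)
      rw [one_le_div hr]
      exact hr1
    have h4 : 0 ≤ s₀ ^ (2 : ℝ) := Real.rpow_nonneg hs0 _
    calc s₀ ^ (2 : ℝ) * μ.real (ball x r ∩ Ω) ≤ s₀ ^ (2 : ℝ) * μ.real (ball x r) := by gcongr
      _ = s₀ ^ (2 : ℝ) * 1 * μ.real (ball x r) := by ring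
      _ ≤ s₀ ^ (2 : ℝ) * ((2 * r₀) ^ (2 * 2 : ℝ) * r ^ (-(2 * 2) : ℝ)) * μ.real (ball x r) := by
        gcongr
      _ = _ := by ring
  · exact fun _ _ => ⟨⟨0, by omega⟩, Set.mem_univ _⟩
  · intro i x y _
    rw [div_mul_cancel₀ _ hr0.ne']
    exact dist_le_diam_of_mem isCompact_univ.isBounded (Set.mem_univ _) (Set.mem_univ _)

end Vale.Agent.P210.Cw.Om
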