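import Vale.Agent.P210.Cx.Slc

/-!
# The projection of a twisted product to its base is 1-Lipschitz
-/

open scoped Manifold ContDiff Topology Bundle ENNReal NNReal
open Set Metric Filter Bundle IsManifold MeasureTheory Manifold Asymptotics

set_option maxSynthPendingDepth 3
set_option linter.all false

noncomputable section

namespace Vale.Agent.P210.Cw.Om

open Vale.Agent.P210.R2 Vale.Agent.P210.R2.H53 Vale.Agent.P210.R2.H265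

section ge

variable {E : Type} [NormedAddCommGroup E] [NormedSpace ℝ E]
  {V : Type} [NormedAddCommGroup V] [NormedSpace ℝ V]
  {N : Type} [MetricSpace N] [ChartedSpace E N]
  [RiemannianBundle (fun x : N => TangentSpace 𝓘(ℝ, E) x)]
  {F : Type} [TopologicalSpace F] [ChartedSpace V F]
  {M : Type} [MetricSpace M] [ChartedSpace (E × V) M]
  [RiemannianBundle (fun x : M => TangentSpace 𝓘(ℝ, E × V) x)]

/-- the norm of a vector is at least the norm of its base component -/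
theorem tw_ge [IsManifold 𝓘(ℝ, E) ∞ N] [IsManifold 𝓘(ℝ, V) ∞ F]
    [IsManifold 𝓘(ℝ, E × V) ∞ M] {w : N → ℝ} {Ω : Set N} (hΩ : IsOpen Ω)
    {Φ : OpenPartialHomeomorph M (N × F)} (hΦ : PD E V Ω Φ)
    (h : IsTw (E := E) (V := V) w Φ) (hw0 : ∀ x ∈ Ω, 0 < w x) (p : M)
    (v : TangentSpace 𝓘(ℝ, E × V) p) (x : N) (hx : (Φ p).1 = x) (u : TangentSpace 𝓘(ℝ, E) x)
    (hu : (mfderiv 𝓘(ℝ, E × V) 𝓘(ℝ, E) (fun q => (Φ q).1) p v : E) = u) :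
    w x * ‖u‖ ^ 2 ≤ ‖v‖ ^ 2 := by
  obtain ⟨x', hx', y, rfl⟩ : ∃ x' ∈ Ω, ∃ y : F, p = Φ.symm (x', y) :=
    ⟨(Φ p).1, hΦ.mem p, (Φ p).2, (hΦ.left p).symm⟩
  obtain rfl : x' = x := by rw [← hx, hΦ.right hx']
  set s : N → M := fun z => Φ.symm (z, y) with hs
  have hsm : MDifferentiableAt 𝓘(ℝ, E) 𝓘(ℝ, E × V) s x' := by
    have h2 : ContMDiff 𝓘(ℝ, E) (𝓘(ℝ, E).prod 𝓘(ℝ, V)) ∞ fun z : N => (z, y) :=
      contMDiff_id.prodMk contMDiff_const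
    have h3 : ContMDiffAt (𝓘(ℝ, E).prod 𝓘(ℝ, V)) 𝓘(ℝ, E × V) ∞ Φ.symm (x', y) :=
      hΦ.sms.contMDiffAt ((hΩ.prod isOpen_univ).mem_nhds ⟨hx', mem_univ _⟩)
    exact (ContMDiffAt.comp (g := Φ.symm) (f := fun z => (z, y)) x' h3 (h2 x')).mdifferentiableAt
      (by simp)
  have hΦ1 : MDifferentiableAt 𝓘(ℝ, E × V) 𝓘(ℝ, E) (fun q => (Φ q).1) (s x') :=
    ((hΦ.sm.fst) _).mdifferentiableAt (by simp)
  have hΦ2 : MDifferentiableAt 𝓘(ℝ, E × V) 𝓘(ℝ, V) (fun q => (Φ q).2) (s x') :=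
    ((hΦ.sm.snd) _).mdifferentiableAt (by simp)
  have hnear : ∀ᶠ z in 𝓝 x', z ∈ Ω := hΩ.mem_nhds hx'
  set v1 : TangentSpace 𝓘(ℝ, E × V) (s x') := mfderiv 𝓘(ℝ, E) 𝓘(ℝ, E × V) s x' u with hv1
  have e1 : mfderiv 𝓘(ℝ, E × V) 𝓘(ℝ, V) (fun q => (Φ q).2) (s x') v1 = 0 := by
    have k := mfderiv_comp x' hΦ2 hsm
    have k2 : ((fun q => (Φ q).2) ∘ s) =ᶠ[𝓝 x'] fun _ => y := by
      filter_upwards [hnear] with z hz
      simp only [Function.comp, hs]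
      rw [hΦ.right hz]
    have k3 : mfderiv 𝓘(ℝ, E) 𝓘(ℝ, V) ((fun q => (Φ q).2) ∘ s) x' = 0 :=
      (k2.mfderiv_eq (I := 𝓘(ℝ, E)) (I' := 𝓘(ℝ, V))).trans mfderiv_const
    rw [k3] at k
    have := congrArg (fun T => T (u : E)) k
    exact this.symm
  have e2 : (mfderiv 𝓘(ℝ, E × V) 𝓘(ℝ, E) (fun q => (Φ q).1) (s x') v1 : E) = u := by
    have k := mfderiv_comp x' hΦ1 hsm
    have k2 : ((fun q => (Φ q).1) ∘ s) =ᶠ[𝓝 x'] id := by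
      filter_upwards [hnear] with z hz
      simp only [Function.comp, hs, id]
      rw [hΦ.right hz]
    have k4 := congrArg (fun T => T (u : E)) k
    have k3 : (mfderiv 𝓘(ℝ, E) 𝓘(ℝ, E) ((fun q => (Φ q).1) ∘ s) x' (u : E) : E) =
        (mfderiv 𝓘(ℝ, E) 𝓘(ℝ, E) (id : N → N) x' (u : E) : E) :=
      congrArg (fun T => T (u : E)) (k2.mfderiv_eq (I := 𝓘(ℝ, E)) (I' := 𝓘(ℝ, E)))
    have k5 : (mfderiv 𝓘(ℝ, E) 𝓘(ℝ, E) (id : N → N) x' (u : E) : E) = u := by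
      rw [mfderiv_id]
      rfl
    exact (k4.symm.trans k3).trans k5
  have hn := tw_norm h hx v1 u e1 e2
  have hi : inner ℝ v1 v = w x' * ‖u‖ ^ 2 := by
    have h3 := h _ v1 v e1
    have key : ∀ z : N, z = x' → ∀ a a' : E, a = u → a' = u →
        innerAt (E := E) z a a' = ‖u‖ ^ 2 := by
      rintro z rfl a a' rfl rfl
      exact real_inner_self_eq_norm_sq _
    have h5 := key _ hx _ _ e2 hu
    have h6 : w (Φ (s x')).1 = w x' := by rw [hx]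
    rw [h3]
    rw [← h6]
    exact congrArg _ h5
  have hw : 0 < w x' := hw0 x' hx'
  have hcs := real_inner_le_norm v1 v
  rw [hi] at hcs
  have h7 : (w x' * ‖u‖ ^ 2) ^ 2 ≤ (w x' * ‖u‖ ^ 2) * ‖v‖ ^ 2 := by
    have h8 : (w x' * ‖u‖ ^ 2) ^ 2 ≤ (‖v1‖ * ‖v‖) ^ 2 :=
      pow_le_pow_left₀ (by positivity) hcs 2
    rw [mul_pow ‖v1‖, hn] at h8
    exact h8
  by_cases h0 : w x' * ‖u‖ ^ 2 = 0
  · rw [h0]; positivity
  · have h9 : 0 < w x' * ‖u‖ ^ 2 := lt_of_le_of_ne (by positivity) (Ne.symm h0)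
    rw [sq] at h7
    exact le_of_mul_le_mul_left h7 h9

end ge

variable {E : Type} [NormedAddCommGroup E] [NormedSpace ℝ E]
  {V : Type} [NormedAddCommGroup V] [NormedSpace ℝ V]
  {N : Type} [MetricSpace N] [ChartedSpace E N]
  [RiemannianBundle (fun x : N => TangentSpace 𝓘(ℝ, E) x)]
  {F : Type} [TopologicalSpace F] [ChartedSpace V F]
  {M : Type} [MetricSpace M] [ChartedSpace (E × V) M]
  [RiemannianBundle (fun x : M => TangentSpace 𝓘(ℝ, E × V) x)]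
  {V₀ : Type} [NormedAddCommGroup V₀] [NormedSpace ℝ V₀]
  {F₀ : Type} [TopologicalSpace F₀] [ChartedSpace V₀ F₀]
  {M₀ : Type} [MetricSpace M₀] [ChartedSpace (E × V₀) M₀]
  [RiemannianBundle (fun x : M₀ => TangentSpace 𝓘(ℝ, E × V₀) x)]

/-- the projection to the base is 1-Lipschitz -/
theorem proj_lip [IsManifold 𝓘(ℝ, E) ∞ N] [IsManifold 𝓘(ℝ, V) ∞ F]
    [IsManifold 𝓘(ℝ, E × V) ∞ M] [IsRiemannianManifold 𝓘(ℝ, E × V) M]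
    [IsManifold 𝓘(ℝ, V₀) ∞ F₀] [IsManifold 𝓘(ℝ, E × V₀) ∞ M₀]
    [IsRiemannianManifold 𝓘(ℝ, E × V₀) M₀]
    {w : N → ℝ} {Ω : Set N} (hΩ : IsOpen Ω) (hw0 : ∀ x ∈ Ω, 0 < w x)
    {Φ : OpenPartialHomeomorph M (N × F)} (hΦ : PD E V Ω Φ)
    (h : IsTw (E := E) (V := V) w Φ)
    {Φ₀ : OpenPartialHomeomorph M₀ (N × F₀)} (hΦ₀ : PD E V₀ Ω Φ₀)
    (h₀ : IsTw (E := E) (V := V₀) w Φ₀) (y₀ : F₀) (q q' : M) :
    dist (Φ₀.symm ((Φ q).1, y₀)) (Φ₀.symm ((Φ q').1, y₀)) ≤ dist q q' := by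
  have hkey : ∀ c : ℝ≥0∞, edist q q' < c →
      edist (Φ₀.symm ((Φ q).1, y₀)) (Φ₀.symm ((Φ q').1, y₀)) ≤ c := by
    intro c hc
    rw [IsRiemannianManifold.out (I := 𝓘(ℝ, E × V)) q q'] at hc
    obtain ⟨γ, h0, h1, hγ, hlen, -, -⟩ :=
      exists_lt_locally_constant_of_riemannianEDist_lt hc zero_lt_one
    set β : ℝ → N := fun t => (Φ (γ t)).1 with hβ
    have hβm : ∀ t, β t ∈ Ω := fun t => hΦ.mem _
    have hβs : ContMDiff 𝓘(ℝ, ℝ) 𝓘(ℝ, E) 1 β :=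
      ((hΦ.sm.fst).of_le (by simp)).comp hγ
    set γ' : ℝ → M₀ := fun t => Φ₀.symm (β t, y₀) with hγ'
    have hs : ∀ t : ℝ, ContMDiffAt 𝓘(ℝ, ℝ) 𝓘(ℝ, E × V₀) 1 γ' t := by
      intro t
      have h2 : ContMDiff 𝓘(ℝ, ℝ) (𝓘(ℝ, E).prod 𝓘(ℝ, V₀)) 1 fun t => (β t, y₀) :=
        hβs.prodMk contMDiff_const
      have h3 : ContMDiffAt (𝓘(ℝ, E).prod 𝓘(ℝ, V₀)) 𝓘(ℝ, E × V₀) 1 Φ₀.symm (β t, y₀) :=
        ((hΦ₀.sms.contMDiffAt ((hΩ.prod isOpen_univ).mem_nhds ⟨hβm t, mem_univ _⟩))).of_le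
          (by simp)
      exact ContMDiffAt.comp (g := Φ₀.symm) (f := fun t => (β t, y₀)) t h3 (h2 t)
    have hle : riemannianEDist 𝓘(ℝ, E × V₀) (Φ₀.symm ((Φ q).1, y₀)) (Φ₀.symm ((Φ q').1, y₀)) ≤
        pathELength 𝓘(ℝ, E × V₀) γ' 0 1 :=
      riemannianEDist_le_pathELength (fun t ht => (hs t).contMDiffWithinAt)
        (by rw [hγ']; simp only [hβ, h0])
        (by rw [hγ']; simp only [hβ, h1]) zero_le_one
    have hlen' : pathELength 𝓘(ℝ, E × V₀) γ' 0 1 ≤ pathELength 𝓘(ℝ, E × V) γ 0 1 := by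
      rw [pathELength_eq_lintegral_mfderiv_Icc, pathELength_eq_lintegral_mfderiv_Icc]
      refine setLIntegral_mono' measurableSet_Icc fun t ht => ?_
      have hp : (Φ₀ (γ' t)).1 = β t := by rw [hγ']; simp only; rw [hΦ₀.right (hβm t)]
      have hsd : MDifferentiableAt 𝓘(ℝ, ℝ) 𝓘(ℝ, E × V₀) γ' t :=
        (hs t).mdifferentiableAt one_ne_zero
      have hΦ1 : MDifferentiableAt 𝓘(ℝ, E × V₀) 𝓘(ℝ, E) (fun q => (Φ₀ q).1) (γ' t) :=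
        ((hΦ₀.sm.fst) _).mdifferentiableAt (by simp)
      have hΦ2 : MDifferentiableAt 𝓘(ℝ, E × V₀) 𝓘(ℝ, V₀) (fun q => (Φ₀ q).2) (γ' t) :=
        ((hΦ₀.sm.snd) _).mdifferentiableAt (by simp)
      have e1 : mfderiv 𝓘(ℝ, E × V₀) 𝓘(ℝ, V₀) (fun q => (Φ₀ q).2) (γ' t)
          (mfderiv 𝓘(ℝ, ℝ) 𝓘(ℝ, E × V₀) γ' t 1) = 0 := by
        have k := mfderiv_comp t hΦ2 hsd
        have k2 : ((fun q => (Φ₀ q).2) ∘ γ') = fun _ => y₀ := by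
          funext s
          simp only [Function.comp, hγ']
          rw [hΦ₀.right (hβm s)]
        have k3 : mfderiv 𝓘(ℝ, ℝ) 𝓘(ℝ, V₀) ((fun q => (Φ₀ q).2) ∘ γ') t = 0 := by
          rw [k2]
          exact mfderiv_const
        rw [k3] at k
        have := congrArg (fun T => T (1 : ℝ)) k
        exact this.symm
      have e2 : (mfderiv 𝓘(ℝ, E × V₀) 𝓘(ℝ, E) (fun q => (Φ₀ q).1) (γ' t)
          (mfderiv 𝓘(ℝ, ℝ) 𝓘(ℝ, E × V₀) γ' t 1) : E) = mfderiv 𝓘(ℝ, ℝ) 𝓘(ℝ, E) β t 1 := by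
        have k := mfderiv_comp t hΦ1 hsd
        have k2 : ((fun q => (Φ₀ q).1) ∘ γ') = β := by
          funext s
          simp only [Function.comp, hγ']
          rw [hΦ₀.right (hβm s)]
        have k4 := congrArg (fun T => T (1 : ℝ)) k
        have k3 : (mfderiv 𝓘(ℝ, ℝ) 𝓘(ℝ, E) ((fun q => (Φ₀ q).1) ∘ γ') t (1 : ℝ) : E) =
            (mfderiv 𝓘(ℝ, ℝ) 𝓘(ℝ, E) β t (1 : ℝ) : E) := by
          rw [k2]
        exact Eq.trans k4.symm k3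
      have hn := tw_norm h₀ hp _ _ e1 e2
      have hγd : MDifferentiableAt 𝓘(ℝ, ℝ) 𝓘(ℝ, E × V) γ t :=
        (hγ t).mdifferentiableAt one_ne_zero
      have hΦ3 : MDifferentiableAt 𝓘(ℝ, E × V) 𝓘(ℝ, E) (fun q => (Φ q).1) (γ t) :=
        ((hΦ.sm.fst) _).mdifferentiableAt (by simp)
      have e3 : (mfderiv 𝓘(ℝ, E × V) 𝓘(ℝ, E) (fun q => (Φ q).1) (γ t)
          (mfderiv 𝓘(ℝ, ℝ) 𝓘(ℝ, E × V) γ t 1) : E) = mfderiv 𝓘(ℝ, ℝ) 𝓘(ℝ, E) β t 1 := by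
        have k := mfderiv_comp t hΦ3 hγd
        have k4 := congrArg (fun T => T (1 : ℝ)) k
        exact k4.symm
      have hg := tw_ge hΩ hΦ h hw0 (γ t) (mfderiv 𝓘(ℝ, ℝ) 𝓘(ℝ, E × V) γ t 1) (β t) rfl
        (mfderiv 𝓘(ℝ, ℝ) 𝓘(ℝ, E) β t 1) e3
      have hn2 : ‖mfderiv 𝓘(ℝ, ℝ) 𝓘(ℝ, E × V₀) γ' t 1‖ ≤ ‖mfderiv 𝓘(ℝ, ℝ) 𝓘(ℝ, E × V) γ t 1‖ := by
        refine (pow_le_pow_iff_left₀ (norm_nonneg _) (norm_nonneg _) two_ne_zero).1 ?_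
        rw [hn]
        exact hg
      rw [← ofReal_norm, ← ofReal_norm]
      exact ENNReal.ofReal_le_ofReal hn2
    rw [IsRiemannianManifold.out (I := 𝓘(ℝ, E × V₀))]
    exact hle.trans (hlen'.trans hlen.le)
  have h1 : edist (Φ₀.symm ((Φ q).1, y₀)) (Φ₀.symm ((Φ q').1, y₀)) ≤ edist q q' :=
    le_of_forall_gt_imp_ge_of_dense fun c hc => hkey c hc
  rw [edist_dist, edist_dist] at h1
  exact (ENNReal.ofReal_le_ofReal_iff dist_nonneg).1 h1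

/-- the width of the base -/
theorem basew [IsManifold 𝓘(ℝ, E) ∞ N] [IsManifold 𝓘(ℝ, V) ∞ F]
    [IsManifold 𝓘(ℝ, E × V) ∞ M] [IsRiemannianManifold 𝓘(ℝ, E × V) M]
    [IsManifold 𝓘(ℝ, V₀) ∞ F₀] [IsManifold 𝓘(ℝ, E × V₀) ∞ M₀]
    [IsRiemannianManifold 𝓘(ℝ, E × V₀) M₀] [Subsingleton F₀]
    {w : N → ℝ} {Ω : Set N} (hΩ : IsOpen Ω) (hw0 : ∀ x ∈ Ω, 0 < w x)
    {Φ : OpenPartialHomeomorph M (N × F)} (hΦ : PD E V Ω Φ)
    (h : IsTw (E := E) (V := V) w Φ)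
    {Φ₀ : OpenPartialHomeomorph M₀ (N × F₀)} (hΦ₀ : PD E V₀ Ω Φ₀)
    (h₀ : IsTw (E := E) (V := V₀) w Φ₀) (y : F) {m : ℕ} {C : ℝ}
    (hL : H53.UrysohnWidthLE ↥((fun x => Φ.symm (x, y)) '' Ω) m C) :
    H53.UrysohnWidthLE M₀ m C := by
  obtain ⟨W, K, f, h1, h2, h3⟩ := hL
  have hc0 : Continuous Φ₀ := hΦ₀.sm.continuous
  have hc : Continuous fun q : M₀ => Φ.symm ((Φ₀ q).1, y) := by
    have h2 : ContinuousOn Φ.symm (Ω ×ˢ univ) := hΦ.sms.continuousOn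
    exact h2.comp_continuous ((continuous_fst.comp hc0).prodMk continuous_const)
      (fun q => ⟨hΦ₀.mem q, mem_univ _⟩)
  refine ⟨W, K, fun q => f ⟨Φ.symm ((Φ₀ q).1, y), ⟨(Φ₀ q).1, hΦ₀.mem q, rfl⟩⟩, h1,
    h2.comp (hc.subtype_mk _), fun a b hab => ?_⟩
  have h4 := h3 _ _ hab
  have h5 := proj_lip hΩ hw0 hΦ h hΦ₀ h₀ (Φ₀ a).2 (Φ.symm ((Φ₀ a).1, y)) (Φ.symm ((Φ₀ b).1, y))
  rw [hΦ.right (hΦ₀.mem a), hΦ.right (hΦ₀.mem b)] at h5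
  have e1 : Φ₀.symm ((Φ₀ a).1, (Φ₀ a).2) = a := hΦ₀.left a
  have e2 : Φ₀.symm ((Φ₀ b).1, (Φ₀ a).2) = b := by
    rw [Subsingleton.elim (Φ₀ a).2 (Φ₀ b).2]
    exact hΦ₀.left b
  simp only [e1, e2] at h5
  exact h5.trans h4

end Vale.Agent.P210.Cw.Om
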