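import Vale.Agent.P210.Cx.Main
import Vale.Agent.P210.Cx.Sta
import Vale.Agent.P210.Cx.DefsR

/-!
# The theorems with the width of the base
-/

open scoped Manifold ContDiff Topology
open Bundle IsManifold MeasureTheory Metric

set_option maxSynthPendingDepth 3

namespace Vale.Agent.P210.Cw.Om

open Vale.Agent.P210.R2 Vale.Agent.P210.R2.H53

theorem widths_of {E : Type} [NormedAddCommGroup E] [NormedSpace ℝ E] [FiniteDimensional ℝ E]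
    {N : Type} [MetricSpace N] [ChartedSpace E N]
    [RiemannianBundle (fun x : N => TangentSpace 𝓘(ℝ, E) x)] [IsManifold 𝓘(ℝ, E) ∞ N]
    {k : ℕ} {Ω : Set N} {w σ : N → ℝ} {C : ℝ} (hΩ : IsOpen Ω) (hw0 : ∀ x ∈ Ω, 0 < w x)
    (h : ProductWidthLE E N k Ω w σ C) : ProductWidthsLE E N k Ω w σ C := by
  intro V _ _ _ F _ _ _ M _ _ _ _ Ψ hΨ hM hcM hV hT hScal hF
  have h1 := h V F M Ψ hΨ hM hcM hV hT hScal hF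
  refine ⟨h1.1, fun y => ⟨h1.2 y, ?_⟩⟩
  intro V₀ _ _ _ F₀ _ _ _ M₀ _ _ _ _ Ψ₀ hF₀ hΨ₀ hM₀ hT₀
  have h2 := h1.2 y
  obtain ⟨Φ, a1, a2, a3, a4, rfl⟩ := hΨ
  obtain ⟨Φ₀, b1, b2, b3, b4, rfl⟩ := hΨ₀
  obtain ⟨_, _⟩ := hM
  obtain ⟨_, _⟩ := hM₀
  have hPD : PD E V Ω Φ.symm := ⟨a2, a1, a4, a3⟩
  have hPD₀ : PD E V₀ Ω Φ₀.symm := ⟨b2, b1, b4, b3⟩
  exact basew hΩ hw0 hPD (isTw_of hΩ hPD hT) hPD₀ (isTw_of hΩ hPD₀ hT₀) y h2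

theorem generalR : ∀ n : ℕ, 3 ≤ n → ∀ p : ℝ, 1 < p → ∀ L K θ : ℝ, θ < 1 → ∃ Λ > 0, ∀ D : ℝ,
    ∃ C : ℝ, ∀ k : ℕ,
    ∀ (E : Type) [NormedAddCommGroup E] [NormedSpace ℝ E] [FiniteDimensional ℝ E]
      [MeasurableSpace E] [BorelSpace E]
      (N : Type) [MetricSpace N] [ChartedSpace E N]
      [RiemannianBundle (fun x : N => TangentSpace 𝓘(ℝ, E) x)] [IsManifold 𝓘(ℝ, E) ∞ N]
      [MeasurableSpace N] [BorelSpace N] (μ : Measure N) (Ω : Set N) (w S σ : N → ℝ),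
      IsRiem E N → CompleteSpace N → IsVol E μ → Module.finrank ℝ E = n → IsOpen Ω →
      ContMDiffOn 𝓘(ℝ, E) 𝓘(ℝ, ℝ) ∞ w Ω → (∀ x ∈ Ω, 0 < w x) →
      ContinuousOn S Ω → (∀ x ∈ Ω, 0 ≤ S x) →
      ScalLEOn E N Ω (fun x => S x - w x * (σ x - θ)) →
      (((RicGE E N 0 ∨ IsPI μ n K fun _ => True) ∧
          ∀ x r, 0 < r → ∃ f ∈ ({S, w} : Set (N → ℝ)),
            IntegrableOn (fun y => f y ^ p) (ball x r ∩ Ω) μ ∧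
            ∫ y in ball x r ∩ Ω, f y ^ p ∂μ ≤ L * r ^ (-(2 * p)) * μ.real (ball x r)) ∨
        ∃ r₀ : ℝ, 0 < r₀ ∧ (RicGE E N (-(1 / r₀ ^ 2)) ∨ IsPI μ n K fun r => r ≤ 4 * r₀) ∧
          (∀ x r, 0 < r → r ≤ 2 * r₀ → ∃ f ∈ ({S, w} : Set (N → ℝ)),
            IntegrableOn (fun y => f y ^ p) (ball x r ∩ Ω) μ ∧
            ∫ y in ball x r ∩ Ω, f y ^ p ∂μ ≤ L * r ^ (-(2 * p)) * μ.real (ball x r)) ∧
          ∃ Z : Fin (n - 1) → Set N,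
            (∀ x, (x ∈ Ω → r₀ ^ 2 * w x ≤ Λ) → ∃ i, x ∈ Z i) ∧
            ∀ i x y, Relation.ReflTransGen
              (fun a c => a ∈ Z i ∧ c ∈ Z i ∧ dist a c ≤ 4 * r₀) x y → dist x y ≤ D * r₀) →
      ProductWidthsLE E N k Ω w σ C := by
  intro n hn p hp L K θ hθ
  obtain ⟨Λ, hΛ, h⟩ := general n hn p hp L K θ hθ
  refine ⟨Λ, hΛ, fun D => ?_⟩
  obtain ⟨C, hC⟩ := h D
  refine ⟨C, ?_⟩
  intro k E _ _ _ _ _ N _ _ _ _ _ _ μ Ω w S σ hN hcN hμ hE hΩ hw hw0 hS hS0 hSc hcase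
  exact widths_of hΩ hw0 (hC k E N μ Ω w S σ hN hcN hμ hE hΩ hw hw0 hS hS0 hSc hcase)

theorem closedR : ∀ n : ℕ, 3 ≤ n → ∀ θ : ℝ, θ < 1 →
    ∀ (E : Type) [NormedAddCommGroup E] [NormedSpace ℝ E] [FiniteDimensional ℝ E]
      (N : Type) [MetricSpace N] [ChartedSpace E N]
      [RiemannianBundle (fun x : N => TangentSpace 𝓘(ℝ, E) x)] [IsManifold 𝓘(ℝ, E) ∞ N],
      IsRiem E N → CompactSpace N → Module.finrank ℝ E = n → ∃ C : ℝ,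
      ∀ (k : ℕ) (Ω : Set N) (w : N → ℝ), IsOpen Ω → ContMDiffOn 𝓘(ℝ, E) 𝓘(ℝ, ℝ) ∞ w Ω →
      (∀ x ∈ Ω, 0 < w x) → ProductWidthsLE E N k Ω w (fun _ => θ) C := by
  intro n hn θ hθ E _ _ _ N _ _ _ _ hN hcN hE
  obtain ⟨C, hC⟩ := closed n hn θ hθ E N hN hcN hE
  exact ⟨C, fun k Ω w hΩ hw hw0 => widths_of hΩ hw0 (hC k Ω w hΩ hw hw0)⟩

end Vale.Agent.P210.Cw.Om
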