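import Vale.Agent.P210.Cx.Ext
import Vale.Agent.P210.Cx.EnB
import Vale.Agent.P210.Cx.Tel
import Vale.Agent.P210.Cw.Fin

/-!
# Open subsets of Riemannian manifolds as metric measure spaces with densities
-/

open scoped Manifold ContDiff Topology Bundle ENNReal NNReal
open Set Metric Filter Bundle IsManifold MeasureTheory Manifold Asymptotics

set_option maxSynthPendingDepth 3
set_option linter.all false

noncomputable section

namespace Vale.Agent.P210.Cw.Om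

open Vale.Agent.P210.R2 Vale.Agent.P210.R2.H53 Vale.Agent.P210.R2.H999 Vale.Agent.P210.R2.H973

theorem Ex.cont {X : Type} [MetricSpace X] {Ω : Set X} {ρ u : X → ℝ} (h : Ex Ω ρ u) :
    ContinuousOn u Ω := by
  intro z hz
  apply ContinuousAt.continuousWithinAt
  rw [ContinuousAt, tendsto_iff_dist_tendsto_zero]
  have h1 := h.pl z hz 1 one_pos
  have h2 : Tendsto (fun y => (ρ z + 1) * dist y z) (𝓝 z) (𝓝 0) := by
    have : ContinuousAt (fun y => (ρ z + 1) * dist y z) z := by fun_prop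
    simpa [ContinuousAt] using this
  exact squeeze_zero' (Eventually.of_forall fun _ => dist_nonneg) h1 h2

section Base

variable {E : Type} [NormedAddCommGroup E] [NormedSpace ℝ E] [FiniteDimensional ℝ E]
    [MeasurableSpace E] [BorelSpace E]
    {M : Type} [MetricSpace M] [ChartedSpace E M]
    [RiemannianBundle (fun x : M => TangentSpace 𝓘(ℝ, E) x)]
    [IsManifold 𝓘(ℝ, E) ∞ M]
    [IsContMDiffRiemannianBundle 𝓘(ℝ, E) ∞ E (fun x : M => TangentSpace 𝓘(ℝ, E) x)]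
    [IsRiemannianManifold 𝓘(ℝ, E) M] [MeasurableSpace M] [BorelSpace M] [ProperSpace M]

/-- minimal geodesics -/
theorem exists_geo (E : Type) [NormedAddCommGroup E] [NormedSpace ℝ E] [FiniteDimensional ℝ E]
    [MeasurableSpace E] [BorelSpace E]
    {M : Type} [MetricSpace M] [ChartedSpace E M]
    [RiemannianBundle (fun x : M => TangentSpace 𝓘(ℝ, E) x)]
    [IsManifold 𝓘(ℝ, E) ∞ M]
    [IsContMDiffRiemannianBundle 𝓘(ℝ, E) ∞ E (fun x : M => TangentSpace 𝓘(ℝ, E) x)]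
    [IsRiemannianManifold 𝓘(ℝ, E) M] [MeasurableSpace M] [BorelSpace M] [ProperSpace M] (x y : M) :
    ∃ c : ℝ → M, MinGeo c 0 (dist x y) ∧ c 0 = x ∧ c (dist x y) = y := by
  obtain ⟨g1, g2, -⟩ := H196.geo E M
  have hconn : ConnectedSpace M := by
    have : PathConnectedSpace M := ⟨⟨x⟩, fun x y => pathConnected_of_riemannian (E := E) x y⟩
    infer_instance
  obtain ⟨-, h1⟩ := g1 inferInstance hconn
  exact h1 x y

/-- the completeness cutoffs -/
theorem comp_of {μ : Measure M} (hc : Cal E μ) {Ω : Set M} (hΩ : IsOpen Ω) {ρ u : M → ℝ}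
    (h : Ex Ω ρ u) (hρ : ContinuousOn ρ Ω) (hρ0 : ∀ z, 0 ≤ ρ z) :
    ∀ ε > 0, ∀ K : Set M, IsCompact K → K ⊆ Ω → ∃ θ : M → ℝ, LC θ ∧ tsupport θ ⊆ Ω ∧
      (∀ p, 0 ≤ θ p ∧ θ p ≤ 1) ∧ (∀ p ∈ K, θ p = 1) ∧ ∀ p ∈ Ω, Gam E θ θ p ≤ (ε * ρ p) ^ 2 := by
  intro ε hε K hK hKΩ
  obtain ⟨c, hcK⟩ : ∃ c, ∀ z ∈ K, u z ≤ c := by
    obtain ⟨c, hc'⟩ := hK.bddAbove_image (h.cont.mono hKΩ)
    exact ⟨c, fun z hz => hc' ⟨z, hz, rfl⟩⟩
  obtain ⟨ρ', h1, h2, h3, h4, h5⟩ := h.ext hΩ hρ hρ0 (g := prof c ε) (l := ε) (g₀ := 0)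
    (c := c + 1 / ε) hε.le (prof_lip hε.le) (fun s hs => prof_zero hε hs)
  obtain ⟨B, hB⟩ : ∃ B, ∀ x, |ρ' x| ≤ B := by
    obtain ⟨B, hB⟩ := h2.exists_bound_of_continuous h1
    exact ⟨B, fun x => by simpa [Real.norm_eq_abs] using hB x⟩
  set K' : Set M := {z | z ∈ Ω ∧ u z ≤ c + 1 / ε} with hK'
  have hK'c : IsCompact K' := h.cpt _
  set θ := Om.ext Ω u (prof c ε) 0 with hθ
  have hsupp : ∀ z, z ∉ K' → θ z = 0 := by
    intro z hz
    by_cases hzΩ : z ∈ Ω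
    · rw [hθ, ext_mem hzΩ]
      apply prof_zero hε
      by_contra hcon
      exact hz ⟨hzΩ, (not_le.1 hcon).le⟩
    · rw [hθ, ext_notMem hzΩ]
  have htsupp : tsupport θ ⊆ K' := by
    apply closure_minimal _ hK'c.isClosed
    intro z hz
    by_contra hcon
    exact hz (hsupp z hcon)
  have hθmem : ∀ p, 0 ≤ θ p ∧ θ p ≤ 1 := by
    intro p
    by_cases hp : p ∈ Ω
    · rw [hθ, ext_mem hp]
      exact prof_mem _ _ _
    · rw [hθ, ext_notMem hp]
      norm_num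
  refine ⟨θ, ⟨⟨Real.toNNReal (ε * B), LipschitzWith.of_dist_le_mul fun x y => ?_⟩,
    HasCompactSupport.intro hK'c hsupp⟩, htsupp.trans fun z hz => hz.1, hθmem, ?_, ?_⟩
  · have h6 := lip_of_pl (ρ := fun x => ε * ρ' x) (continuous_const.mul h1) (B := ε * B)
      (fun x => by
        rw [abs_mul, abs_of_pos hε]
        gcongr
        exact hB x) h5 (exists_geo E) x y
    rw [Real.dist_eq]
    exact h6.trans (mul_le_mul_of_nonneg_right (Real.le_coe_toNNReal _) dist_nonneg)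
  · intro p hp
    rw [hθ, ext_mem (hKΩ hp)]
    exact prof_one hε (hcK p hp)
  · intro p hp
    have h7 : ∀ δ : ℝ, 0 < δ → Gam E θ θ p ≤ (ε * ρ p + δ) ^ 2 := by
      intro δ hδ
      refine (hc.lip (ε * ρ' p + δ) θ p (by have := h3 p; positivity) (h5 p δ hδ)).trans ?_
      have e1 : 0 ≤ ε * ρ' p + δ := by have := h3 p; positivity
      have e2 := h4 p
      gcongr
    have hlim : Tendsto (fun δ : ℝ => (ε * ρ p + δ) ^ 2) (𝓝[>] 0) (𝓝 ((ε * ρ p + 0) ^ 2)) := by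
      apply Tendsto.mono_left _ nhdsWithin_le_nhds
      apply Continuous.tendsto
      fun_prop
    have h8 := ge_of_tendsto hlim (by
      filter_upwards [self_mem_nhdsWithin] with δ hδ
      exact h7 δ hδ)
    simpa using h8

theorem int_of_pow {X : Type} [MetricSpace X] [MeasurableSpace X] {μ : Measure X} {ρ : X → ℝ}
    {b : ℝ} (hb : 1 < b) (hm : Measurable ρ) (h0 : ∀ x, 0 ≤ ρ x) {s : Set X} (hs : μ s ≠ ⊤)
    (hi : IntegrableOn (fun y => ρ y ^ b) s μ) : IntegrableOn ρ s μ := by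
  have h1 : IntegrableOn (fun y => 1 + ρ y ^ b) s μ := (integrableOn_const hs).add hi
  refine Integrable.mono' h1 hm.aestronglyMeasurable ?_
  refine Eventually.of_forall fun y => ?_
  rw [Real.norm_of_nonneg (h0 y)]
  rcases le_or_gt (ρ y) 1 with h2 | h2
  · have : 0 ≤ ρ y ^ b := Real.rpow_nonneg (h0 y) b
    linarith
  · have : ρ y ≤ ρ y ^ b := Real.self_le_rpow_of_one_le h2.le hb.le
    linarith

theorem meas_of {X : Type} [MetricSpace X] [MeasurableSpace X] [BorelSpace X] {Ω : Set X}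
    (hΩ : IsOpen Ω) {ρ : X → ℝ} (hρ : ContinuousOn ρ Ω) (hρz : ∀ x ∉ Ω, ρ x = 0) :
    Measurable ρ := by
  classical
  have h1 : ρ = Ω.piecewise ρ 0 := by
    funext x
    by_cases hx : x ∈ Ω
    · rw [Set.piecewise_eq_of_mem _ _ _ hx]
    · rw [Set.piecewise_eq_of_notMem _ _ _ hx]
      exact hρz x hx
  rw [h1]
  exact hρ.measurable_piecewise continuousOn_const hΩ.measurableSet

theorem dat_of {n : ℕ} (hn : 2 ≤ n) (hfin : Module.finrank ℝ E = n) {μ : Measure M}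
    (hvol : IsVol E μ) {ok : ℝ → Prop} (hokm : ∀ r s, ok r → s ≤ r → ok s)
    (hRic : ∀ r, 0 < r → ok r → RicGE E M (-(1 / r ^ 2))) {Ω : Set M} (hΩ : IsOpen Ω)
    {ρ : M → ℝ} (hρ : ContinuousOn ρ Ω) (hρ0 : ∀ x ∈ Ω, 0 < ρ x) (hρz : ∀ x ∉ Ω, ρ x = 0)
    {b A : ℝ} (hb : 1 < b) (hA : 0 < A)
    (hri : ∀ x r, IntegrableOn (fun y => ρ y ^ b) (ball x r) μ)
    (hE : ∀ x r, 0 < r → ok r →
      ∫ y in ball x r, ρ y ^ b ∂μ ≤ A * r ^ (-b) * μ.real (ball x r)) :
    Dat μ Ω ρ n b A (CdN n) ok := by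
  have hfr : 1 ≤ Module.finrank ℝ E := by omega
  have hc : Cal E μ := cal_of H934.cala H34.calb H34.cald hfr hvol
  haveI := hc.isFinOn
  have hnn : ∀ x, 0 ≤ ρ x := by
    intro x
    by_cases hx : x ∈ Ω
    · exact (hρ0 x hx).le
    · rw [hρz x hx]
  refine ⟨hc.fin, fun x r hr => hc.pos _ isOpen_ball ⟨x, mem_ball_self hr⟩, ?_, hΩ, hρ, hρ0, hρz,
    hri, one_le_CdN n, hb, hA, hokm, ?_, ?_, hE⟩
  · intro x y t ht
    obtain ⟨c, c1, c2, c3⟩ := exists_geo E x y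
    have hd : 0 ≤ dist x y := dist_nonneg
    have hm : t * dist x y ∈ Icc 0 (dist x y) :=
      ⟨mul_nonneg ht.1 hd, mul_le_of_le_one_left hd ht.2⟩
    have k1 := c1 0 ⟨le_rfl, hd⟩ _ hm
    have k2 := c1 _ hm (dist x y) ⟨hd, le_rfl⟩
    rw [c2, zero_sub, abs_neg, abs_of_nonneg hm.1] at k1
    rw [c3, abs_sub_comm, abs_of_nonneg (by linarith [hm.2])] at k2
    exact ⟨_, k1, by rw [k2]; ring⟩
  · intro x s t hs hst ht
    have ht0 : 0 < t := hs.trans_le hst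
    have h0 := H912.bg' n hn E M hfr hfin μ (1 / t ^ 2) hvol (by positivity) (hRic t ht0 ht) x s t
      hs hst
    refine h0.trans ?_
    have h2 : 1 / t ^ 2 * t ^ 2 = 1 := by field_simp
    rw [h2]
    have h3 : 0 ≤ μ.real (ball x s) := measureReal_nonneg
    have h4 := exp_one_le_CdN n
    calc (t / s) ^ n * Real.exp 1 * μ.real (ball x s)
        ≤ (t / s) ^ n * CdN n * μ.real (ball x s) := by gcongr
      _ = _ := by ring
  · rintro u ⟨ρ', hρ'c, hρ'0, hρ'le, hu⟩ x r hr hok S₁ S₂ hS₁ hS₂ h₁ h₂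
    have hsd := seg_data hn hfin hvol hr (hRic r hr hok)
    refine (hsd.poi hr (by positivity) hρ'c hρ'0 hu hu.continuous x S₁ S₂ hS₁ hS₂ h₁ h₂).trans ?_
    have hbf : μ (ball x (3 * r)) ≠ ⊤ :=
      ne_top_of_le_ne_top (isCompact_closedBall x (3 * r)).measure_ne_top
        (measure_mono ball_subset_closedBall)
    have e1 : ∫ y in ball x (3 * r), ρ' y ∂μ ≤ ∫ y in ball x (3 * r), ρ y ∂μ := by
      apply setIntegral_mono_on
      · exact (hρ'c.continuousOn.integrableOn_compact (isCompact_closedBall x _)).mono_set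
          ball_subset_closedBall
      · exact int_of_pow hb (meas_of hΩ hρ hρz) hnn hbf (hri _ _)
      · exact measurableSet_ball
      · intro y _
        exact hρ'le y
    have e2 : 0 < CdN n := zero_lt_one.trans_le (one_le_CdN n)
    have e3 : 0 ≤ μ.real (ball x r) := measureReal_nonneg
    change CdN n * r * μ.real (ball x r) * _ ≤ _
    gcongr

end Base

/-- the energy constant -/
def AO (n : ℕ) (p L : ℝ) : ℝ :=
  (D1 (βN p) * (max L 0) ^ ((βN p + 2) / (2 * p)) + D2 n (βN p)) * (2 ^ n * Real.exp 4)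

theorem D1_nonneg {β : ℝ} : 0 ≤ D1 β := by unfold D1; positivity

theorem D2_pos {n : ℕ} {β : ℝ} (hβ : 0 < (n : ℝ) - 2 - 2 * β - β ^ 2) : 0 < D2 n β := by
  have := C0_pos hβ
  unfold D2
  positivity

theorem AO_pos {n : ℕ} (hn : 3 ≤ n) {p : ℝ} (hp : 1 < p) (L : ℝ) : 0 < AO n p L := by
  have h1 := D2_pos (δ_pos hn hp)
  have h2 : 0 ≤ D1 (βN p) := D1_nonneg
  have h3 : 0 ≤ max L 0 := le_max_right _ _
  unfold AO
  positivity

/-- the constant of the capped region -/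
def LamO (n : ℕ) (p L : ℝ) : ℝ := LamC n (n - 2) (βN p + 2) (AO n p L) (CdN n) (ηN n p)

section Base

variable {E : Type} [NormedAddCommGroup E] [NormedSpace ℝ E] [FiniteDimensional ℝ E]
    [MeasurableSpace E] [BorelSpace E]
    {M : Type} [MetricSpace M] [ChartedSpace E M]
    [RiemannianBundle (fun x : M => TangentSpace 𝓘(ℝ, E) x)]
    [IsManifold 𝓘(ℝ, E) ∞ M]
    [IsContMDiffRiemannianBundle 𝓘(ℝ, E) ∞ E (fun x : M => TangentSpace 𝓘(ℝ, E) x)]
    [IsRiemannianManifold 𝓘(ℝ, E) M] [MeasurableSpace M] [BorelSpace M] [ProperSpace M]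

/-- the Morrey bound for continuous minorants -/
theorem morreyO {μ : Measure M} (hc : Cal E μ) {Ω : Set M} (hΩ : IsOpen Ω) {S : M → ℝ}
    (hS : ContinuousOn S Ω) (hS0 : ∀ p ∈ Ω, 0 ≤ S p) {p b L : ℝ} (hb : 0 < b) (hbp : b ≤ 2 * p)
    {x : M} {R : ℝ} (hR : 0 < R) (hi : IntegrableOn (fun y => S y ^ p) (ball x R ∩ Ω) μ)
    (h : ∫ y in ball x R ∩ Ω, S y ^ p ∂μ ≤ L * R ^ (-(2 * p)) * μ.real (ball x R))
    {K : Set M} (hK : IsCompact K) (hKΩ : K ⊆ Ω) :
    ∃ S' : M → ℝ, Continuous S' ∧ (∀ p, 0 ≤ S' p) ∧ (∀ p ∈ K, S' p = S p) ∧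
      ∫ y in ball x R, S' y ^ (b / 2) ∂μ ≤
        (max L 0) ^ (b / (2 * p)) * R ^ (-b) * μ.real (ball x R) := by
  haveI := hc.isFinOn
  have hp : 0 < p := by linarith
  obtain ⟨χ, hχ, hχ01, hχ1, hχΩ⟩ := hc.cut K Ω hK hΩ hKΩ
  have hz : ∀ q ∉ Ω, χ q * S q = 0 := by
    intro q hq
    have h3 : q ∉ tsupport χ := fun hh => hq (hχΩ hh)
    rw [image_eq_zero_of_notMem_tsupport h3, zero_mul]
  have hcont : Continuous fun q => χ q * S q := by
    rw [continuous_iff_continuousAt]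
    intro z
    by_cases hz : z ∈ Ω
    · exact hχ.1.continuous.continuousAt.mul (hS.continuousAt (hΩ.mem_nhds hz))
    · have h3 : z ∉ tsupport χ := fun hh => hz (hχΩ hh)
      refine (continuousAt_const (y := (0 : ℝ))).congr ?_
      filter_upwards [(isClosed_tsupport χ).isOpen_compl.mem_nhds h3] with q hq
      rw [image_eq_zero_of_notMem_tsupport hq, zero_mul]
  have hnn : ∀ q, 0 ≤ χ q * S q := by
    intro q
    by_cases hq : q ∈ Ω
    · exact mul_nonneg (hχ01 q).1 (hS0 q hq)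
    · rw [hz q hq]
  have hL0 : 0 ≤ max L 0 := le_max_right _ _
  have hm : 0 ≤ μ.real (ball x R) := measureReal_nonneg
  have hint : ∀ s : Set M, s ⊆ ball x R → IntegrableOn (fun q => (χ q * S q) ^ p) s μ := by
    intro s hs
    exact ((hcont.rpow_const fun y => Or.inr hp.le).continuousOn.integrableOn_compact
      (isCompact_closedBall x R)).mono_set (hs.trans ball_subset_closedBall)
  refine ⟨fun q => χ q * S q, hcont, hnn, fun q hq => ?_,
    morrey hcont hnn hb hbp hL0 hR ?_⟩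
  · have h2 : ∀ᶠ q in 𝓝 q, χ q = 1 := (mem_nhdsSet_iff_forall.1 hχ1) q hq
    simp only
    rw [h2.self_of_nhds, one_mul]
  · have e1 : ∫ q in ball x R, (χ q * S q) ^ p ∂μ = ∫ q in ball x R ∩ Ω, (χ q * S q) ^ p ∂μ := by
      apply setIntegral_eq_of_subset_of_forall_diff_eq_zero measurableSet_ball inter_subset_left
      intro q hq
      rw [hz q (fun hh => hq.2 ⟨hq.1, hh⟩), Real.zero_rpow hp.ne']
    rw [e1]
    calc ∫ q in ball x R ∩ Ω, (χ q * S q) ^ p ∂μ ≤ ∫ q in ball x R ∩ Ω, S q ^ p ∂μ := by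
          apply setIntegral_mono_on (hint _ inter_subset_left) hi
            (measurableSet_ball.inter hΩ.measurableSet)
          intro q hq
          have h1 : χ q * S q ≤ S q := mul_le_of_le_one_left (hS0 q hq.2) (hχ01 q).2
          exact Real.rpow_le_rpow (hnn q) h1 hp.le
      _ ≤ L * R ^ (-(2 * p)) * μ.real (ball x R) := h
      _ ≤ max L 0 * R ^ (-(2 * p)) * μ.real (ball x R) := by
          gcongr
          exact le_max_left _ _

/-- the metric measure space of an open subset with a conformal factor -/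
theorem dat_en {n : ℕ} (hn : 3 ≤ n) (hfin : Module.finrank ℝ E = n) {μ : Measure M}
    (hvol : IsVol E μ) {p : ℝ} (hp : 1 < p) {L : ℝ} {ok : ℝ → Prop}
    (hokm : ∀ r s, ok r → s ≤ r → ok s) (hok : ∃ r, 0 < r ∧ ok r)
    (hRic : ∀ r, 0 < r → ok r → RicGE E M (-(1 / r ^ 2))) {Ω : Set M} (hΩ : IsOpen Ω)
    {a S ρ u : M → ℝ}
    (ha : ContMDiffOn 𝓘(ℝ, E) 𝓘(ℝ, ℝ) ∞ a Ω)
    (hS : ContinuousOn S Ω) (hS0 : ∀ p ∈ Ω, 0 ≤ S p)
    (hpt : ∀ K : Set M, IsCompact K → K ⊆ Ω → ∃ φ : M → ℝ,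
      ContMDiffOn 𝓘(ℝ, E) 𝓘(ℝ, ℝ) ∞ φ Ω ∧
      ∀ p ∈ K, TwS E n (fun x => Real.exp (2 * a x) / 2) a φ p ≤ S p)
    (hρ : ∀ p ∈ Ω, ρ p = Real.exp (a p)) (hρz : ∀ p ∉ Ω, ρ p = 0) (hu : Ex Ω ρ u)
    (hM : ∀ x r, 0 < r → ok r → IntegrableOn (fun y => S y ^ p) (ball x (2 * r) ∩ Ω) μ ∧
      ∫ y in ball x (2 * r) ∩ Ω, S y ^ p ∂μ ≤
      L * (2 * r) ^ (-(2 * p)) * μ.real (ball x (2 * r))) :
    Dat μ Ω ρ n (βN p + 2) (AO n p L) (CdN n) ok := by
  have hfr : 1 ≤ Module.finrank ℝ E := by omega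
  have hc : Cal E μ := cal_of H934.cala H34.calb H34.cald hfr hvol
  haveI := hc.isFinOn
  have hβ0 := βN_pos hp
  have hρc : ContinuousOn ρ Ω := by
    refine ContinuousOn.congr (f := fun p => Real.exp (a p)) ?_ hρ
    exact Real.continuous_exp.comp_continuousOn ha.continuousOn
  have hρ0 : ∀ x ∈ Ω, 0 < ρ x := fun x hx => by rw [hρ x hx]; exact Real.exp_pos _
  have hnn : ∀ x, 0 ≤ ρ x := by
    intro x
    by_cases hx : x ∈ Ω
    · exact (hρ0 x hx).le
    · rw [hρz x hx]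
  have hL0 : 0 ≤ max L 0 := le_max_right _ _
  have hen := fun (x : M) (r : ℝ) (hr : 0 < r) (hokr : ok r) =>
    en_ball H755.calc_holds hfr hc hβ0 ((βN_le p).trans (by norm_num)) (δ_pos hn hp) hΩ ha
      hρ hρz (meas_of hΩ hρc hρz) (comp_of hc hΩ hu hρc hnn) x hr
      (Q₁ := (max L 0) ^ ((βN p + 2) / (2 * p)) * (2 * r) ^ (-(βN p + 2)) *
        μ.real (ball x (2 * r)))
      (by
        have : 0 ≤ μ.real (ball x (2 * r)) := measureReal_nonneg
        positivity)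
      (by
        intro K hK hKΩ
        obtain ⟨φ, hφ, hφK⟩ := hpt K hK hKΩ
        obtain ⟨S', h1, h2, h3, h4⟩ := morreyO hc hΩ hS hS0 (b := βN p + 2) (by linarith)
          (βN_le' p) (by positivity : (0 : ℝ) < 2 * r) (hM x r hr hokr).1 (hM x r hr hokr).2 hK hKΩ
        exact ⟨φ, S', hφ, h1, h2, fun q hq => by rw [h3 q hq]; exact hφK q hq, h4⟩)
  apply dat_of (by omega) hfin hvol hokm hRic hΩ hρc hρ0 hρz (by linarith) (AO_pos hn hp L)
  · intro x R
    obtain ⟨r, hr, hokr⟩ := hok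
    obtain ⟨t, -, ht⟩ := (isCompact_closedBall x R).elim_nhds_subcover (fun y => ball y r)
      (fun y _ => ball_mem_nhds y hr)
    have h1 : IntegrableOn (fun y => ρ y ^ (βN p + 2)) (⋃ y ∈ t, ball y r) μ := by
      rw [integrableOn_finset_iUnion]
      exact fun y _ => (hen y r hr hokr).1
    exact h1.mono_set (ball_subset_closedBall.trans ht)
  · intro x r hr hok
    refine (hen x r hr hok).2.trans ?_
    have hm : 0 ≤ μ.real (ball x (2 * r)) := measureReal_nonneg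
    have h3 : (2 * r) ^ (-(βN p + 2)) ≤ r ^ (-(βN p + 2)) := by
      apply Real.rpow_le_rpow_of_nonpos hr (by linarith) (by linarith)
    have hbg : μ.real (ball x (2 * r)) ≤ 2 ^ n * Real.exp 4 * μ.real (ball x r) := by
      have h0 := H912.bg' n (by omega) E M hfr hfin μ (1 / r ^ 2) hvol (by positivity)
        (hRic r hr hok) x r (2 * r) hr (by linarith)
      rwa [show 2 * r / r = 2 by field_simp, show 1 / r ^ 2 * (2 * r) ^ 2 = 4 by
        field_simp; norm_num] at h0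
    have hC1 : 0 ≤ D1 (βN p) := D1_nonneg
    have hC2 := D2_pos (δ_pos hn hp)
    set m2 := μ.real (ball x (2 * r)) with hm2
    set m1 := μ.real (ball x r) with hm1
    calc D1 (βN p) * (max L 0 ^ ((βN p + 2) / (2 * p)) * (2 * r) ^ (-(βN p + 2)) * m2) +
          D2 n (βN p) * r ^ (-(βN p + 2)) * m2
        ≤ D1 (βN p) * (max L 0 ^ ((βN p + 2) / (2 * p)) * r ^ (-(βN p + 2)) * m2) +
          D2 n (βN p) * r ^ (-(βN p + 2)) * m2 := by gcongr
      _ = (D1 (βN p) * max L 0 ^ ((βN p + 2) / (2 * p)) + D2 n (βN p)) * r ^ (-(βN p + 2)) *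
          m2 := by ring
      _ ≤ (D1 (βN p) * max L 0 ^ ((βN p + 2) / (2 * p)) + D2 n (βN p)) * r ^ (-(βN p + 2)) *
          (2 ^ n * Real.exp 4 * m1) := by gcongr
      _ = _ := by unfold AO; ring

end Base

end Vale.Agent.P210.Cw.Om
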