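import Vale.Agent.P210.Cw.Pot

/-!
# Potentials of densities on open subsets of metric measure spaces
-/

open scoped ENNReal NNReal Topology
open MeasureTheory Set Metric Filter

set_option linter.all false

noncomputable section

namespace Vale.Agent.P210.Cw.Om

variable {X : Type} [MetricSpace X]

/-- some continuous function below `ρ` is a pointwise Lipschitz constant of `u` -/
def Adm (ρ u : X → ℝ) : Prop :=
  ∃ ρ' : X → ℝ, Continuous ρ' ∧ (∀ x, 0 ≤ ρ' x) ∧ (∀ x, ρ' x ≤ ρ x) ∧ PL ρ' u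

variable [ProperSpace X] [MeasurableSpace X] [BorelSpace X]

/-- integrable on balls -/
structure LI (μ : Measure X) (f : X → ℝ) : Prop where
  ms : Measurable f
  int : ∀ x r, IntegrableOn f (ball x r) μ

theorem kr_abs (x : X) (s : ℝ) (y : X) : kr x s y ≤ |s| :=
  max_le (abs_nonneg s) ((min_le_left _ _).trans (le_abs_self s))

theorem kr_ind (x : X) {s S R : ℝ} (hs : |s| ≤ S) (hR : 2 * s ≤ R) (f : X → ℝ) (y : X) :
    ‖kr x s y * f y‖ ≤ S * (ball x R).indicator (fun y => |f y|) y := by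
  rw [norm_mul, Real.norm_of_nonneg (kr_nonneg _ _ _), Real.norm_eq_abs]
  by_cases hy : y ∈ ball x R
  · rw [indicator_of_mem hy]
    gcongr
    exact (kr_abs x s y).trans hs
  · rw [mem_ball, not_lt, dist_comm] at hy
    rw [kr_zero (hR.trans hy), zero_mul]
    have : 0 ≤ S := (abs_nonneg s).trans hs
    apply mul_nonneg this
    exact indicator_nonneg (fun _ _ => abs_nonneg _) y

theorem LI.int_kr {μ : Measure X} {f : X → ℝ} (hf : LI μ f) (x : X) (s : ℝ) :
    Integrable (fun y => kr x s y * f y) μ := by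
  have hm : Measurable fun y => kr x s y := by
    have : Continuous fun y => kr x s y := by unfold kr; fun_prop
    exact this.measurable
  refine Integrable.mono' (g := fun y => |s| * (ball x (2 * s)).indicator (fun y => |f y|) y) ?_
    (hm.mul hf.ms).aestronglyMeasurable
    (Eventually.of_forall fun y => kr_ind x le_rfl le_rfl f y)
  apply Integrable.const_mul
  rw [integrable_indicator_iff measurableSet_ball]
  exact (hf.int x _).abs

theorem LI.cont_num {μ : Measure X} {f : X → ℝ} (hf : LI μ f) (x₀ : X) (s₀ : ℝ) :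
    ContinuousAt (fun q : X × ℝ => num μ f q.1 q.2) (x₀, s₀) := by
  unfold num
  have h2 : ∀ᶠ q : X × ℝ in 𝓝 (x₀, s₀), dist q.1 x₀ < 1 ∧ |q.2 - s₀| < 1 := by
    have a1 : ContinuousAt (fun q : X × ℝ => dist q.1 x₀) (x₀, s₀) := by fun_prop
    have a2 : ContinuousAt (fun q : X × ℝ => |q.2 - s₀|) (x₀, s₀) := by fun_prop
    exact (a1.eventually_lt continuousAt_const (by simp)).and
      (a2.eventually_lt continuousAt_const (by simp))
  apply continuousAt_of_dominated (bound := fun y =>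
    (|s₀| + 1) * (ball x₀ (2 * |s₀| + 3)).indicator (fun y => |f y|) y)
  · exact Eventually.of_forall fun q => (hf.int_kr q.1 q.2).aestronglyMeasurable
  · filter_upwards [h2] with q hq
    refine Eventually.of_forall fun y => ?_
    have h3 : |q.2| ≤ |s₀| + 1 := by
      have := abs_sub_abs_le_abs_sub q.2 s₀
      linarith [hq.2]
    have h4 := kr_ind q.1 (R := 2 * |s₀| + 2) h3 (by linarith [le_abs_self q.2]) f y
    refine h4.trans ?_
    gcongr
    exact ball_subset_ball' (by linarith [hq.1])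
  · apply Integrable.const_mul
    rw [integrable_indicator_iff measurableSet_ball]
    exact (hf.int x₀ _).abs
  · refine Eventually.of_forall fun y => ?_
    have h5 : Continuous fun q : X × ℝ => kr q.1 q.2 y := by unfold kr; fun_prop
    exact h5.continuousAt.mul continuousAt_const

theorem LI.num_ge {μ : Measure X} {f : X → ℝ} (hf : LI μ f) (hf0 : ∀ y, 0 ≤ f y)
    (x : X) {s r : ℝ} (hs : 0 ≤ s) (hr : r ≤ s) :
    s * ∫ y in ball x r, f y ∂μ ≤ num μ f x s := by
  rw [← integral_const_mul]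
  unfold num
  have h1 : ∫ y in ball x r, s * f y ∂μ ≤ ∫ y in ball x r, kr x s y * f y ∂μ := by
    apply le_of_eq
    apply setIntegral_congr_fun measurableSet_ball
    intro y hy
    rw [mem_ball, dist_comm] at hy
    simp only
    rw [kr_eq hs (hy.le.trans hr)]
  refine h1.trans (setIntegral_le_integral (hf.int_kr x s) ?_)
  exact Eventually.of_forall fun y => mul_nonneg (kr_nonneg _ _ _) (hf0 y)

theorem LI.num_le {μ : Measure X} {f : X → ℝ} (hf : LI μ f) (hf0 : ∀ y, 0 ≤ f y)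
    (x : X) {s : ℝ} (hs : 0 ≤ s) :
    num μ f x s ≤ s * ∫ y in ball x (2 * s), f y ∂μ := by
  rw [← integral_const_mul]
  unfold num
  have h1 : ∫ y in ball x (2 * s), kr x s y * f y ∂μ = ∫ y, kr x s y * f y ∂μ := by
    apply setIntegral_eq_integral_of_forall_compl_eq_zero
    intro y hy
    rw [mem_ball, not_lt, dist_comm] at hy
    rw [kr_zero hy, zero_mul]
  rw [← h1]
  apply setIntegral_mono_on (hf.int_kr x s).integrableOn ((hf.int _ _).const_mul s)
    measurableSet_ball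
  intro y _
  exact mul_le_mul_of_nonneg_right (kr_le hs y) (hf0 y)

/-- metric measure data with constants; `ok` are the admissible scales; `ρ` is a density on `Ω` -/
structure Dat (μ : Measure X) (Ω : Set X) (ρ : X → ℝ) (n : ℕ) (b A Cd : ℝ) (ok : ℝ → Prop) :
    Prop where
  fin : ∀ K : Set X, IsCompact K → μ K < ⊤
  pos : ∀ x r, 0 < r → 0 < μ (ball x r)
  geo : ∀ x y : X, ∀ t ∈ Icc (0 : ℝ) 1, ∃ z, dist x z = t * dist x y ∧
    dist z y = (1 - t) * dist x y
  op : IsOpen Ω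
  rc : ContinuousOn ρ Ω
  rp : ∀ x ∈ Ω, 0 < ρ x
  rz : ∀ x ∉ Ω, ρ x = 0
  ri : ∀ x r, IntegrableOn (fun y => ρ y ^ b) (ball x r) μ
  cd : 1 ≤ Cd
  b1 : 1 < b
  a0 : 0 < A
  okm : ∀ r s, ok r → s ≤ r → ok s
  dbl : ∀ x s t, 0 < s → s ≤ t → ok t →
    μ.real (ball x t) ≤ Cd * (t / s) ^ n * μ.real (ball x s)
  poi : ∀ u, Adm ρ u → ∀ x r, 0 < r → ok r → ∀ S₁ S₂ : Set X, MeasurableSet S₁ →
    MeasurableSet S₂ → S₁ ⊆ ball x r → S₂ ⊆ ball x r →
    |μ.real S₂ * ∫ y in S₁, u y ∂μ - μ.real S₁ * ∫ y in S₂, u y ∂μ| ≤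
      Cd * r * μ.real (ball x r) * ∫ y in ball x (3 * r), ρ y ∂μ
  en : ∀ x r, 0 < r → ok r →
    ∫ y in ball x r, ρ y ^ b ∂μ ≤ A * r ^ (-b) * μ.real (ball x r)

variable {μ : Measure X} {Ω : Set X} {ρ : X → ℝ} {n : ℕ} {b A Cd : ℝ} {ok : ℝ → Prop}

theorem Dat.isFin (h : Dat μ Ω ρ n b A Cd ok) : IsFiniteMeasureOnCompacts μ :=
  ⟨fun K hK => h.fin K hK⟩

theorem Dat.ball_lt (h : Dat μ Ω ρ n b A Cd ok) (x : X) (r : ℝ) : μ (ball x r) < ⊤ :=
  (measure_mono ball_subset_closedBall).trans_lt (h.fin _ (isCompact_closedBall x r))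

theorem Dat.real_pos (h : Dat μ Ω ρ n b A Cd ok) (x : X) {r : ℝ} (hr : 0 < r) :
    0 < μ.real (ball x r) :=
  ENNReal.toReal_pos (h.pos x r hr).ne' (h.ball_lt x r).ne

theorem Dat.r0 (h : Dat μ Ω ρ n b A Cd ok) (x : X) : 0 ≤ ρ x := by
  by_cases hx : x ∈ Ω
  · exact (h.rp x hx).le
  · exact (h.rz x hx).ge

theorem Dat.rm (h : Dat μ Ω ρ n b A Cd ok) : Measurable ρ := by
  classical
  have h1 : ρ = Ω.piecewise ρ 0 := by
    funext x
    by_cases hx : x ∈ Ω
    · rw [Set.piecewise_eq_of_mem _ _ _ hx]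
    · rw [Set.piecewise_eq_of_notMem _ _ _ hx]
      exact h.rz x hx
  rw [h1]
  exact h.rc.measurable_piecewise continuousOn_const h.op.measurableSet

theorem Dat.int_ball (h : Dat μ Ω ρ n b A Cd ok) {f : X → ℝ} (hf : Continuous f) (x : X) (r : ℝ) :
    IntegrableOn f (ball x r) μ := by
  haveI := h.isFin
  exact (hf.continuousOn.integrableOn_compact (isCompact_closedBall x r)).mono_set
    ball_subset_closedBall

theorem Dat.licont (h : Dat μ Ω ρ n b A Cd ok) {f : X → ℝ} (hf : Continuous f) : LI μ f :=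
  ⟨hf.measurable, fun x r => h.int_ball hf x r⟩

theorem Dat.li (h : Dat μ Ω ρ n b A Cd ok) : LI μ ρ := by
  refine ⟨h.rm, fun x r => ?_⟩
  have h1 : IntegrableOn (fun y => 1 + ρ y ^ b) (ball x r) μ :=
    (integrableOn_const (h.ball_lt x r).ne).add (h.ri x r)
  refine Integrable.mono' h1 h.rm.aestronglyMeasurable ?_
  refine Eventually.of_forall fun y => ?_
  have h0 := h.r0 y
  rw [Real.norm_of_nonneg h0]
  rcases le_or_gt (ρ y) 1 with h2 | h2
  · have : 0 ≤ ρ y ^ b := Real.rpow_nonneg h0 b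
    linarith
  · have : ρ y ≤ ρ y ^ b := Real.self_le_rpow_of_one_le h2.le h.b1.le
    linarith

theorem Dat.den_ge (h : Dat μ Ω ρ n b A Cd ok) (x : X) {s : ℝ} (hs : 0 ≤ s) :
    s * μ.real (ball x s) ≤ num μ (fun _ => 1) x s := by
  have := (h.licont (f := fun _ => 1) continuous_const).num_ge (fun _ => zero_le_one) x hs le_rfl
  simpa using this

theorem Dat.den_le (h : Dat μ Ω ρ n b A Cd ok) (x : X) {s : ℝ} (hs : 0 ≤ s) :
    num μ (fun _ => 1) x s ≤ s * μ.real (ball x (2 * s)) := by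
  have := (h.licont (f := fun _ => 1) continuous_const).num_le (fun _ => zero_le_one) x hs
  simpa using this

theorem Dat.den_pos (h : Dat μ Ω ρ n b A Cd ok) (x : X) {s : ℝ} (hs : 0 < s) :
    0 < num μ (fun _ => 1) x s :=
  lt_of_lt_of_le (mul_pos hs (h.real_pos x hs)) (h.den_ge x hs.le)

theorem Dat.int_pos (h : Dat μ Ω ρ n b A Cd ok) {x : X} (hx : x ∈ Ω) {r : ℝ} (hr : 0 < r) :
    0 < ∫ y in ball x r, ρ y ∂μ := by
  rw [setIntegral_pos_iff_support_of_nonneg_ae (Eventually.of_forall fun y => h.r0 y)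
    (h.li.int x r)]
  obtain ⟨ε, hε, hε2⟩ := Metric.isOpen_iff.1 h.op x hx
  have h1 : ball x (min ε r) ⊆ Function.support ρ ∩ ball x r := by
    intro y hy
    exact ⟨(h.rp y (hε2 (ball_subset_ball (min_le_left _ _) hy))).ne',
      ball_subset_ball (min_le_right _ _) hy⟩
  exact (h.pos x _ (lt_min hε hr)).trans_le (measure_mono h1)

theorem Dat.av_nonneg (h : Dat μ Ω ρ n b A Cd ok) (x : X) {s : ℝ} (hs : 0 < s) :
    0 ≤ av μ ρ x s :=
  div_nonneg (integral_nonneg fun y => mul_nonneg (kr_nonneg _ _ _) (h.r0 y)) (h.den_pos x hs).le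

theorem Dat.av_pos (h : Dat μ Ω ρ n b A Cd ok) {x : X} (hx : x ∈ Ω) {s : ℝ} (hs : 0 < s) :
    0 < av μ ρ x s :=
  div_pos (lt_of_lt_of_le (mul_pos hs (h.int_pos hx hs))
    (h.li.num_ge h.r0 x hs.le le_rfl)) (h.den_pos x hs)

theorem Dat.cont_av (h : Dat μ Ω ρ n b A Cd ok) (x : X) {s : ℝ} (hs : 0 < s) :
    ContinuousAt (fun q : X × ℝ => av μ ρ q.1 q.2) (x, s) := by
  unfold av
  exact (h.li.cont_num x s).div ((h.licont continuous_const).cont_num x s) (h.den_pos x hs).ne'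

theorem Dat.av_le_const (h : Dat μ Ω ρ n b A Cd ok) {x : X} {s B : ℝ} (hs : 0 < s)
    (hB : ∀ y, dist x y ≤ 2 * s → ρ y ≤ B) : av μ ρ x s ≤ B := by
  unfold av
  rw [div_le_iff₀ (h.den_pos x hs)]
  unfold num
  rw [← integral_const_mul]
  apply integral_mono (h.li.int_kr x s) (((h.licont continuous_const).int_kr x s).const_mul B)
  intro y
  simp only
  by_cases hy : dist x y ≤ 2 * s
  · have := mul_le_mul_of_nonneg_left (hB y hy) (kr_nonneg x s y)
    linarith
  · rw [kr_zero (by linarith)]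
    simp

theorem Dat.av_ge_const (h : Dat μ Ω ρ n b A Cd ok) {x : X} {s B : ℝ} (hs : 0 < s)
    (hB : ∀ y, dist x y < 2 * s → B ≤ ρ y) : B ≤ av μ ρ x s := by
  unfold av
  rw [le_div_iff₀ (h.den_pos x hs)]
  unfold num
  rw [← integral_const_mul]
  apply integral_mono (((h.licont continuous_const).int_kr x s).const_mul B) (h.li.int_kr x s)
  intro y
  simp only
  by_cases hy : dist x y < 2 * s
  · have := mul_le_mul_of_nonneg_left (hB y hy) (kr_nonneg x s y)
    linarith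
  · rw [kr_zero (by linarith)]
    simp

theorem Dat.av_le (h : Dat μ Ω ρ n b A Cd ok) (x : X) {s : ℝ} (hs : 0 < s) :
    av μ ρ x s ≤ (∫ y in ball x (2 * s), ρ y ∂μ) / μ.real (ball x s) := by
  unfold av
  have h1 := h.li.num_le h.r0 x hs.le
  have h2 := h.den_ge x hs.le
  have h3 := h.real_pos x hs
  have h4 : 0 ≤ ∫ y in ball x (2 * s), ρ y ∂μ := integral_nonneg fun y => h.r0 y
  calc num μ ρ x s / num μ (fun _ => 1) x s
      ≤ (s * ∫ y in ball x (2 * s), ρ y ∂μ) / (s * μ.real (ball x s)) := by gcongr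
    _ = _ := by field_simp

/-- local bound of `ρ` -/
theorem Dat.exists_bound (h : Dat μ Ω ρ n b A Cd ok) {x : X} (hx : x ∈ Ω) :
    ∃ δ > 0, ∃ B, 0 < B ∧ ∀ y, dist x y ≤ δ → y ∈ Ω ∧ ρ y ≤ B := by
  obtain ⟨δ, hδ, hδ2⟩ := Metric.nhds_basis_closedBall.mem_iff.1 (h.op.mem_nhds hx)
  obtain ⟨B, hB⟩ := (isCompact_closedBall x δ).bddAbove_image (h.rc.mono hδ2)
  refine ⟨δ, hδ, max 1 B, lt_of_lt_of_le one_pos (le_max_left _ _), fun y hy => ?_⟩
  have hy' : y ∈ closedBall x δ := by rwa [mem_closedBall, dist_comm]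
  exact ⟨hδ2 hy', (hB ⟨y, hy', rfl⟩).trans (le_max_right _ _)⟩

/-- bound of the averages near a point of `Ω` -/
theorem Dat.av_bound (h : Dat μ Ω ρ n b A Cd ok) {x : X} (hx : x ∈ Ω) (R : ℝ) :
    ∃ δ > 0, ∃ B, ∀ x', dist x' x < δ → ∀ s ∈ Ioo 0 R, av μ ρ x' s ≤ B := by
  obtain ⟨δ, hδ, B, hB0, hB⟩ := h.exists_bound hx
  have hm := h.real_pos x (show 0 < δ / 8 by positivity)
  refine ⟨δ / 8, by positivity,
    max B ((∫ y in ball x (2 * R + δ), ρ y ∂μ) / μ.real (ball x (δ / 8))), ?_⟩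
  intro x' hx' s hs
  rcases le_or_gt s (δ / 4) with h1 | h1
  · refine le_trans (h.av_le_const hs.1 fun y hy => (hB y ?_).2) (le_max_left _ _)
    have := dist_triangle x x' y
    rw [dist_comm x x'] at this
    linarith
  · refine le_trans (h.av_le x' hs.1) (le_trans ?_ (le_max_right _ _))
    have h3 : 0 ≤ ∫ y in ball x (2 * R + δ), ρ y ∂μ := integral_nonneg fun y => h.r0 y
    have h2 : ∫ y in ball x' (2 * s), ρ y ∂μ ≤ ∫ y in ball x (2 * R + δ), ρ y ∂μ := by
      apply setIntegral_mono_set (h.li.int _ _) (Eventually.of_forall h.r0)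
      apply HasSubset.Subset.eventuallyLE
      exact ball_subset_ball' (by linarith [hs.2])
    have h4 : μ.real (ball x (δ / 8)) ≤ μ.real (ball x' s) :=
      measureReal_mono (ball_subset_ball' (by rw [dist_comm]; linarith)) (h.ball_lt _ _).ne
    gcongr

theorem Dat.int_av (h : Dat μ Ω ρ n b A Cd ok) {x : X} (hx : x ∈ Ω) (R : ℝ) :
    IntegrableOn (av μ ρ x) (Ioo 0 R) := by
  obtain ⟨δ, hδ, B, hB⟩ := h.av_bound hx R
  have hc : ContinuousOn (av μ ρ x) (Ioo 0 R) := by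
    intro s hs
    have h1 := h.cont_av x hs.1
    have h2 : ContinuousAt (fun s : ℝ => ((x, s) : X × ℝ)) s := by fun_prop
    exact (ContinuousAt.comp (f := fun s : ℝ => ((x, s) : X × ℝ)) h1 h2).continuousWithinAt
  refine Integrable.of_bound (hc.aestronglyMeasurable measurableSet_Ioo) B ?_
  filter_upwards [self_mem_ae_restrict measurableSet_Ioo] with s hs
  rw [Real.norm_of_nonneg (h.av_nonneg x hs.1)]
  exact hB x (by rwa [dist_self]) s hs

theorem Dat.pot_add (h : Dat μ Ω ρ n b A Cd ok) {x : X} (hx : x ∈ Ω) {R R' : ℝ} (hR : 0 < R)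
    (hRR : R ≤ R') : pot μ ρ x R' = pot μ ρ x R + ∫ s in Ico R R', av μ ρ x s := by
  unfold pot
  rw [← setIntegral_union _ measurableSet_Ico (h.int_av hx R)
    ((h.int_av hx R').mono_set fun s hs => ⟨hR.trans_le hs.1, hs.2⟩)]
  · congr 2
    ext s
    simp only [mem_Ioo, mem_union, mem_Ico]
    constructor
    · intro hs
      by_cases h1 : s < R
      · exact Or.inl ⟨hs.1, h1⟩
      · exact Or.inr ⟨not_lt.1 h1, hs.2⟩
    · rintro (hs | hs)
      · exact ⟨hs.1, hs.2.trans_le hRR⟩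
      · exact ⟨hR.trans_le hs.1, hs.2⟩
  · rw [Set.disjoint_left]
    intro s hs hs'
    exact absurd hs.2 (not_lt.2 hs'.1)

theorem Dat.pot_ge (h : Dat μ Ω ρ n b A Cd ok) {x : X} (hx : x ∈ Ω) {R R' B : ℝ} (hR : 0 < R)
    (hRR : R ≤ R') (hB : ∀ s, R ≤ s → s < R' → B ≤ av μ ρ x s) :
    pot μ ρ x R + (R' - R) * B ≤ pot μ ρ x R' := by
  rw [h.pot_add hx hR hRR]
  have h1 : ∫ _s in Ico R R', B = (R' - R) * B := by
    rw [setIntegral_const, smul_eq_mul]
    congr 1
    rw [measureReal_def, Real.volume_Ico, ENNReal.toReal_ofReal (by linarith)]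
  rw [← h1]
  refine add_le_add le_rfl ?_
  apply setIntegral_mono_on (by simp)
    ((h.int_av hx R').mono_set fun s hs => ⟨hR.trans_le hs.1, hs.2⟩) measurableSet_Ico
  intro s hs
  exact hB s hs.1 hs.2

theorem Dat.pot_nonneg (h : Dat μ Ω ρ n b A Cd ok) (x : X) (R : ℝ) : 0 ≤ pot μ ρ x R :=
  setIntegral_nonneg measurableSet_Ioo fun _ hs => h.av_nonneg x hs.1

theorem Dat.pot_mono (h : Dat μ Ω ρ n b A Cd ok) {x : X} (hx : x ∈ Ω) {R R' : ℝ} (hR : 0 < R)
    (hRR : R ≤ R') : pot μ ρ x R ≤ pot μ ρ x R' := by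
  have := h.pot_ge hx (B := 0) hR hRR fun s hs _ => h.av_nonneg x (hR.trans_le hs)
  simpa using this

theorem Dat.pot_strict (h : Dat μ Ω ρ n b A Cd ok) {x : X} (hx : x ∈ Ω) {R R' : ℝ} (hR : 0 < R)
    (hRR : R < R') : pot μ ρ x R < pot μ ρ x R' := by
  -- a positive lower bound for the average
  have hc : ContinuousOn (av μ ρ x) (Icc R R') := by
    intro s hs
    have h1 := h.cont_av x (hR.trans_le hs.1)
    have h2 : ContinuousAt (fun s : ℝ => ((x, s) : X × ℝ)) s := by fun_prop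
    exact (ContinuousAt.comp (f := fun s : ℝ => ((x, s) : X × ℝ)) h1 h2).continuousWithinAt
  obtain ⟨s₀, hs₀, hmin⟩ := isCompact_Icc.exists_isMinOn (nonempty_Icc.2 hRR.le) hc
  have h3 := h.av_pos hx (hR.trans_le hs₀.1)
  have := h.pot_ge hx (B := av μ ρ x s₀) hR hRR.le fun s hs hs' => hmin ⟨hs, hs'.le⟩
  have h4 : 0 < (R' - R) * av μ ρ x s₀ := mul_pos (by linarith) h3
  linarith

theorem Dat.pot_small (h : Dat μ Ω ρ n b A Cd ok) {x : X} (hx : x ∈ Ω) {L : ℝ} (hL : 0 < L) :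
    ∃ R, 0 < R ∧ pot μ ρ x R < L := by
  obtain ⟨δ, hδ, B, hB⟩ := h.av_bound hx 1
  set B' := max 1 B with hB'
  have hB0 : 0 < B' := lt_of_lt_of_le one_pos (le_max_left _ _)
  refine ⟨min 1 (L / (2 * B')), by positivity, ?_⟩
  set R := min 1 (L / (2 * B')) with hR
  have hR0 : 0 < R := by positivity
  have hR1 : R ≤ 1 := min_le_left _ _
  have h1 : pot μ ρ x R ≤ ∫ _s in Ioo 0 R, B' := by
    unfold pot
    apply setIntegral_mono_on (h.int_av hx R) (by simp) measurableSet_Ioo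
    intro s hs
    exact (hB x (by rwa [dist_self]) s ⟨hs.1, hs.2.trans_le hR1⟩).trans (le_max_right _ _)
  have h2 : ∫ _s in Ioo 0 R, B' = R * B' := by
    rw [setIntegral_const, smul_eq_mul]
    congr 1
    rw [measureReal_def, Real.volume_Ioo, ENNReal.toReal_ofReal (by linarith), sub_zero]
  have h3 : R * B' ≤ L / 2 := by
    calc R * B' ≤ L / (2 * B') * B' := by gcongr; exact min_le_right _ _
      _ = L / 2 := by field_simp
  linarith

theorem Dat.cont_pot (h : Dat μ Ω ρ n b A Cd ok) (R : ℝ) :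
    ContinuousOn (fun x => pot μ ρ x R) Ω := by
  intro x₀ hx₀
  apply ContinuousAt.continuousWithinAt
  obtain ⟨δ, hδ, B, hB⟩ := h.av_bound hx₀ R
  unfold pot
  apply continuousAt_of_dominated (bound := fun _ => B)
  · filter_upwards [h.op.mem_nhds hx₀] with x hx
    exact (h.int_av hx R).aestronglyMeasurable
  · filter_upwards [ball_mem_nhds x₀ hδ] with x hx
    filter_upwards [self_mem_ae_restrict measurableSet_Ioo] with s hs
    rw [Real.norm_of_nonneg (h.av_nonneg x hs.1)]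
    exact hB x hx s hs
  · exact integrable_const B
  · filter_upwards [self_mem_ae_restrict measurableSet_Ioo] with s hs
    have h1 := h.cont_av x₀ hs.1
    have h2 : ContinuousAt (fun x : X => ((x, s) : X × ℝ)) x₀ := by fun_prop
    exact ContinuousAt.comp (f := fun x : X => ((x, s) : X × ℝ)) h1 h2

end Vale.Agent.P210.Cw.Om
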