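import Vale.Agent.P210.Cx.TwP
import Vale.Agent.P210.Cx.Clo

/-!
# The scalar curvature as a continuous function
-/

open scoped Manifold ContDiff Topology Bundle Matrix
open Set Metric Filter Bundle IsManifold MeasureTheory Manifold

set_option maxSynthPendingDepth 3
set_option linter.all false

noncomputable section

namespace Vale.Agent.P210.Cw.Om

open Vale.Agent.P210.R2 Vale.Agent.P210.R2.H53 Vale.Agent.P210.R2.H973 Vale.Agent.P210.R2.H265

section Flat

variable {E : Type} [NormedAddCommGroup E] [NormedSpace ℝ E]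

/-- polarization of the curvature -/
def Ps (G : E → E →L[ℝ] E →L[ℝ] ℝ) (z a b : E) : E →ₗ[ℝ] E →ₗ[ℝ] ℝ :=
  LinearMap.mk₂ ℝ (fun v w => (Qf G z (v + w) a b - Qf G z v a b - Qf G z w a b) / 2)
    (by intro v v' w; simp only [Qf, map_add, add_apply]; ring)
    (by intro r v w; simp only [Qf, map_add, map_smul, add_apply, smul_apply, smul_eq_mul]; ring)
    (by intro v w w'; simp only [Qf, map_add, add_apply]; ring)
    (by intro r v w; simp only [Qf, map_add, map_smul, add_apply, smul_apply, smul_eq_mul]; ring)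

theorem Ps_apply (G : E → E →L[ℝ] E →L[ℝ] ℝ) (z a b v w : E) :
    Ps G z a b v w = (Qf G z (v + w) a b - Qf G z v a b - Qf G z w a b) / 2 := rfl

theorem Ps_self (G : E → E →L[ℝ] E →L[ℝ] ℝ) (z a b v : E) : Ps G z a b v v = Qf G z v a b := by
  rw [Ps_apply]
  simp only [Qf, map_add, add_apply]
  ring

variable [FiniteDimensional ℝ E] {G : E → E →L[ℝ] E →L[ℝ] ℝ} {U : Set E}

/-- the Ricci curvature as a bilinear map -/
def Rs (G : E → E →L[ℝ] E →L[ℝ] ℝ) (z : E) : E →ₗ[ℝ] E →ₗ[ℝ] ℝ :=
  ∑ i, ∑ j, (gram (G z))⁻¹ i j • Ps G z (bas E i) (bas E j)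

theorem Rs_apply (G : E → E →L[ℝ] E →L[ℝ] ℝ) (z v w : E) :
    Rs G z v w = ∑ i, ∑ j, (gram (G z))⁻¹ i j * Ps G z (bas E i) (bas E j) v w := by
  simp only [Rs, LinearMap.sum_apply, LinearMap.smul_apply, smul_eq_mul]

theorem Rs_self (G : E → E →L[ℝ] E →L[ℝ] ℝ) (z v : E) : Rs G z v v = ric G z v := by
  rw [Rs_apply, ric]
  simp only [Ps_self]

theorem Rs_polar (G : E → E →L[ℝ] E →L[ℝ] ℝ) (z v w : E) :
    Rs G z v w = (ric G z (v + w) - ric G z v - ric G z w) / 2 := by
  rw [Rs_apply, ric, ric, ric, ← Finset.sum_sub_distrib, ← Finset.sum_sub_distrib,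
    Finset.sum_div]
  refine Finset.sum_congr rfl fun i _ => ?_
  rw [← Finset.sum_sub_distrib, ← Finset.sum_sub_distrib, Finset.sum_div]
  refine Finset.sum_congr rfl fun j _ => ?_
  rw [Ps_apply]
  ring

/-- scalar curvature -/
def scG (G : E → E →L[ℝ] E →L[ℝ] ℝ) (z : E) : ℝ :=
  ∑ k, ∑ l, (gram (G z))⁻¹ k l *
    ((ric G z (bas E k + bas E l) - ric G z (bas E k) - ric G z (bas E l)) / 2)

theorem scG_eq_ric {z : E} {b : Module.Basis (Fin (Module.finrank ℝ E)) ℝ E}
    (hb : ONB (G z) b) : ∑ j, ric G z (b j) = scG G z := by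
  rw [scG, gram_inv hb]
  simp only [← Rs_polar]
  simp only [← Rs_self]
  have h1 : ∀ k, Rs G z (b k) (b k) = ∑ i, ∑ j, (bas E).repr (b k) i * (bas E).repr (b k) j *
      Rs G z (bas E i) (bas E j) := fun k => bilin_expand _ _ _
  rw [Finset.sum_congr rfl fun k _ => h1 k, Finset.sum_comm]
  refine Finset.sum_congr rfl fun i _ => ?_
  rw [Finset.sum_comm]
  refine Finset.sum_congr rfl fun j _ => ?_
  rw [Matrix.mul_apply, Finset.sum_mul]
  refine Finset.sum_congr rfl fun k _ => ?_
  simp only [Matrix.transpose_apply, Module.Basis.toMatrix_apply]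

theorem scG_eq {z : E} {b : Module.Basis (Fin (Module.finrank ℝ E)) ℝ E}
    (hb : ONB (G z) b) : ∑ i, ∑ j, secG G z (b i) (b j) = scG G z := by
  rw [Finset.sum_comm, ← scG_eq_ric hb]
  exact Finset.sum_congr rfl fun j _ => ric_eq hb (b j)

theorem cont_inv (h : LocalRiem G U) (i j : Fin (Module.finrank ℝ E)) :
    ContinuousOn (fun p : E => (gram (G p))⁻¹ i j) U := by
  have hG : ContinuousOn G U := h.smooth.continuousOn
  have hgr : ∀ i j, ContinuousOn (fun p : E => gram (G p) i j) U := fun i j =>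
    (hG.clm_apply continuousOn_const).clm_apply continuousOn_const
  have hgram : ContinuousOn (fun p : E => gram (G p)) U :=
    continuousOn_pi.2 fun i => continuousOn_pi.2 fun j => hgr i j
  have hdet : ∀ p ∈ U, (gram (G p)).det ≠ 0 := by
    intro p hp
    obtain ⟨b, hb⟩ := exists_onb (G p) (h.symm p hp) (h.pos p hp)
    have h1 := gram_inv hb
    intro h0
    have h2 : (gram (G p))⁻¹ = 0 := by
      rw [Matrix.inv_def, h0]
      simp
    rw [h2] at h1
    have h3 : (bas E).toMatrix b * ((bas E).toMatrix b)ᵀ = 0 := h1.symm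
    have h4 : ((bas E).toMatrix b).det * ((bas E).toMatrix b).det = 0 ∨
      IsEmpty (Fin (Module.finrank ℝ E)) := by
      rcases isEmpty_or_nonempty (Fin (Module.finrank ℝ E)) with h5 | h5
      · exact Or.inr h5
      · left
        have := congrArg Matrix.det h3
        rwa [Matrix.det_mul, Matrix.det_transpose, Matrix.det_zero] at this
    rcases h4 with h5 | h5
    · have h6 : IsUnit ((bas E).toMatrix b).det := by
        have := (bas E).isUnit_det b
        rwa [Module.Basis.det_apply] at this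
      exact h6.ne_zero (by simpa using h5)
    · rw [Matrix.det_isEmpty] at h0
      exact one_ne_zero h0
  have h1 : ContinuousOn (fun p : E => ((gram (G p)).det)⁻¹ * (gram (G p)).adjugate i j) U := by
    have k2 : Continuous (fun A : Matrix (Fin (Module.finrank ℝ E))
      (Fin (Module.finrank ℝ E)) ℝ => A.det) := continuous_id.matrix_det
    have k3 : Continuous (fun A : Matrix (Fin (Module.finrank ℝ E))
      (Fin (Module.finrank ℝ E)) ℝ => A.adjugate i j) :=
      continuous_id.matrix_adjugate.matrix_elem i j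
    have h2 : ContinuousOn (fun p : E => (gram (G p)).det) U := k2.comp_continuousOn hgram
    have h3 : ContinuousOn (fun p : E => (gram (G p)).adjugate i j) U :=
      k3.comp_continuousOn hgram
    exact (h2.inv₀ hdet).mul h3
  refine h1.congr fun p hp => ?_
  rw [Matrix.inv_def, Ring.inverse_eq_inv']
  rfl

theorem continuousOn_scG (h : LocalRiem G U) : ContinuousOn (scG G) U := by
  have hr : ∀ v : E, ContinuousOn (fun z => ric G z v) U := fun v =>
    (continuousOn_ric h).comp (f := fun z : E => (z, v)) (continuousOn_id.prodMk continuousOn_const)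
      fun z hz => ⟨hz, mem_univ _⟩
  unfold scG
  exact continuousOn_finset_sum _ fun i _ => continuousOn_finset_sum _ fun j _ =>
    (cont_inv h i j).mul ((((hr _).sub (hr _)).sub (hr _)).div_const 2)

end Flat

section Mfd

variable {E : Type} [NormedAddCommGroup E] [NormedSpace ℝ E] [FiniteDimensional ℝ E]
  {M : Type} [MetricSpace M] [ChartedSpace E M]
  [RiemannianBundle (fun x : M => TangentSpace 𝓘(ℝ, E) x)]
  [IsManifold 𝓘(ℝ, E) ∞ M]
  [IsContMDiffRiemannianBundle 𝓘(ℝ, E) ∞ E (fun x : M => TangentSpace 𝓘(ℝ, E) x)]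

theorem scG_chart {e e' : OpenPartialHomeomorph M E} (he : e ∈ maximalAtlas 𝓘(ℝ, E) ∞ M)
    (he' : e' ∈ maximalAtlas 𝓘(ℝ, E) ∞ M) {x : M} (hx : x ∈ e.source) (hx' : x ∈ e'.source) :
    scG (chartG e) (e x) = scG (chartG e') (e' x) := by
  have hz : e x ∈ e.target := e.map_source hx
  obtain ⟨b, hb⟩ := exists_onb (chartG e (e x))
    (fun v w => chartG_symm _ _ v w) (fun v hv => chartG_pos he hz v hv)
  have hinj : Function.Injective (fderiv ℝ (e' ∘ e.symm) (e x) : E →ₗ[ℝ] E) := by
    rw [injective_iff_map_eq_zero]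
    intro v hv
    by_contra hne
    have h1 := chartG_pos he hz v hne
    have h2 := chartG_change he he' hx hx' v v
    have h3 : fderiv ℝ (e' ∘ e.symm) (e x) v = 0 := hv
    rw [h3] at h2
    simp at h2
    linarith
  let T : E ≃ₗ[ℝ] E := LinearEquiv.ofBijective (fderiv ℝ (e' ∘ e.symm) (e x) : E →ₗ[ℝ] E)
    ⟨hinj, LinearMap.injective_iff_surjective.1 hinj⟩
  have hT : ∀ v, T v = fderiv ℝ (e' ∘ e.symm) (e x) v := fun v => rfl
  have hb' : ONB (chartG e' (e' x)) (b.map T) := by
    intro i j
    rw [Module.Basis.map_apply, Module.Basis.map_apply, hT, hT]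
    rw [chartG_change he he' hx hx' (b i) (b j)]
    exact hb i j
  rw [← scG_eq hb, ← scG_eq hb']
  refine Finset.sum_congr rfl fun i _ => Finset.sum_congr rfl fun j _ => ?_
  rw [Module.Basis.map_apply, Module.Basis.map_apply, hT, hT]
  exact sec_chart he he' hx hx' (b i) (b j)

variable (E) in
/-- the scalar curvature -/
def scf (p : M) : ℝ := scG (chartG (chartAt E p)) (chartAt E p p)

theorem scf_chart {e : OpenPartialHomeomorph M E} (he : e ∈ maximalAtlas 𝓘(ℝ, E) ∞ M) {x : M}
    (hx : x ∈ e.source) : scf E x = scG (chartG e) (e x) :=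
  scG_chart (chart_mem_maximalAtlas x) he (mem_chart_source E x) hx

theorem continuous_scf : Continuous (scf E : M → ℝ) := by
  rw [continuous_iff_continuousAt]
  intro p
  have he := (chart_mem_maximalAtlas p : chartAt E p ∈ maximalAtlas 𝓘(ℝ, E) ∞ M)
  have h1 : ContinuousAt (fun q => scG (chartG (chartAt E p)) (chartAt E p q)) p :=
    ((continuousOn_scG (localRiem_chartG he)).continuousAt
      ((chartAt E p).open_target.mem_nhds (mem_chart_target E p))).comp
      ((chartAt E p).continuousAt (mem_chart_source E p))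
  refine h1.congr ?_
  filter_upwards [(chartAt E p).open_source.mem_nhds (mem_chart_source E p)] with q hq
  exact (scf_chart he hq).symm

theorem sum_scf {e : OpenPartialHomeomorph M E} (he : e ∈ maximalAtlas 𝓘(ℝ, E) ∞ M) {z : E}
    (hz : z ∈ e.target) {b : Module.Basis (Fin (Module.finrank ℝ E)) ℝ E}
    (hb : ∀ i j, chartMetric e z (b i) (b j) = if i = j then 1 else 0) :
    ∑ i, ∑ j, sectNum e z (fun u v => chris (chartG e) z u v) (b i) (b j) =
      scf E (e.symm z) := by
  have h1 : ONB (chartG e z) b := hb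
  rw [scf_chart he (e.map_target hz), e.right_inv hz, ← scG_eq h1]
  exact Finset.sum_congr rfl fun i _ => Finset.sum_congr rfl fun j _ =>
    sectNum_eq he hz (isChristoffel_chris he hz) _ _

variable (E M) in
theorem scalGEf_scf : ScalGEf E M (scf E) := fun e he z hz =>
  ⟨_, isChristoffel_chris he hz, fun b hb => (sum_scf he hz hb).ge⟩

variable (E M) in
theorem scalLEOn_scf (Ω : Set M) : ScalLEOn E M Ω (scf E) := fun e he z hz _ =>
  ⟨_, isChristoffel_chris he hz, fun b hb => (sum_scf he hz hb).le⟩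

end Mfd

end Vale.Agent.P210.Cw.Om
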