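import Vale.Agent.P210.Cx.Cov
import Vale.Agent.P210.Cx.Scf
import Vale.Agent.P210.Cx.MainR

/-!
# Products over manifolds with almost nonnegative Ricci curvature
-/

open scoped Manifold ContDiff Topology Bundle ENNReal NNReal
open Set Metric Filter Bundle IsManifold MeasureTheory Manifold Asymptotics

set_option maxSynthPendingDepth 3
set_option linter.all false

noncomputable section

namespace Vale.Agent.P210.Cw.Om

open Vale.Agent.P210 Vale.Agent.P210.R2 Vale.Agent.P210.R2.H53 Vale.Agent.P210.R2.H973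
  Vale.Agent.P210.R2.H265

section Sp

variable {E : Type} [NormedAddCommGroup E] [NormedSpace ℝ E] [FiniteDimensional ℝ E]
    [MeasurableSpace E] [BorelSpace E]
    {N : Type} [MetricSpace N] [ChartedSpace E N]
    [RiemannianBundle (fun x : N => TangentSpace 𝓘(ℝ, E) x)] [IsManifold 𝓘(ℝ, E) ∞ N]
    [IsContMDiffRiemannianBundle 𝓘(ℝ, E) ∞ E (fun x : N => TangentSpace 𝓘(ℝ, E) x)]
    [IsRiemannianManifold 𝓘(ℝ, E) N] [MeasurableSpace N] [BorelSpace N] [ProperSpace N]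

/-- the spectral condition from compact sets -/
theorem spec_of {n : ℕ} (hn : 3 ≤ n) (h1 : 1 ≤ Module.finrank ℝ E) {μ : Measure N}
    (hμ : IsVol E μ) {c : ℝ} {S a : N → ℝ} (hS : Continuous S)
    (ha : ContMDiff 𝓘(ℝ, E) 𝓘(ℝ, ℝ) ∞ a)
    (h : ∀ K : Set N, IsCompact K → ∃ φ : N → ℝ, ContMDiff 𝓘(ℝ, E) 𝓘(ℝ, ℝ) ∞ φ ∧
      ∀ p ∈ K, TwS E n (fun _ => c) a φ p ≤ S p) :
    Spec E μ S 8 c := by
  have hc := cal_of H934.cala H34.calb H34.cald h1 hμ
  haveI := hc.isFinOn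
  intro ψ hψ
  obtain ⟨φ, hφ, hK⟩ := h (tsupport ψ) hψ.2
  obtain ⟨hcont, hspec⟩ := specf' n hn E N h1 μ hμ c (fun _ => c) a φ continuous_const
    (fun _ => le_rfl) ha hφ
  refine (hspec ψ hψ).trans ?_
  have i2 : Integrable (Gam E ψ ψ) μ := hc.int_gam hψ.ll hψ
  have i3 : ∀ T : N → ℝ, Continuous T → Integrable (fun p => T p * ψ p ^ 2) μ := by
    intro T hT
    refine hc.int_cont (hT.mul (hψ.cont.pow 2)) ?_
    exact HasCompactSupport.mul_left (hψ.2.comp_left (g := fun t : ℝ => t ^ 2) (by norm_num))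
  refine integral_mono ((i3 _ hcont).add (i2.const_mul 8)) ((i3 _ hS).add (i2.const_mul 8))
    fun p => ?_
  by_cases hp : p ∈ tsupport ψ
  · have h2 := mul_le_mul_of_nonneg_right (hK p hp) (sq_nonneg (ψ p))
    change TwS E n (fun _ => c) a φ p * ψ p ^ 2 + 8 * Gam E ψ ψ p ≤ S p * ψ p ^ 2 + 8 * Gam E ψ ψ p
    linarith only [h2]
  · have h2 : ψ p = 0 := image_eq_zero_of_notMem_tsupport hp
    change TwS E n (fun _ => c) a φ p * ψ p ^ 2 + 8 * Gam E ψ ψ p ≤ S p * ψ p ^ 2 + 8 * Gam E ψ ψ p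
    rw [h2]
    simp

end Sp

section Tw

variable
    (E : Type) [NormedAddCommGroup E] [NormedSpace ℝ E] [FiniteDimensional ℝ E]
    (V : Type) [NormedAddCommGroup V] [NormedSpace ℝ V] [FiniteDimensional ℝ V]
    (N : Type) [MetricSpace N] [ChartedSpace E N]
    [RiemannianBundle (fun x : N => TangentSpace 𝓘(ℝ, E) x)] [IsManifold 𝓘(ℝ, E) ∞ N]
    [IsContMDiffRiemannianBundle 𝓘(ℝ, E) ∞ E (fun x : N => TangentSpace 𝓘(ℝ, E) x)]
    [IsRiemannianManifold 𝓘(ℝ, E) N]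
    (F : Type) [TopologicalSpace F] [ChartedSpace V F] [IsManifold 𝓘(ℝ, V) ∞ F]
    (M : Type) [MetricSpace M] [ChartedSpace (E × V) M]
    [RiemannianBundle (fun x : M => TangentSpace 𝓘(ℝ, E × V) x)]
    [IsManifold 𝓘(ℝ, E × V) ∞ M]
    [IsContMDiffRiemannianBundle 𝓘(ℝ, E × V) ∞ (E × V)
      (fun x : M => TangentSpace 𝓘(ℝ, E × V) x)]
    [IsRiemannianManifold 𝓘(ℝ, E × V) M]

/-- the three conditions on the fibres, on compact sets -/
theorem fib_of {Ω : Set N} {σ : N → ℝ} {t : ℝ} (ht : t < 1)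
    (Φ : OpenPartialHomeomorph M (N × F)) (y : F) {k : ℕ}
    (hdV : Module.finrank ℝ V = k)
    (hfib : (k ≤ 1 ∧ ∀ x ∈ Ω, 0 ≤ σ x) ∨
      FibreScalLEOn Ω σ (fun x y => fibM (E := E) Φ.symm x (chartAt V y))
        (fun y => chartAt V y y) ∨
      MeanScalLEOn Ω σ (fun x y => fibM (E := E) Φ.symm x (chartAt V y))
        (fun y => chartAt V y y)) :
    ∀ K : Set N, IsCompact K → K ⊆ Ω →
      ∃ (r : ℕ) (p : Fin r → ℝ) (Y : Fin r → Set F), (∀ j, 0 ≤ p j) ∧ ∑ j, p j = 1 ∧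
      (∀ j, PropOn Ω (fun x y => fibM (E := E) Φ.symm x (chartAt V y)) (fun y => chartAt V y y)
        (Y j)) ∧
      ∀ x ∈ K, ∃ (y : Fin r → F) (s : Fin r → ℝ),
      (∀ j, y j ∈ Y j ∧ ((Module.finrank ℝ V ≤ 1 ∧ 0 ≤ s j) ∨
        ScalLEAt (fibM (E := E) Φ.symm x (chartAt V (y j))) (chartAt V (y j) (y j)) (s j))) ∧
      ∑ j, p j * s j ≤ σ x + (1 - t) / 2 := by
  classical
  have ht' : 0 < 1 - t := by linarith
  intro K hK hKΩ
  rcases hfib with ⟨h, h'⟩ | ⟨r, q, Y, hq, hq1, hY, hs⟩ | ⟨ν, A, T, hν, hA, hA0, hT, hTk, hm⟩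
  · refine ⟨1, fun _ => 1, fun _ => {y}, fun _ => zero_le_one, by simp, fun j => ?_,
      fun x hx => ⟨fun _ => y, fun _ => σ x, fun j => ⟨rfl, Or.inl ⟨by omega, h' x (hKΩ hx)⟩⟩,
        ?_⟩⟩
    · rintro _ rfl _ rfl x _ x' _
      exact mul_comm _ _
    · simp only [Finset.univ_unique, Finset.sum_singleton, one_mul]
      linarith
  · refine ⟨r, q, Y, hq, hq1, hY, fun x hx => ?_⟩
    obtain ⟨y, s, h1, h2⟩ := hs x (hKΩ hx)
    exact ⟨y, s, fun j => ⟨(h1 j).1, Or.inr (h1 j).2⟩, by linarith⟩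
  · let _ : MeasurableSpace F := borel F
    have _ : BorelSpace F := ⟨rfl⟩
    have hT' : Continuous fun z : Ω × F => T ((z.1 : N), z.2) :=
      hT.comp_continuous ((continuous_subtype_val.comp continuous_fst).prodMk continuous_snd)
        (fun z => ⟨z.1.2, mem_univ _⟩)
    have hK' : IsCompact (Subtype.val ⁻¹' K : Set Ω) := by
      rw [Subtype.isCompact_iff, Subtype.image_preimage_coe, inter_eq_right.2 hKΩ]
      exact hK
    obtain ⟨r, q, y, hq, hq1, hy⟩ := mean_fin hA hA0 hT' hK' (half_pos ht')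
    refine ⟨r, q, fun j => {y j}, hq, hq1, fun j => ?_, fun x hx => ⟨y, fun j => T (x, y j),
      fun j => ⟨rfl, Or.inr (hTk x (hKΩ hx) (y j))⟩, ?_⟩⟩
    · rintro _ rfl _ rfl x _ x' _
      exact mul_comm _ _
    · have h1 := hy ⟨x, hKΩ hx⟩ hx
      have h2 := hm x (hKΩ hx)
      simp only at h1
      linarith

/-- the spectral condition for the base of a twisted product -/
theorem spec_tw [MeasurableSpace E] [BorelSpace E] [MeasurableSpace N] [BorelSpace N]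
    [ProperSpace N] {n : ℕ} (hn : 3 ≤ n) (hdE : Module.finrank ℝ E = n)
    {μ : Measure N} (hμ : IsVol E μ) {c L : ℝ} (hc : 0 < c) (hL : 0 < L) (w σ : N → ℝ)
    (Φ : OpenPartialHomeomorph M (N × F)) (hΦ : PD E V univ Φ)
    (hw : ContMDiff 𝓘(ℝ, E) 𝓘(ℝ, ℝ) ∞ w) (hw0 : ∀ x, 0 < w x) (hwL : ∀ x, w x ≤ L)
    (hσ : ∀ x, c ≤ w x * (1 - σ x))
    (hT : IsTw (E := E) (V := V) w Φ) {k : ℕ} (hdV : Module.finrank ℝ V = k)
    (hScal : ScalGE (E × V) M 1) (y : F)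
    (hfib : (k ≤ 1 ∧ ∀ x ∈ univ, 0 ≤ σ x) ∨
      FibreScalLEOn univ σ (fun x y => fibM (E := E) Φ.symm x (chartAt V y))
        (fun y => chartAt V y y) ∨
      MeanScalLEOn univ σ (fun x y => fibM (E := E) Φ.symm x (chartAt V y))
        (fun y => chartAt V y y)) :
    Spec E μ (scf E) 8 (c / 2) := by
  have h1 : 1 ≤ Module.finrank ℝ E := by omega
  set t : ℝ := 1 - c / L with htd
  have ht' : 1 - t = c / L := by rw [htd]; ring
  have hcL : 0 < c / L := div_pos hc hL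
  have ht : t < 1 := by linarith
  have hlog : ContMDiff 𝓘(ℝ, E) 𝓘(ℝ, ℝ) ∞ fun x => Real.log ((1 - t) * w x) / 2 := by
    have h3 : ContMDiff 𝓘(ℝ, E) 𝓘(ℝ, ℝ) ∞ (fun x => (1 - t) * w x) :=
      contMDiff_const.mul hw
    have h2 : ContMDiff 𝓘(ℝ, E) 𝓘(ℝ, ℝ) ∞ (fun x => Real.log ((1 - t) * w x)) := fun x =>
      ((Real.contDiffAt_log.2 (mul_pos (by linarith) (hw0 x)).ne').contMDiffAt).comp x (h3 x)
    exact h2.div_const 2
  refine spec_of hn h1 hμ continuous_scf hlog fun K hK => ?_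
  have hSc : ScalLEOn E N univ fun x => (scf E x + w x * (σ x - t)) - w x * (σ x - t) := by
    simpa only [add_sub_cancel_right] using scalLEOn_scf E N univ
  obtain ⟨φ, hφ, h2⟩ := tw_K (S := fun x => scf E x + w x * (σ x - t)) hΦ isOpen_univ
    hw.contMDiffOn (fun x _ => hw0 x) hT h1 hScal ht hSc (subset_univ K)
    (fib_of E V N F M ht Φ y hdV hfib K hK (subset_univ K))
  refine ⟨φ, contMDiffOn_univ.1 hφ, fun p hp => ?_⟩
  have h3 := h2 p hp
  rw [hdE] at h3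
  have hwp := hw0 p
  have e3 : Real.exp (2 * (Real.log ((1 - t) * w p) / 2)) = (1 - t) * w p := by
    rw [show 2 * (Real.log ((1 - t) * w p) / 2) = Real.log ((1 - t) * w p) by ring,
      Real.exp_log (mul_pos (by linarith) hwp)]
  unfold TwS at h3 ⊢
  simp only at h3 ⊢
  rw [e3] at h3
  have h4 : (1 - t) * w p ≤ c := by
    rw [ht', div_mul_eq_mul_div, div_le_iff₀ hL]
    exact mul_le_mul_of_nonneg_left (hwL p) hc.le
  have h5 := hσ p
  nlinarith only [h3, h4, h5]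

/-- the width of the total space and of the leaves -/
theorem width_glob [ProperSpace M] {L C : ℝ} (hL : 0 ≤ L) (w : N → ℝ)
    (Φ : OpenPartialHomeomorph M (N × F)) (hΦ : PD E V univ Φ) (hwL : ∀ x, w x ≤ L)
    (hT : IsTw (E := E) (V := V) w Φ) {m : ℕ} (hB : BWS N m C) :
    H53.UrysohnWidthLE M (m + Module.finrank ℝ V) (√L * C + 1) ∧
      ∀ y : F, H53.UrysohnWidthLE ↥((fun x => Φ.symm (x, y)) '' univ) m (√L * C + 1) := by
  classical
  obtain ⟨W, lam, hB, hd⟩ := hB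
  have hsl : ∀ (x x' : N) (y : F), dist (Φ.symm (x, y)) (Φ.symm (x', y)) ≤ √L * dist x x' :=
    fun x x' y => slice_loc isOpen_univ hΦ hT (Real.sqrt_nonneg _) (δ := dist x x' + 1)
      (fun q _ => mem_univ q) (fun q _ => by rw [Real.sq_sqrt hL]; exact hwL q) x' (by linarith) y
  have hsC : ∀ (v : W) (x x' : N) (y : F), lam v x ≠ 0 → lam v x' ≠ 0 →
      dist (Φ.symm (x, y)) (Φ.symm (x', y)) ≤ √L * C := fun v x x' y h1 h2 =>
    (hsl x x' y).trans (mul_le_mul_of_nonneg_left (hd v x x' h1 h2) (Real.sqrt_nonneg _))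
  refine ⟨?_, fun y => ?_⟩
  · refine width_prod (homeo Φ hΦ) (Bary_comp hB continuous_subtype_val) (C := √L * C)
      (by linarith) (fun v x x' hx hx' y => ?_)
    exact hsC v x x' y hx hx'
  · have hΦc : Continuous Φ := hΦ.sm.continuous
    have hcf : Continuous fun q : ↥((fun x => Φ.symm (x, y)) '' univ) => (Φ (q : M)).1 :=
      continuous_fst.comp (hΦc.comp continuous_subtype_val)
    refine H912.urysohn_of_bary ⟨W, _, Bary_comp hB hcf, fun q q' hqq => ?_⟩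
    obtain ⟨_, x, hx, rfl⟩ := q
    obtain ⟨_, x', hx', rfl⟩ := q'
    have e1 : ∀ x, (Φ (Φ.symm (x, y))).1 = x := fun x => by rw [hΦ.right (mem_univ x) y]
    have hqq' : ∀ v, lam v x = lam v x' := by
      intro v
      have h1 := hqq v
      simp only at h1
      rwa [e1, e1] at h1
    obtain ⟨v, hv⟩ : ∃ v, lam v x ≠ 0 := by
      by_contra hcon
      push Not at hcon
      have h1 := hB.sum x
      rw [finsum_eq_zero_of_forall_eq_zero hcon] at h1
      exact zero_ne_one h1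
    change dist (Φ.symm (x, y)) (Φ.symm (x', y)) ≤ _
    have := hsC v x x' y hv (by rw [← hqq' v]; exact hv)
    linarith

end Tw

/-- The theorem on products over manifolds with almost nonnegative Ricci curvature. -/
theorem glob : ∀ n : ℕ, 3 ≤ n → ∀ c : ℝ, 0 < c → ∃ δ > 0, ∀ Λ : ℝ, ∃ C : ℝ, ∀ k : ℕ,
    ∀ (E : Type) [NormedAddCommGroup E] [NormedSpace ℝ E] [FiniteDimensional ℝ E]
      (N : Type) [MetricSpace N] [ChartedSpace E N]
      [RiemannianBundle (fun x : N => TangentSpace 𝓘(ℝ, E) x)] [IsManifold 𝓘(ℝ, E) ∞ N]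
      (w σ : N → ℝ), IsRiem E N → CompleteSpace N → Module.finrank ℝ E = n →
      ContMDiff 𝓘(ℝ, E) 𝓘(ℝ, ℝ) ∞ w →
      (∀ x, 0 < w x ∧ w x ≤ Λ ∧ c ≤ w x * (1 - σ x)) → RicGE E N (-δ) →
      ProductWidthsLE E N k univ w σ C := by
  intro n hn c hc
  obtain ⟨δ, hδ, C₀, H⟩ := finals_star n hn 8 (by norm_num) (c / 2) (half_pos hc)
  refine ⟨δ, hδ, fun Λ => ⟨√(max Λ 1) * C₀ + 1, ?_⟩⟩
  intro k E _ _ _ N _ _ _ _ w σ hN hcN hE hw hwσ hRic
  refine widths_of isOpen_univ (fun x _ => (hwσ x).1) ?_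
  intro V _ _ _ F _ _ _ M _ _ _ _ Ψ hΨ hM hcM hV hT hScal hF
  obtain ⟨Φ, h1, h2, h3, h4, rfl⟩ := hΨ
  obtain ⟨_, _⟩ := hN
  obtain ⟨_, _⟩ := hM
  have := hcN
  have := hcM
  have hPD : PD E V univ Φ.symm := ⟨h2, h1, h4, h3⟩
  have hTw := isTw_of isOpen_univ hPD hT
  have hL : 0 < max Λ 1 := lt_of_lt_of_le one_pos (le_max_right _ _)
  have hwL : ∀ x, w x ≤ max Λ 1 := fun x => (hwσ x).2.1.trans (le_max_left _ _)
  rcases isEmpty_or_nonempty M with hMe | hMe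
  · refine ⟨H912.urysohn_of_isEmpty _ _, fun y => ?_⟩
    haveI : IsEmpty ↥((fun x => Φ (x, y)) '' univ) := ⟨fun q => hMe.false q.1⟩
    exact H912.urysohn_of_isEmpty _ _
  haveI : ProperSpace N := properSpace_riemannian E N
  haveI : ProperSpace M := properSpace_riemannian (E × V) M
  letI : MeasurableSpace E := borel E
  haveI : BorelSpace E := ⟨rfl⟩
  letI : MeasurableSpace N := borel N
  haveI : BorelSpace N := ⟨rfl⟩
  have hE1 : 1 ≤ Module.finrank ℝ E := by omega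
  obtain ⟨μ, hμ⟩ := H999.vol E N hE1
  have hsp := spec_tw E V N F M hn hE hμ hc hL w σ Φ.symm hPD hw (fun x => (hwσ x).1) hwL
    (fun x => (hwσ x).2.2) hTw hV hScal (Φ.symm hMe.some).2 hF
  have hB := H E N hE1 hE μ hμ hRic ⟨scf E, continuous_scf, scalGEf_scf E N, hsp⟩
  have hfin := width_glob E V N F M hL.le w Φ.symm hPD hwL hTw hB
  rw [hE]
  refine ⟨?_, hfin.2⟩
  have h5 := hfin.1
  rwa [hV, show n - 2 + k = n + k - 2 by omega] at h5

/-- The width with the spectral condition. -/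
theorem spect : ∀ n : ℕ, 3 ≤ n → ∀ γ : ℝ, 0 < γ → ∀ c : ℝ, 0 < c → ∃ δ > 0, ∃ C : ℝ,
    ∀ (E : Type) [NormedAddCommGroup E] [NormedSpace ℝ E] [FiniteDimensional ℝ E]
      [MeasurableSpace E] [BorelSpace E]
      (N : Type) [MetricSpace N] [ChartedSpace E N]
      [RiemannianBundle (fun x : N => TangentSpace 𝓘(ℝ, E) x)] [IsManifold 𝓘(ℝ, E) ∞ N]
      [MeasurableSpace N] [BorelSpace N] (μ : Measure N) (S : N → ℝ),
      IsRiem E N → CompleteSpace N → IsVol E μ → Module.finrank ℝ E = n →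
      RicGE E N (-δ) → Continuous S → ScalGEf E N S → Spec E μ S γ c →
      H53.UrysohnWidthLE N (n - 2) C := by
  intro n hn γ hγ c hc
  obtain ⟨δ, hδ, C, H⟩ := finals' n hn γ hγ c hc
  refine ⟨δ, hδ, C, ?_⟩
  intro E _ _ _ _ _ N _ _ _ _ _ _ μ S hN hcN hμ hE hRic hS hSc hsp
  obtain ⟨_, _⟩ := hN
  have := hcN
  haveI : ProperSpace N := properSpace_riemannian E N
  exact H912.urysohn_of_bary (H E N (by omega) hE μ hμ hRic ⟨S, hS, hSc, hsp⟩)

end Vale.Agent.P210.Cw.Om
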