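import Vale.Agent.P210.Cx.Spe
import Vale.Agent.P210.Cx.DefsS

/-!
# The width with the spectral condition
-/

open scoped Manifold ContDiff Topology
open Bundle IsManifold MeasureTheory

set_option maxSynthPendingDepth 3

namespace Vale.Agent.P210.Cw.Om

open Vale.Agent.P210.R2 Vale.Agent.P210.R2.H53

/-- The width with the spectral condition. -/
theorem spectS : ∀ n : ℕ, 3 ≤ n → ∀ γ : ℝ, 0 < γ → ∀ c : ℝ, 0 < c → ∃ δ > 0, ∃ C : ℝ,
    ∀ (E : Type) [NormedAddCommGroup E] [NormedSpace ℝ E] [FiniteDimensional ℝ E]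
      [MeasurableSpace E] [BorelSpace E]
      (N : Type) [MetricSpace N] [ChartedSpace E N]
      [RiemannianBundle (fun x : N => TangentSpace 𝓘(ℝ, E) x)] [IsManifold 𝓘(ℝ, E) ∞ N]
      [MeasurableSpace N] [BorelSpace N] (μ : Measure N) (S : N → ℝ),
      IsRiem E N → CompleteSpace N → IsVol E μ → Module.finrank ℝ E = n →
      RicGE E N (-δ) → Continuous S → ScalGEFun E N S → SpecGE E μ S γ c →
      H53.UrysohnWidthLE N (n - 2) C := by
  intro n hn γ hγ c hc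
  obtain ⟨δ, hδ, C, H⟩ := spect n hn γ hγ c hc
  exact ⟨δ, hδ, C, fun E _ _ _ _ _ N _ _ _ _ _ _ μ S h1 h2 h3 h4 h5 h6 h7 h8 =>
    H E N μ S h1 h2 h3 h4 h5 h6 h7 h8⟩

end Vale.Agent.P210.Cw.Om
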