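import Vale.Agent.P210.R2.H265.Tws
import Vale.Agent.P210.Cw.Mfd

/-!
# Twisted products over open subsets: product charts
-/

open scoped Manifold ContDiff Topology Bundle ENNReal NNReal
open Set Metric Filter Bundle IsManifold MeasureTheory Manifold Asymptotics

set_option maxSynthPendingDepth 3
set_option linter.all false

noncomputable section

namespace Vale.Agent.P210.Cw.Om

open Vale.Agent.P210.R2.H53 Vale.Agent.P210.R2.H973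

variable {E : Type} [NormedAddCommGroup E] [NormedSpace ℝ E]
  {V : Type} [NormedAddCommGroup V] [NormedSpace ℝ V]
  {N : Type} [MetricSpace N] [ChartedSpace E N]
  [RiemannianBundle (fun x : N => TangentSpace 𝓘(ℝ, E) x)]
  {F : Type} [TopologicalSpace F] [ChartedSpace V F]
  {M : Type} [MetricSpace M] [ChartedSpace (E × V) M]
  [RiemannianBundle (fun x : M => TangentSpace 𝓘(ℝ, E × V) x)]

omit [RiemannianBundle (fun x : N => TangentSpace 𝓘(ℝ, E) x)]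
  [RiemannianBundle (fun x : M => TangentSpace 𝓘(ℝ, E × V) x)] in
/-- `Φ` is a diffeomorphism of `M` onto `Ω × F` -/
structure PD (E V : Type) [NormedAddCommGroup E] [NormedSpace ℝ E]
    [NormedAddCommGroup V] [NormedSpace ℝ V] {N : Type} [MetricSpace N] [ChartedSpace E N]
    {F : Type} [TopologicalSpace F] [ChartedSpace V F]
    {M : Type} [MetricSpace M] [ChartedSpace (E × V) M]
    (Ω : Set N) (Φ : OpenPartialHomeomorph M (N × F)) : Prop where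
  src : Φ.source = univ
  tgt : Φ.target = Ω ×ˢ univ
  sm : ContMDiff 𝓘(ℝ, E × V) (𝓘(ℝ, E).prod 𝓘(ℝ, V)) ∞ Φ
  sms : ContMDiffOn (𝓘(ℝ, E).prod 𝓘(ℝ, V)) 𝓘(ℝ, E × V) ∞ Φ.symm (Ω ×ˢ univ)

/-- the metric of `M` is `w h + k` -/
def IsTw (w : N → ℝ) (Φ : M → N × F) : Prop :=
  ∀ (p : M) (v v' : TangentSpace 𝓘(ℝ, E × V) p),
    mfderiv 𝓘(ℝ, E × V) 𝓘(ℝ, V) (fun q => (Φ q).2) p v = 0 →
    inner ℝ v v' = w (Φ p).1 *
      inner ℝ (mfderiv 𝓘(ℝ, E × V) 𝓘(ℝ, E) (fun q => (Φ q).1) p v :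
          TangentSpace 𝓘(ℝ, E) (Φ p).1)
        (mfderiv 𝓘(ℝ, E × V) 𝓘(ℝ, E) (fun q => (Φ q).1) p v' :
          TangentSpace 𝓘(ℝ, E) (Φ p).1)

/-- The metric induced by `M` on the fibre over `x`, in the chart `e` of `F`. -/
def fibM (Ψ : N × F → M) (x : N) (e : OpenPartialHomeomorph F V) (z v v' : V) : ℝ :=
  inner ℝ (mfderiv 𝓘(ℝ, V) 𝓘(ℝ, E × V) (fun y => Ψ (x, e.symm y)) z v :
      TangentSpace 𝓘(ℝ, E × V) (Ψ (x, e.symm z)))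
    (mfderiv 𝓘(ℝ, V) 𝓘(ℝ, E × V) (fun y => Ψ (x, e.symm y)) z v' :
      TangentSpace 𝓘(ℝ, E × V) (Ψ (x, e.symm z)))

/-- product chart -/
def pch (Φ : OpenPartialHomeomorph M (N × F))
    (e : OpenPartialHomeomorph N E) (f : OpenPartialHomeomorph F V) :
    OpenPartialHomeomorph M (E × V) :=
  Φ.trans (e.prod f)

variable {Ω : Set N} {Φ : OpenPartialHomeomorph M (N × F)}
  {e : OpenPartialHomeomorph N E} {f : OpenPartialHomeomorph F V}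

omit [RiemannianBundle (fun x : N => TangentSpace 𝓘(ℝ, E) x)]
  [RiemannianBundle (fun x : M => TangentSpace 𝓘(ℝ, E × V) x)] in
theorem pch_symm (z : E × V) : (pch Φ e f).symm z = Φ.symm (e.symm z.1, f.symm z.2) := rfl

theorem pch_apply (p : M) : pch Φ e f p = (e (Φ p).1, f (Φ p).2) := rfl

theorem PD.symm_mem (hΦ : PD E V Ω Φ) {x : N} (hx : x ∈ Ω) (y : F) : (x, y) ∈ Φ.target := by
  rw [hΦ.tgt]; exact ⟨hx, mem_univ _⟩

theorem PD.right (hΦ : PD E V Ω Φ) {x : N} (hx : x ∈ Ω) (y : F) : Φ (Φ.symm (x, y)) = (x, y) :=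
  Φ.right_inv (hΦ.symm_mem hx y)

theorem PD.left (hΦ : PD E V Ω Φ) (p : M) : Φ.symm (Φ p) = p :=
  Φ.left_inv (by rw [hΦ.src]; exact mem_univ _)

theorem PD.mem (hΦ : PD E V Ω Φ) (p : M) : (Φ p).1 ∈ Ω := by
  have := Φ.map_source (x := p) (by rw [hΦ.src]; exact mem_univ _)
  rw [hΦ.tgt] at this
  exact this.1

theorem pch_target (hΦ : PD E V Ω Φ) (he : e.source ⊆ Ω) :
    (pch Φ e f).target = e.target ×ˢ f.target := by
  rw [pch, OpenPartialHomeomorph.trans_target]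
  ext z
  simp only [OpenPartialHomeomorph.prod_target, mem_inter_iff, mem_prod, mem_preimage]
  constructor
  · exact fun h => h.1
  · intro h
    refine ⟨h, ?_⟩
    exact hΦ.symm_mem (he (e.map_target h.1)) _

theorem pch_source (hΦ : PD E V Ω Φ) :
    (pch Φ e f).source = {p | (Φ p).1 ∈ e.source ∧ (Φ p).2 ∈ f.source} := by
  rw [pch, OpenPartialHomeomorph.trans_source, hΦ.src]
  ext p
  simp

theorem pch_mem (hΦ : PD E V Ω Φ) (heΩ : e.source ⊆ Ω) [IsManifold 𝓘(ℝ, E) ∞ N]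
    [IsManifold 𝓘(ℝ, V) ∞ F]
    [IsManifold 𝓘(ℝ, E × V) ∞ M] (he : e ∈ maximalAtlas 𝓘(ℝ, E) ∞ N)
    (hf : f ∈ maximalAtlas 𝓘(ℝ, V) ∞ F) : pch Φ e f ∈ maximalAtlas 𝓘(ℝ, E × V) ∞ M := by
  refine OpenPartialHomeomorph.mem_maximalAtlas_of_contMDiffOn _ ?_ ?_
  · have h1 : ContMDiffOn 𝓘(ℝ, E × V) 𝓘(ℝ, E) ∞ (fun p : M => e (Φ p).1) (pch Φ e f).source :=
      (contMDiffOn_of_mem_maximalAtlas he).comp (hΦ.sm.fst.contMDiffOn)
        (fun p hp => by rw [pch_source hΦ] at hp; exact hp.1)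
    have h2 : ContMDiffOn 𝓘(ℝ, E × V) 𝓘(ℝ, V) ∞ (fun p : M => f (Φ p).2) (pch Φ e f).source :=
      (contMDiffOn_of_mem_maximalAtlas hf).comp (hΦ.sm.snd.contMDiffOn)
        (fun p hp => by rw [pch_source hΦ] at hp; exact hp.2)
    exact h1.prodMk_space h2
  · rw [pch_target hΦ heΩ]
    have h1 : ContMDiffOn 𝓘(ℝ, E × V) 𝓘(ℝ, E) ∞ (fun z : E × V => e.symm z.1)
        (e.target ×ˢ f.target) :=
      (contMDiffOn_symm_of_mem_maximalAtlas he).comp contDiff_fst.contMDiff.contMDiffOn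
        (fun z hz => hz.1)
    have h2 : ContMDiffOn 𝓘(ℝ, E × V) 𝓘(ℝ, V) ∞ (fun z : E × V => f.symm z.2)
        (e.target ×ˢ f.target) :=
      (contMDiffOn_symm_of_mem_maximalAtlas hf).comp contDiff_snd.contMDiff.contMDiffOn
        (fun z hz => hz.2)
    exact hΦ.sms.comp (h1.prodMk h2) (fun z hz => ⟨heΩ (e.map_target hz.1), mem_univ _⟩)

theorem pch_ev (hΦ : PD E V Ω Φ) (heΩ : e.source ⊆ Ω) {z : E × V}
    (hz : z ∈ e.target ×ˢ f.target) :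
    ∀ᶠ y in 𝓝 z, Φ ((pch Φ e f).symm y) = (e.symm y.1, f.symm y.2) := by
  filter_upwards [(e.open_target.prod f.open_target).mem_nhds hz] with y hy
  rw [pch_symm]
  exact hΦ.right (heΩ (e.map_target hy.1)) _

theorem pch_d1 (hΦ : PD E V Ω Φ) (heΩ : e.source ⊆ Ω) [IsManifold 𝓘(ℝ, E) ∞ N]
    [IsManifold 𝓘(ℝ, V) ∞ F]
    [IsManifold 𝓘(ℝ, E × V) ∞ M] (he : e ∈ maximalAtlas 𝓘(ℝ, E) ∞ N)
    (hf : f ∈ maximalAtlas 𝓘(ℝ, V) ∞ F) {z : E × V} (hz : z ∈ e.target ×ˢ f.target) (v : E × V) :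
    (mfderiv 𝓘(ℝ, E × V) 𝓘(ℝ, E) (fun q => (Φ q).1) ((pch Φ e f).symm z)
      (mfderiv 𝓘(ℝ, E × V) 𝓘(ℝ, E × V) (pch Φ e f).symm z v) : E) =
      mfderiv 𝓘(ℝ, E) 𝓘(ℝ, E) e.symm z.1 v.1 := by
  have hz' : z ∈ (pch Φ e f).target := by rw [pch_target hΦ heΩ]; exact hz
  have hD : MDifferentiableAt 𝓘(ℝ, E × V) 𝓘(ℝ, E × V) (pch Φ e f).symm z :=
    ((contMDiffOn_symm_of_mem_maximalAtlas (pch_mem hΦ heΩ he hf)).contMDiffAt
      ((pch Φ e f).open_target.mem_nhds hz')).mdifferentiableAt (by simp)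
  have hΦ1 : MDifferentiableAt 𝓘(ℝ, E × V) 𝓘(ℝ, E) (fun q => (Φ q).1) ((pch Φ e f).symm z) :=
    ((hΦ.sm.fst) _).mdifferentiableAt (by simp)
  have k := mfderiv_comp z hΦ1 hD
  have hfst : MDifferentiableAt 𝓘(ℝ, E × V) 𝓘(ℝ, E) (Prod.fst : E × V → E) z :=
    differentiableAt_fst.mdifferentiableAt
  have hes : MDifferentiableAt 𝓘(ℝ, E) 𝓘(ℝ, E) e.symm z.1 :=
    ((contMDiffOn_symm_of_mem_maximalAtlas he).contMDiffAt
      (e.open_target.mem_nhds hz.1)).mdifferentiableAt (by simp)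
  have k2 := mfderiv_comp z hes hfst
  have k3 : ((fun q => (Φ q).1) ∘ (pch Φ e f).symm) =ᶠ[𝓝 z] (e.symm ∘ Prod.fst) := by
    filter_upwards [pch_ev hΦ heΩ hz] with y hy
    simp only [Function.comp]
    rw [hy]
  have k0 := k3.mfderiv_eq (I := 𝓘(ℝ, E × V)) (I' := 𝓘(ℝ, E))
  have k4 : (mfderiv 𝓘(ℝ, E × V) 𝓘(ℝ, E) ((fun q => (Φ q).1) ∘ (pch Φ e f).symm) z v : E) =
      (mfderiv 𝓘(ℝ, E × V) 𝓘(ℝ, E) (fun q => (Φ q).1) ((pch Φ e f).symm z)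
      (mfderiv 𝓘(ℝ, E × V) 𝓘(ℝ, E × V) (pch Φ e f).symm z v) : E) := congrArg (fun T => T v) k
  have k5 := congrArg (fun T => T v) k2
  have k6 : (mfderiv 𝓘(ℝ, E × V) 𝓘(ℝ, E) ((fun q => (Φ q).1) ∘ (pch Φ e f).symm) z v : E) =
      (mfderiv 𝓘(ℝ, E × V) 𝓘(ℝ, E) (e.symm ∘ Prod.fst) z v : E) := congrArg (fun T => T v) k0
  refine Eq.trans k4.symm (k6.trans ?_)
  refine Eq.trans k5 ?_
  rw [mfderiv_eq_fderiv (f := (Prod.fst : E × V → E))]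
  rw [fderiv_fst]
  rfl

theorem pch_d2' (hΦ : PD E V Ω Φ) (heΩ : e.source ⊆ Ω) [IsManifold 𝓘(ℝ, E) ∞ N]
    [IsManifold 𝓘(ℝ, V) ∞ F]
    [IsManifold 𝓘(ℝ, E × V) ∞ M] (he : e ∈ maximalAtlas 𝓘(ℝ, E) ∞ N)
    (hf : f ∈ maximalAtlas 𝓘(ℝ, V) ∞ F) {z : E × V} (hz : z ∈ e.target ×ˢ f.target) (v : E × V) :
    (mfderiv 𝓘(ℝ, E × V) 𝓘(ℝ, V) (fun q => (Φ q).2) ((pch Φ e f).symm z)
      (mfderiv 𝓘(ℝ, E × V) 𝓘(ℝ, E × V) (pch Φ e f).symm z v) : V) =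
      mfderiv 𝓘(ℝ, V) 𝓘(ℝ, V) f.symm z.2 v.2 := by
  have hz' : z ∈ (pch Φ e f).target := by rw [pch_target hΦ heΩ]; exact hz
  have hD : MDifferentiableAt 𝓘(ℝ, E × V) 𝓘(ℝ, E × V) (pch Φ e f).symm z :=
    ((contMDiffOn_symm_of_mem_maximalAtlas (pch_mem hΦ heΩ he hf)).contMDiffAt
      ((pch Φ e f).open_target.mem_nhds hz')).mdifferentiableAt (by simp)
  have hΦ2 : MDifferentiableAt 𝓘(ℝ, E × V) 𝓘(ℝ, V) (fun q => (Φ q).2) ((pch Φ e f).symm z) :=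
    ((hΦ.sm.snd) _).mdifferentiableAt (by simp)
  have k := mfderiv_comp z hΦ2 hD
  have hsnd : MDifferentiableAt 𝓘(ℝ, E × V) 𝓘(ℝ, V) (Prod.snd : E × V → V) z :=
    differentiableAt_snd.mdifferentiableAt
  have hfs : MDifferentiableAt 𝓘(ℝ, V) 𝓘(ℝ, V) f.symm z.2 :=
    ((contMDiffOn_symm_of_mem_maximalAtlas hf).contMDiffAt
      (f.open_target.mem_nhds hz.2)).mdifferentiableAt (by simp)
  have k2 := mfderiv_comp z hfs hsnd
  have k3 : ((fun q => (Φ q).2) ∘ (pch Φ e f).symm) =ᶠ[𝓝 z] (f.symm ∘ Prod.snd) := by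
    filter_upwards [pch_ev hΦ heΩ hz] with y hy
    simp only [Function.comp]
    rw [hy]
  have k0 := k3.mfderiv_eq (I := 𝓘(ℝ, E × V)) (I' := 𝓘(ℝ, V))
  have k4 : (mfderiv 𝓘(ℝ, E × V) 𝓘(ℝ, V) ((fun q => (Φ q).2) ∘ (pch Φ e f).symm) z v : V) =
      (mfderiv 𝓘(ℝ, E × V) 𝓘(ℝ, V) (fun q => (Φ q).2) ((pch Φ e f).symm z)
      (mfderiv 𝓘(ℝ, E × V) 𝓘(ℝ, E × V) (pch Φ e f).symm z v) : V) := congrArg (fun T => T v) k
  have k5 := congrArg (fun T => T v) k2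
  have k6 : (mfderiv 𝓘(ℝ, E × V) 𝓘(ℝ, V) ((fun q => (Φ q).2) ∘ (pch Φ e f).symm) z v : V) =
      (mfderiv 𝓘(ℝ, E × V) 𝓘(ℝ, V) (f.symm ∘ Prod.snd) z v : V) := congrArg (fun T => T v) k0
  refine Eq.trans k4.symm (k6.trans ?_)
  refine Eq.trans k5 ?_
  rw [mfderiv_eq_fderiv (f := (Prod.snd : E × V → V))]
  rw [fderiv_snd]
  rfl

theorem pch_d2 (hΦ : PD E V Ω Φ) (heΩ : e.source ⊆ Ω) [IsManifold 𝓘(ℝ, E) ∞ N]
    [IsManifold 𝓘(ℝ, V) ∞ F]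
    [IsManifold 𝓘(ℝ, E × V) ∞ M] (he : e ∈ maximalAtlas 𝓘(ℝ, E) ∞ N)
    (hf : f ∈ maximalAtlas 𝓘(ℝ, V) ∞ F) {z : E × V} (hz : z ∈ e.target ×ˢ f.target) (a : E) :
    (mfderiv 𝓘(ℝ, E × V) 𝓘(ℝ, V) (fun q => (Φ q).2) ((pch Φ e f).symm z)
      (mfderiv 𝓘(ℝ, E × V) 𝓘(ℝ, E × V) (pch Φ e f).symm z (a, 0)) : V) = 0 :=
  (pch_d2' hΦ heΩ he hf hz (a, 0)).trans (map_zero (mfderiv 𝓘(ℝ, V) 𝓘(ℝ, V) f.symm z.2))

/-- the metric of `N` at a point, on the model space; the first components -/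
theorem tw_inner {w : N → ℝ} (h : IsTw (E := E) (V := V) w Φ) {p : M} {x : N} (hx : (Φ p).1 = x)
    (v v' : E × V) (a a' : E)
    (h2 : mfderiv 𝓘(ℝ, E × V) 𝓘(ℝ, V) (fun q => (Φ q).2) p v = 0)
    (h1 : (mfderiv 𝓘(ℝ, E × V) 𝓘(ℝ, E) (fun q => (Φ q).1) p v : E) = a)
    (h1' : (mfderiv 𝓘(ℝ, E × V) 𝓘(ℝ, E) (fun q => (Φ q).1) p v' : E) = a') :
    innerAt (E := E × V) p v v' = w x * innerAt (E := E) x a a' := by
  subst hx
  subst h1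
  subst h1'
  exact h p v v' h2

/-- the metric in a product chart, one base vector -/
theorem chartG_pch (hΦ : PD E V Ω Φ) (heΩ : e.source ⊆ Ω) [IsManifold 𝓘(ℝ, E) ∞ N]
    [IsManifold 𝓘(ℝ, V) ∞ F]
    [IsManifold 𝓘(ℝ, E × V) ∞ M] {w : N → ℝ} (h : IsTw (E := E) (V := V) w Φ)
    (he : e ∈ maximalAtlas 𝓘(ℝ, E) ∞ N)
    (hf : f ∈ maximalAtlas 𝓘(ℝ, V) ∞ F) {z : E × V} (hz : z ∈ e.target ×ˢ f.target)
    (a : E) (v : E × V) :
    chartG (pch Φ e f) z (a, 0) v = w (e.symm z.1) * chartG e z.1 a v.1 := by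
  have h2 : (Φ ((pch Φ e f).symm z)).1 = e.symm z.1 := by
    rw [(pch_ev hΦ heΩ hz).self_of_nhds]
  exact tw_inner h h2 _ _ _ _ (pch_d2 hΦ heΩ he hf hz a) (pch_d1 hΦ heΩ he hf hz (a, 0))
    (pch_d1 hΦ heΩ he hf hz v)

/-- the metrics of the fibres -/
def kap (Φ : OpenPartialHomeomorph M (N × F))
    (e : OpenPartialHomeomorph N E) (f : OpenPartialHomeomorph F V) (z : E × V) :
    V →L[ℝ] V →L[ℝ] ℝ :=
  ContinuousLinearMap.bilinearComp (chartG (pch Φ e f) z) (ContinuousLinearMap.inr ℝ E V)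
    (ContinuousLinearMap.inr ℝ E V)

theorem kap_apply (z : E × V) (b b' : V) :
    kap Φ e f z b b' = chartG (pch Φ e f) z (0, b) (0, b') := rfl

theorem kap_symm (z : E × V) (b b' : V) : kap Φ e f z b b' = kap Φ e f z b' b := by
  rw [kap_apply, kap_apply]
  exact R2.H265.cgs _ _ _ _

theorem chartG_block (hΦ : PD E V Ω Φ) (heΩ : e.source ⊆ Ω) [IsManifold 𝓘(ℝ, E) ∞ N]
    [IsManifold 𝓘(ℝ, V) ∞ F]
    [IsManifold 𝓘(ℝ, E × V) ∞ M] {w : N → ℝ} (h : IsTw (E := E) (V := V) w Φ)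
    (he : e ∈ maximalAtlas 𝓘(ℝ, E) ∞ N)
    (hf : f ∈ maximalAtlas 𝓘(ℝ, V) ∞ F) {z : E × V} (hz : z ∈ e.target ×ˢ f.target)
    (v v' : E × V) :
    chartG (pch Φ e f) z v v' = w (e.symm z.1) * chartG e z.1 v.1 v'.1 +
      kap Φ e f z v.2 v'.2 := by
  have h1 : v = (v.1, 0) + (0, v.2) := by ext <;> simp
  have h1' : v' = (v'.1, 0) + (0, v'.2) := by ext <;> simp
  have h2 : chartG (pch Φ e f) z v v' =
      chartG (pch Φ e f) z (v.1, 0) v' + chartG (pch Φ e f) z (0, v.2) v' := by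
    conv_lhs => rw [h1]
    rw [map_add, _root_.add_apply]
  have h3 : chartG (pch Φ e f) z (0, v.2) v' = kap Φ e f z v.2 v'.2 := by
    conv_lhs => rw [h1']
    rw [map_add, kap_apply, R2.H265.cgs _ _ (0, v.2) (v'.1, 0), chartG_pch hΦ heΩ h he hf hz]
    simp
  rw [h2, h3, chartG_pch hΦ heΩ h he hf hz]

section smooth

variable [FiniteDimensional ℝ E] [FiniteDimensional ℝ V]
    [IsManifold 𝓘(ℝ, E) ∞ N] [IsManifold 𝓘(ℝ, V) ∞ F]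
    [IsManifold 𝓘(ℝ, E × V) ∞ M]
    [IsContMDiffRiemannianBundle 𝓘(ℝ, E × V) ∞ (E × V)
      (fun x : M => TangentSpace 𝓘(ℝ, E × V) x)]

theorem contDiffOn_kap (hΦ : PD E V Ω Φ) (heΩ : e.source ⊆ Ω)
    (he : e ∈ maximalAtlas 𝓘(ℝ, E) ∞ N)
    (hf : f ∈ maximalAtlas 𝓘(ℝ, V) ∞ F) :
    ContDiffOn ℝ ∞ (kap Φ e f) (e.target ×ˢ f.target) := by
  rw [contDiffOn_clm_apply]
  intro b
  rw [contDiffOn_clm_apply]
  intro b'
  have h := contDiffOn_chartMetric (pch_mem hΦ heΩ he hf) (0, b) (0, b')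
  rw [pch_target hΦ heΩ] at h
  exact h

theorem kap_pos (hΦ : PD E V Ω Φ) (heΩ : e.source ⊆ Ω) (he : e ∈ maximalAtlas 𝓘(ℝ, E) ∞ N)
    (hf : f ∈ maximalAtlas 𝓘(ℝ, V) ∞ F) {z : E × V} (hz : z ∈ e.target ×ˢ f.target) (v : V)
    (hv : v ≠ 0) : 0 < kap Φ e f z v v := by
  rw [kap_apply]
  refine chartG_pos (pch_mem hΦ heΩ he hf) (by rw [pch_target hΦ heΩ]; exact hz) (0, v) ?_
  intro h
  exact hv (congrArg Prod.snd h)

theorem localRiem_kap (hΦ : PD E V Ω Φ) (heΩ : e.source ⊆ Ω)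
    (he : e ∈ maximalAtlas 𝓘(ℝ, E) ∞ N)
    (hf : f ∈ maximalAtlas 𝓘(ℝ, V) ∞ F) {z : E}
    (hz : z ∈ e.target) : LocalRiem (fun v => kap Φ e f (z, v)) f.target := by
  have h1 : ContDiffOn ℝ ∞ (fun v : V => (z, v)) f.target :=
    (contDiff_prodMk_right z).contDiffOn
  have h2 : ContDiffOn ℝ ∞ (fun v => kap Φ e f (z, v)) f.target :=
    (contDiffOn_kap hΦ heΩ he hf).comp h1 (fun v hv => ⟨hz, hv⟩)
  exact ⟨f.open_target, h2, fun y hy v v' => kap_symm _ _ _,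
    fun y hy v hv => kap_pos hΦ heΩ he hf ⟨hz, hy⟩ v hv⟩

theorem locFam_kap (hΦ : PD E V Ω Φ) (heΩ : e.source ⊆ Ω) (he : e ∈ maximalAtlas 𝓘(ℝ, E) ∞ N)
    (hf : f ∈ maximalAtlas 𝓘(ℝ, V) ∞ F) {y : V}
    (hy : y ∈ f.target) : R2.H265.LocFam (fun z => kap Φ e f (z, y)) e.target := by
  have h1 : ContDiffOn ℝ ∞ (fun z : E => (z, y)) e.target :=
    (contDiff_prodMk_left y).contDiffOn
  have h2 : ContDiffOn ℝ ∞ (fun z => kap Φ e f (z, y)) e.target :=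
    (contDiffOn_kap hΦ heΩ he hf).comp h1 (fun z hz => ⟨hz, hy⟩)
  exact ⟨e.open_target, h2, fun z hz v v' => kap_symm _ _ _,
    fun z hz v hv => kap_pos hΦ heΩ he hf ⟨hz, hy⟩ v hv⟩

end smooth

/-- the metrics of the fibres in product charts -/
theorem fibM_eq (hΦ : PD E V Ω Φ) (heΩ : e.source ⊆ Ω) [IsManifold 𝓘(ℝ, E) ∞ N]
    [IsManifold 𝓘(ℝ, V) ∞ F]
    [IsManifold 𝓘(ℝ, E × V) ∞ M] (he : e ∈ maximalAtlas 𝓘(ℝ, E) ∞ N)
    (hf : f ∈ maximalAtlas 𝓘(ℝ, V) ∞ F) {z : E} (hz : z ∈ e.target) {y : V}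
    (hy : y ∈ f.target) (b b' : V) :
    fibM (E := E) Φ.symm (e.symm z) f y b b' = kap Φ e f (z, y) b b' := by
  have hD : MDifferentiableAt 𝓘(ℝ, E × V) 𝓘(ℝ, E × V) (pch Φ e f).symm (z, y) :=
    ((contMDiffOn_symm_of_mem_maximalAtlas (pch_mem hΦ heΩ he hf)).contMDiffAt
      ((pch Φ e f).open_target.mem_nhds (by
        rw [pch_target hΦ heΩ]; exact ⟨hz, hy⟩))).mdifferentiableAt (by simp)
  have hι : MDifferentiableAt 𝓘(ℝ, V) 𝓘(ℝ, E × V) (fun t : V => (z, t)) y :=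
    (hasFDerivAt_prodMk_right z y).differentiableAt.mdifferentiableAt
  have k := mfderiv_comp y hD hι
  have k2 : ∀ v : V, (mfderiv 𝓘(ℝ, V) 𝓘(ℝ, E × V) (fun t => Φ.symm (e.symm z, f.symm t)) y v :
      E × V) = mfderiv 𝓘(ℝ, E × V) 𝓘(ℝ, E × V) (pch Φ e f).symm (z, y) ((0, v) : E × V) := by
    intro v
    have k3 := congrArg (fun T => T v) k
    refine Eq.trans k3 ?_
    rw [mfderiv_eq_fderiv (f := (fun t : V => (z, t)))]
    have k4 : fderiv ℝ (fun t : V => (z, t)) y = ContinuousLinearMap.inr ℝ E V :=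
      (hasFDerivAt_prodMk_right z y).fderiv
    rw [k4]
    rfl
  have k5 : fibM (E := E) Φ.symm (e.symm z) f y b b' =
      innerAt (E := E × V) (Φ.symm (e.symm z, f.symm y))
      (mfderiv 𝓘(ℝ, V) 𝓘(ℝ, E × V) (fun t => Φ.symm (e.symm z, f.symm t)) y b)
      (mfderiv 𝓘(ℝ, V) 𝓘(ℝ, E × V) (fun t => Φ.symm (e.symm z, f.symm t)) y b') := rfl
  rw [k5, k2, k2]
  rfl

end Vale.Agent.P210.Cw.Om
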