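import Vale.Agent.P210.Cx.Fin
import Vale.Agent.P210.R2.H53.TwFin

open scoped Manifold ContDiff Topology
open Bundle IsManifold Set

set_option maxSynthPendingDepth 3
set_option linter.all false

noncomputable section

namespace Vale.Agent.P210.Cw.Om

open Vale.Agent.P210.R2.H53

variable {E : Type} [NormedAddCommGroup E] [NormedSpace ℝ E] [FiniteDimensional ℝ E]
  {V : Type} [NormedAddCommGroup V] [NormedSpace ℝ V] [FiniteDimensional ℝ V]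
  {N : Type} [MetricSpace N] [ChartedSpace E N]
  [RiemannianBundle (fun x : N => TangentSpace 𝓘(ℝ, E) x)] [IsManifold 𝓘(ℝ, E) ∞ N]
  {F : Type} [TopologicalSpace F] [ChartedSpace V F] [IsManifold 𝓘(ℝ, V) ∞ F]
  {M : Type} [MetricSpace M] [ChartedSpace (E × V) M]
  [RiemannianBundle (fun x : M => TangentSpace 𝓘(ℝ, E × V) x)] [IsManifold 𝓘(ℝ, E × V) ∞ M]
  {Φ : OpenPartialHomeomorph M (N × F)} {Ω : Set N}

theorem isTw_of (hΩ : IsOpen Ω) (hΦ : PD E V Ω Φ) {w : N → ℝ}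
    (h : IsTwistedProductOn E V Ω w Φ.symm) : IsTw (E := E) (V := V) w Φ := by
  have aux : ∀ e₀ ∈ atlas E N, ∀ f ∈ atlas V F, ∀ z ∈ (e₀.restr Ω).target ×ˢ f.target,
      ∀ p : M, (pch Φ (e₀.restr Ω) f).symm z = p → ∀ v v' : TangentSpace 𝓘(ℝ, E × V) p,
      mfderiv 𝓘(ℝ, E × V) 𝓘(ℝ, V) (fun q => (Φ q).2) p v = 0 →
      inner ℝ v v' = w (Φ p).1 *
      inner ℝ (mfderiv 𝓘(ℝ, E × V) 𝓘(ℝ, E) (fun q => (Φ q).1) p v :
          TangentSpace 𝓘(ℝ, E) (Φ p).1)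
        (mfderiv 𝓘(ℝ, E × V) 𝓘(ℝ, E) (fun q => (Φ q).1) p v' :
          TangentSpace 𝓘(ℝ, E) (Φ p).1) := by
    rintro e₀ he₀ f hf z hz p rfl v v' hv
    have he' : e₀.restr Ω ∈ maximalAtlas 𝓘(ℝ, E) ∞ N :=
      restr_mem_maximalAtlas (contDiffGroupoid ∞ 𝓘(ℝ, E)) (subset_maximalAtlas he₀) hΩ
    have hes : (e₀.restr Ω).source = e₀.source ∩ Ω := e₀.restr_source' Ω hΩ
    have heΩ : (e₀.restr Ω).source ⊆ Ω := by rw [hes]; exact inter_subset_right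
    have hf' : f ∈ maximalAtlas 𝓘(ℝ, V) ∞ F := subset_maximalAtlas hf
    have hz' : z ∈ (pch Φ (e₀.restr Ω) f).target := by rw [pch_target hΦ heΩ]; exact hz
    have hz1 : (e₀.restr Ω).symm z.1 ∈ (e₀.restr Ω).source := (e₀.restr Ω).map_target hz.1
    have hz0 : z.1 ∈ e₀.target := hz.1.1
    have hsurj : ∀ v : E × V, ∃ u : E × V,
        (mfderiv 𝓘(ℝ, E × V) 𝓘(ℝ, E × V) (pch Φ (e₀.restr Ω) f).symm z u : E × V) = v := by
      set D : E × V →L[ℝ] E × V := mfderiv 𝓘(ℝ, E × V) 𝓘(ℝ, E × V) (pch Φ (e₀.restr Ω) f).symm z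
      exact (LinearMap.injective_iff_surjective (f := (D : E × V →ₗ[ℝ] E × V))).1
        fun a b hab => symm_inj (pch_mem hΦ heΩ he' hf') hz' a b hab
    obtain ⟨u, hu⟩ := hsurj v
    obtain ⟨u', hu'⟩ := hsurj v'
    subst hu
    subst hu'
    have h2 : u.2 = 0 := by
      have h3 := (pch_d2' hΦ heΩ he' hf' hz u).symm.trans hv
      exact symm_inj hf' hz.2 _ _ (h3.trans (map_zero (mfderiv 𝓘(ℝ, V) 𝓘(ℝ, V) f.symm z.2)).symm)
    have h4 := h e₀ he₀ f hf z.1 hz0 (heΩ hz1) z.2 hz.2 u.1 u'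
    have h5 : (u.1, (0 : V)) = u := by rw [← h2]
    rw [h5] at h4
    have hx : (Φ ((pch Φ (e₀.restr Ω) f).symm z)).1 = (e₀.restr Ω).symm z.1 := by
      rw [(pch_ev hΦ heΩ hz).self_of_nhds]
    have key : ∀ x : N, x = (e₀.restr Ω).symm z.1 → ∀ a a' : E,
        a = mfderiv 𝓘(ℝ, E) 𝓘(ℝ, E) (e₀.restr Ω).symm z.1 u.1 →
        a' = mfderiv 𝓘(ℝ, E) 𝓘(ℝ, E) (e₀.restr Ω).symm z.1 u'.1 →
        innerAt (E := E × V) ((pch Φ (e₀.restr Ω) f).symm z)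
          (mfderiv 𝓘(ℝ, E × V) 𝓘(ℝ, E × V) (pch Φ (e₀.restr Ω) f).symm z u)
          (mfderiv 𝓘(ℝ, E × V) 𝓘(ℝ, E × V) (pch Φ (e₀.restr Ω) f).symm z u') =
        w x * innerAt (E := E) x a a' := by
      rintro x rfl a a' rfl rfl
      exact h4
    exact key _ hx _ _ (pch_d1 hΦ heΩ he' hf' hz u) (pch_d1 hΦ heΩ he' hf' hz u')
  intro p v v' hv
  have hp := hΦ.mem p
  have hs : ((chartAt E (Φ p).1).restr Ω).source = (chartAt E (Φ p).1).source ∩ Ω :=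
    (chartAt E (Φ p).1).restr_source' Ω hΩ
  refine aux (chartAt E (Φ p).1) (chart_mem_atlas _ _) (chartAt V (Φ p).2) (chart_mem_atlas _ _)
    (pch Φ ((chartAt E (Φ p).1).restr Ω) (chartAt V (Φ p).2) p) ?_ p ?_ v v' hv
  · rw [pch_apply]
    exact ⟨((chartAt E (Φ p).1).restr Ω).map_source (by rw [hs]; exact ⟨mem_chart_source _ _, hp⟩),
      (chartAt V (Φ p).2).map_source (mem_chart_source _ _)⟩
  · refine (pch Φ ((chartAt E (Φ p).1).restr Ω) (chartAt V (Φ p).2)).left_inv ?_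
    rw [pch_source hΦ]
    exact ⟨by rw [hs]; exact ⟨mem_chart_source _ _, hp⟩, mem_chart_source _ _⟩

end Vale.Agent.P210.Cw.Om
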