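import Vale.Agent.P210.Cx.Tw
import Vale.Agent.P210.Cx.Mfd
import Vale.Agent.P210.Cx.Defs
import Vale.Agent.P210.R2.H465.SfU

/-!
# Twisted products over open subsets: the pointwise inequality
-/

open scoped Manifold ContDiff Topology Bundle ENNReal NNReal
open Set Metric Filter Bundle IsManifold MeasureTheory Manifold Asymptotics

set_option maxSynthPendingDepth 3
set_option linter.all false

noncomputable section

namespace Vale.Agent.P210.Cw.Om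

open Vale.Agent.P210.R2 Vale.Agent.P210.R2.H53 Vale.Agent.P210.R2.H973 Vale.Agent.P210.R2.H265

variable {E : Type} [NormedAddCommGroup E] [NormedSpace ℝ E]
  {V : Type} [NormedAddCommGroup V] [NormedSpace ℝ V]
  {N : Type} [MetricSpace N] [ChartedSpace E N]
  [RiemannianBundle (fun x : N => TangentSpace 𝓘(ℝ, E) x)]
  {F : Type} [TopologicalSpace F] [ChartedSpace V F]
  {M : Type} [MetricSpace M] [ChartedSpace (E × V) M]
  [RiemannianBundle (fun x : M => TangentSpace 𝓘(ℝ, E × V) x)]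

/-- the logarithm of the density of the fibres along a point of `F` -/
def phO (E : Type) [NormedAddCommGroup E] [NormedSpace ℝ E]
    {V : Type} [NormedAddCommGroup V] [NormedSpace ℝ V] {N F M : Type}
    [TopologicalSpace F] [ChartedSpace V F] [MetricSpace M] [ChartedSpace (E × V) M]
    [RiemannianBundle (fun x : M => TangentSpace 𝓘(ℝ, E × V) x)]
    (Ψ : N × F → M)
    (f : OpenPartialHomeomorph F V) (y : V) (β : Module.Basis (Fin (Module.finrank ℝ V)) ℝ V)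
    (x : N) : ℝ :=
  1 / 2 * Real.log (Matrix.det (Matrix.of fun i j => fibM (E := E) Ψ x f y (β i) (β j)))

variable {Ω : Set N} {Φ : OpenPartialHomeomorph M (N × F)}
  {e : OpenPartialHomeomorph N E} {f : OpenPartialHomeomorph F V}
  {β : Module.Basis (Fin (Module.finrank ℝ V)) ℝ V}

theorem phO_chart (hΦ : PD E V Ω Φ) (heΩ : e.source ⊆ Ω) [IsManifold 𝓘(ℝ, E) ∞ N]
    [IsManifold 𝓘(ℝ, V) ∞ F]
    [IsManifold 𝓘(ℝ, E × V) ∞ M] (he : e ∈ maximalAtlas 𝓘(ℝ, E) ∞ N)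
    (hf : f ∈ maximalAtlas 𝓘(ℝ, V) ∞ F) {z : E} (hz : z ∈ e.target) {y : V}
    (hy : y ∈ f.target) :
    phO E Φ.symm f y β (e.symm z) = logd β (fun z => kap Φ e f (z, y)) z := by
  rw [phO, logd, gramc]
  congr 3
  ext i j
  rw [Matrix.of_apply, Matrix.of_apply, fibM_eq hΦ heΩ he hf hz hy]

/-- the chart at a point of `Ω`, restricted to `Ω` -/
def chO (E : Type) [NormedAddCommGroup E] [NormedSpace ℝ E] {N : Type} [MetricSpace N]
    [ChartedSpace E N] (Ω : Set N) (p : N) : OpenPartialHomeomorph N E := (chartAt E p).restr Ω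

omit [RiemannianBundle (fun x : N => TangentSpace 𝓘(ℝ, E) x)] in
theorem chO_mem [IsManifold 𝓘(ℝ, E) ∞ N] (hΩ : IsOpen Ω) (p : N) :
    chO E Ω p ∈ maximalAtlas 𝓘(ℝ, E) ∞ N :=
  restr_mem_maximalAtlas (contDiffGroupoid ∞ 𝓘(ℝ, E)) (chart_mem_maximalAtlas p) hΩ

omit [RiemannianBundle (fun x : N => TangentSpace 𝓘(ℝ, E) x)] in
theorem chO_source (hΩ : IsOpen Ω) (p : N) :
    (chO E Ω p).source = (chartAt E p).source ∩ Ω :=
  (chartAt E p).restr_source' Ω hΩ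

omit [RiemannianBundle (fun x : N => TangentSpace 𝓘(ℝ, E) x)] in
theorem chO_sub (hΩ : IsOpen Ω) (p : N) : (chO E Ω p).source ⊆ Ω := by
  rw [chO_source hΩ]
  exact inter_subset_right

omit [RiemannianBundle (fun x : N => TangentSpace 𝓘(ℝ, E) x)] in
theorem mem_chO (hΩ : IsOpen Ω) {p : N} (hp : p ∈ Ω) : p ∈ (chO E Ω p).source := by
  rw [chO_source hΩ]
  exact ⟨mem_chart_source E p, hp⟩

variable [FiniteDimensional ℝ E] [FiniteDimensional ℝ V]
    [IsManifold 𝓘(ℝ, E) ∞ N] [IsManifold 𝓘(ℝ, V) ∞ F]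
    [IsManifold 𝓘(ℝ, E × V) ∞ M]
    [IsContMDiffRiemannianBundle 𝓘(ℝ, E × V) ∞ (E × V)
      (fun x : M => TangentSpace 𝓘(ℝ, E × V) x)]

theorem contMDiffOn_phO (hΦ : PD E V Ω Φ) (hΩ : IsOpen Ω)
    (hf : f ∈ maximalAtlas 𝓘(ℝ, V) ∞ F) {y : V} (hy : y ∈ f.target) :
    ContMDiffOn 𝓘(ℝ, E) 𝓘(ℝ, ℝ) ∞ (phO E Φ.symm f y β) Ω := by
  intro p hp
  apply ContMDiffAt.contMDiffWithinAt
  set e := chO E Ω p with hed
  have he : e ∈ maximalAtlas 𝓘(ℝ, E) ∞ N := chO_mem hΩ p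
  have heΩ : e.source ⊆ Ω := chO_sub hΩ p
  have h1 : ContMDiffOn 𝓘(ℝ, E) 𝓘(ℝ, ℝ) ∞ (logd β (fun z => kap Φ e f (z, y)) ∘ e) e.source :=
    (contMDiffOn_iff_contDiffOn.2 (contDiffOn_logd (locFam_kap hΦ heΩ he hf hy) β)).comp
      (contMDiffOn_of_mem_maximalAtlas he) (fun q hq => e.map_source hq)
  refine (h1.congr (fun q hq => ?_)).contMDiffAt (e.open_source.mem_nhds (mem_chO hΩ hp))
  rw [Function.comp, ← phO_chart hΦ heΩ he hf (e.map_source hq) hy, e.left_inv hq]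

variable [IsContMDiffRiemannianBundle 𝓘(ℝ, E) ∞ E (fun x : N => TangentSpace 𝓘(ℝ, E) x)]

theorem contDiffOn_chO {u : N → ℝ} (hΩ : IsOpen Ω) (hu : ContMDiffOn 𝓘(ℝ, E) 𝓘(ℝ, ℝ) ∞ u Ω)
    (he : e ∈ maximalAtlas 𝓘(ℝ, E) ∞ N) (heΩ : e.source ⊆ Ω) :
    ContDiffOn ℝ ∞ (u ∘ e.symm) e.target := by
  rw [← contMDiffOn_iff_contDiffOn]
  exact hu.comp (contMDiffOn_symm_of_mem_maximalAtlas he) (fun z hz => heΩ (e.map_target hz))

/-- the densities of the fibres -/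
theorem phO_eq (Ψ : N × F → M) (y : F) (x : N) :
    phO E Ψ (chartAt V y) (chartAt V y y) (Module.finBasis ℝ V) x =
      1 / 2 * Real.log (densSq (fibM (E := E) Ψ x (chartAt V y)) (chartAt V y y)) := rfl

theorem densSq_pos (hΦ : PD E V Ω Φ) (hΩ : IsOpen Ω) {x : N} (hx : x ∈ Ω) (y : F) :
    0 < densSq (fibM (E := E) Φ.symm x (chartAt V y)) (chartAt V y y) := by
  set e := chO E Ω x with hed
  have he : e ∈ maximalAtlas 𝓘(ℝ, E) ∞ N := chO_mem hΩ x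
  have heΩ : e.source ⊆ Ω := chO_sub hΩ x
  have hxe : x ∈ e.source := mem_chO hΩ hx
  have hz : e x ∈ e.target := e.map_source hxe
  have hf := chart_mem_maximalAtlas (I := 𝓘(ℝ, V)) (n := ∞) y
  have hy := mem_chart_target V y
  have hκ := localRiem_kap hΦ heΩ he hf hz
  have h1 := det_gramc_pos (Module.finBasis ℝ V) (hκ.symm _ hy) (hκ.pos _ hy)
  have h2 : densSq (fibM (E := E) Φ.symm x (chartAt V y)) (chartAt V y y) =
      (gramc (Module.finBasis ℝ V) (kap Φ e (chartAt V y) (e x, chartAt V y y))).det := by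
    rw [densSq, gramc]
    congr 2
    ext i j
    have h3 := fibM_eq hΦ heΩ he hf hz hy (Module.finBasis ℝ V i) (Module.finBasis ℝ V j)
    rw [e.left_inv hxe] at h3
    exact h3
  rw [h2]
  exact h1

theorem gam_shift1 {f g : E → ℝ} {c : ℝ} {U : Set E} (h : E → E →L[ℝ] E →L[ℝ] ℝ) (hU : IsOpen U)
    (hfg : ∀ z ∈ U, f z = g z + c) (a : E → ℝ) {z : E} (hz : z ∈ U) :
    gamG h f a z = gamG h g a z := by
  rw [gamG, gamG, fd_shift hU hfg hz]

/-- the scalar curvature of twisted products at a point -/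
theorem tw_pt (hΦ : PD E V Ω Φ) (hΩ : IsOpen Ω) {w : N → ℝ}
    (hw : ContMDiffOn 𝓘(ℝ, E) 𝓘(ℝ, ℝ) ∞ w Ω) (hw0 : ∀ x ∈ Ω, 0 < w x)
    (hT : IsTw (E := E) (V := V) w Φ) (hn : 1 ≤ Module.finrank ℝ E)
    (hS : ScalGE (E × V) M 1) {Y : Set F}
    (hY : PropOn Ω (fun x y => fibM (E := E) Φ.symm x (chartAt V y)) (fun y => chartAt V y y) Y)
    {y0 y1 : F} (hy0 : y0 ∈ Y) (hy1 : y1 ∈ Y) {s c : ℝ} (hc : 0 < c) {p : N} (hp : p ∈ Ω)
    (hfib : (Module.finrank ℝ V ≤ 1 ∧ 0 ≤ s) ∨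
      ScalLEAt (fibM (E := E) Φ.symm p (chartAt V y1)) (chartAt V y1 y1) s)
    {b : Module.Basis (Fin (Module.finrank ℝ E)) ℝ E}
    (hb : ∀ i j, chartG (chartAt E p) (chartAt E p p) (b i) (b j) = if i = j then 1 else 0) :
    TwS E (Module.finrank ℝ E) (fun x => w x * (1 - s)) (fun x => Real.log (c * w x) / 2)
      (phO E Φ.symm (chartAt V y0) (chartAt V y0 y0) (Module.finBasis ℝ V)) p ≤
      ∑ i, ∑ j, secG (chartG (chartAt E p)) (chartAt E p p) (b i) (b j) := by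
  set f : OpenPartialHomeomorph F V := chartAt V y1 with hfd
  have hf : f ∈ maximalAtlas 𝓘(ℝ, V) ∞ F := chart_mem_maximalAtlas y1
  set y : V := chartAt V y1 y1 with hyd
  have hy : y ∈ f.target := mem_chart_target V y1
  set β := Module.finBasis ℝ V with hβ
  set e := chO E Ω p with hed
  have he : e ∈ maximalAtlas 𝓘(ℝ, E) ∞ N := chO_mem hΩ p
  have heΩ : e.source ⊆ Ω := chO_sub hΩ p
  have hpe : p ∈ e.source := mem_chO hΩ hp
  set z : E := e p with hzd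
  have hz : z ∈ e.target := e.map_source hpe
  have hezp : e.symm z = p := e.left_inv hpe
  have hR : LocalRiem (chartG e) e.target := ⟨e.open_target, contDiffOn_chartG he,
    fun z _ v w => chartG_symm e z v w, fun z hz v hv => chartG_pos he hz v hv⟩
  have hzy : ((z, y) : E × V) ∈ e.target ×ˢ f.target := ⟨hz, hy⟩
  have hr : ContDiffOn ℝ ∞ (w ∘ e.symm) e.target := contDiffOn_chO hΩ hw he heΩ
  -- bases
  have hκ := localRiem_kap hΦ heΩ he hf hz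
  have hκF := locFam_kap hΦ heΩ he hf hy
  have hpc := pch_mem hΦ heΩ he hf
  have hzy' : ((z, y) : E × V) ∈ (pch Φ e f).target := by rw [pch_target hΦ heΩ]; exact hzy
  obtain ⟨bV, hbV⟩ := exists_onb (kap Φ e f (z, y)) (hκ.symm y hy) (hκ.pos y hy)
  obtain ⟨bb, hbb⟩ := exists_onb (chartG (pch Φ e f) (z, y)) (fun v v' => cgs _ _ _ _)
    (fun v hv => chartG_pos hpc hzy' v hv)
  have hb' : ∀ i j, chartG e z (b i) (b j) = if i = j then 1 else 0 := hb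
  -- the curvature of the fibre
  have hfibre : ∑ i, ∑ j, secG (fun v => kap Φ e f (z, v)) y (bV i) (bV j) ≤ s := by
    rcases hfib with ⟨h1, h1'⟩ | h1
    · have : Subsingleton (Fin (Module.finrank ℝ V)) := Fin.subsingleton_iff_le_one.2 h1
      have h2 : ∑ i, ∑ j, secG (fun v => kap Φ e f (z, v)) y (bV i) (bV j) = 0 :=
        Finset.sum_eq_zero fun i _ => Finset.sum_eq_zero fun j _ => by
          rw [Subsingleton.elim j i, H329.secG_self]
      rw [h2]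
      exact h1'
    · rw [← hezp] at h1
      exact scalLE_of hκ (fun y' hy' v v' => fibM_eq hΦ heΩ he hf hz hy' v v') hy h1 hbV
  -- the scalar curvature of the product
  have hscal : 1 ≤ ∑ i, ∑ j, secG (chartG (pch Φ e f)) (z, y) (bb i) (bb j) := by
    obtain ⟨Γ', hΓ', h1⟩ := hS (pch Φ e f) hpc (z, y) hzy'
    refine (h1 bb hbb).trans (le_of_eq ?_)
    exact Finset.sum_congr rfl fun i _ => Finset.sum_congr rfl fun j _ =>
      sectNum_eq hpc hzy' hΓ' _ _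
  -- the flat inequality
  set n : ℝ := (Module.finrank ℝ E : ℝ) with hnd
  set a : E → ℝ := (fun q : N => Real.log (w q) / 2) ∘ e.symm with had
  set φ : E → ℝ := logd bV (fun z => kap Φ e f (z, y)) with hφd
  have hflat := twflat E V e.target f.target (chartG e) (w ∘ e.symm) a φ (kap Φ e f)
    (chartG (pch Φ e f)) z y n b bV bb hn rfl f.open_target hz hy hR hr
    (fun z hz => hw0 _ (heΩ (e.map_target hz)))
    (fun z _ => rfl) (fun z hz => localRiem_kap hΦ heΩ he hf hz) (contDiffOn_kap hΦ heΩ he hf)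
    (fun z' hz' => by rw [hφd, logd, gramc]; ring)
    (fun z' hz' v v' => chartG_block hΦ heΩ hT he hf hz' v v') hb' hbV hbb
  -- the constants
  set φ₀ : N → ℝ := phO E Φ.symm (chartAt V y0) (chartAt V y0 y0) β with hφ₀
  set a₀ : N → ℝ := fun x => Real.log (c * w x) / 2 with ha₀
  set d : F → ℝ := fun y => 1 / 2 * Real.log (densSq (fibM (E := E) Φ.symm p (chartAt V y))
    (chartAt V y y)) with hdd
  have hcst : ∀ x ∈ Ω, phO E Φ.symm f y β x = φ₀ x + (d y1 - d y0) := by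
    intro x hx
    have h1 := congrArg Real.log (hY y1 hy1 y0 hy0 x hx p hp)
    rw [Real.log_mul (densSq_pos hΦ hΩ hx _).ne' (densSq_pos hΦ hΩ hp _).ne',
      Real.log_mul (densSq_pos hΦ hΩ hp _).ne' (densSq_pos hΦ hΩ hx _).ne'] at h1
    rw [hfd, hyd, hφ₀, phO_eq, phO_eq, hdd]
    simp only
    linarith only [h1]
  have hshift : ∀ z' ∈ e.target, φ z' = (φ₀ ∘ e.symm) z' +
      ((d y1 - d y0) + Real.log |(β.toMatrix bV).det|) := by
    intro z' hz'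
    rw [hφd, logd_change hκF β bV hz', Function.comp, ← phO_chart hΦ heΩ he hf hz' hy,
      hcst _ (heΩ (e.map_target hz'))]
    ring
  have hsha : ∀ z' ∈ e.target, a z' = (a₀ ∘ e.symm) z' + (-(Real.log c / 2)) := by
    intro z' hz'
    have h1 := hw0 _ (heΩ (e.map_target hz'))
    simp only [had, ha₀, Function.comp]
    rw [Real.log_mul hc.ne' h1.ne']
    ring
  have hshift2 : ∀ z' ∈ e.target, (n - 1) * a z' + φ z' =
      ((fun q => (n - 1) * a₀ q + φ₀ q) ∘ e.symm) z' +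
      ((n - 1) * (-(Real.log c / 2)) + ((d y1 - d y0) + Real.log |(β.toMatrix bV).det|)) := by
    intro z' hz'
    rw [hshift z' hz', hsha z' hz']
    simp only [Function.comp]
    ring
  rw [lap_shift _ e.open_target hshift2 hz, gam_shift _ e.open_target hshift a hz,
    gam_shift2 _ e.open_target hshift hz, gam_shift2 _ e.open_target hsha hz,
    gam_shift1 _ e.open_target hsha _ hz] at hflat
  have hw' : 0 < w p := hw0 _ hp
  have hwz : (w ∘ e.symm) z = w p := by rw [Function.comp, hezp]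
  rw [hwz] at hflat
  have h3 : 1 - s ≤ (w p)⁻¹ * (∑ i, ∑ j, secG (chartG e) z (b i) (b j) -
      2 * lapG (chartG e) ((fun q => (n - 1) * a₀ q + φ₀ q) ∘ e.symm) z
      - (n - 1) * (n - 2) * gamG (chartG e) (a₀ ∘ e.symm) (a₀ ∘ e.symm) z
      - 2 * (n - 2) * gamG (chartG e) (a₀ ∘ e.symm) (φ₀ ∘ e.symm) z
      - gamG (chartG e) (φ₀ ∘ e.symm) (φ₀ ∘ e.symm) z) := by
    linarith only [hflat, hfibre, hscal]
  have h4 := mul_le_mul_of_nonneg_left h3 hw'.le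
  rw [← mul_assoc, mul_inv_cancel₀ hw'.ne', one_mul] at h4
  have e1 : Lap E (fun q => (n - 1) * a₀ q + φ₀ q) p =
      lapG (chartG e) ((fun q => (n - 1) * a₀ q + φ₀ q) ∘ e.symm) z := rfl
  have e2 : Gam E a₀ a₀ p = gamG (chartG e) (a₀ ∘ e.symm) (a₀ ∘ e.symm) z := rfl
  have e3 : Gam E a₀ φ₀ p = gamG (chartG e) (a₀ ∘ e.symm) (φ₀ ∘ e.symm) z := rfl
  have e4 : Gam E φ₀ φ₀ p = gamG (chartG e) (φ₀ ∘ e.symm) (φ₀ ∘ e.symm) z := rfl
  have e5 : ∑ i, ∑ j, secG (chartG (chartAt E p)) (chartAt E p p) (b i) (b j) =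
    ∑ i, ∑ j, secG (chartG e) z (b i) (b j) := rfl
  rw [TwS, e1, e2, e3, e4, e5]
  linarith only [h4]

/-- convexity -/
theorem convex_tw (hΩ : IsOpen Ω) {a : N → ℝ} (ha : ContMDiffOn 𝓘(ℝ, E) 𝓘(ℝ, ℝ) ∞ a Ω) {p : N}
    (hp : p ∈ Ω) (n : ℕ) :
    Convex ℝ {q : (N → ℝ) × ℝ | ContMDiffOn 𝓘(ℝ, E) 𝓘(ℝ, ℝ) ∞ q.1 Ω ∧
      TwS E n (fun _ => 0) a q.1 p ≤ q.2} := by
  rintro ⟨φ, T⟩ ⟨h1, h2⟩ ⟨φ', T'⟩ ⟨h1', h2'⟩ α γ hα hγ hαγ
  have e1 : (α • ((φ, T) : (N → ℝ) × ℝ) + γ • ((φ', T') : (N → ℝ) × ℝ)) =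
      (fun p => α * φ p + γ * φ' p, α * T + γ * T') := rfl
  rw [e1]
  have hsm : ∀ (α γ : ℝ) (φ φ' : N → ℝ), ContMDiffOn 𝓘(ℝ, E) 𝓘(ℝ, ℝ) ∞ φ Ω →
      ContMDiffOn 𝓘(ℝ, E) 𝓘(ℝ, ℝ) ∞ φ' Ω →
      ContMDiffOn 𝓘(ℝ, E) 𝓘(ℝ, ℝ) ∞ (fun p => α * φ p + γ * φ' p) Ω := by
    intro α γ φ φ' h1 h1'
    have h3 : ContMDiffOn 𝓘(ℝ, E) 𝓘(ℝ, ℝ) ∞ (fun _ : N => α) Ω := contMDiffOn_const
    have h4 : ContMDiffOn 𝓘(ℝ, E) 𝓘(ℝ, ℝ) ∞ (fun _ : N => γ) Ω := contMDiffOn_const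
    exact (h3.mul h1).add (h4.mul h1')
  refine ⟨hsm α γ φ φ' h1 h1', ?_⟩
  set e := chO E Ω p with hed
  have he : e ∈ maximalAtlas 𝓘(ℝ, E) ∞ N := chO_mem hΩ p
  have heΩ : e.source ⊆ Ω := chO_sub hΩ p
  have hpe : p ∈ e.source := mem_chO hΩ hp
  have hz : e p ∈ e.target := e.map_source hpe
  have hR : LocalRiem (chartG e) e.target := ⟨e.open_target, contDiffOn_chartG he,
    fun z _ v w => chartG_symm e z v w, fun z hz v hv => chartG_pos he hz v hv⟩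
  have hf := contDiffOn_chO hΩ h1 he heΩ
  have hg := contDiffOn_chO hΩ h1' he heΩ
  have hfa := contDiffOn_chO hΩ (hsm (n - 1) 1 a φ ha h1) he heΩ
  have hga := contDiffOn_chO hΩ (hsm (n - 1) 1 a φ' ha h1') he heΩ
  have k1 : Lap E (fun q => ((n : ℝ) - 1) * a q + (α * φ q + γ * φ' q)) p =
      α * Lap E (fun q => ((n : ℝ) - 1) * a q + φ q) p +
      γ * Lap E (fun q => ((n : ℝ) - 1) * a q + φ' q) p := by
    have e2 : (fun q => ((n : ℝ) - 1) * a q + (α * φ q + γ * φ' q)) =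
        fun q => α * (((n : ℝ) - 1) * a q + 1 * φ q) + γ * (((n : ℝ) - 1) * a q + 1 * φ' q) := by
      funext q
      have : γ = 1 - α := by linarith
      rw [this]
      ring
    have e3 : (fun q => ((n : ℝ) - 1) * a q + φ q) = fun q => ((n : ℝ) - 1) * a q + 1 * φ q := by
      funext q; ring
    have e4 : (fun q => ((n : ℝ) - 1) * a q + φ' q) = fun q => ((n : ℝ) - 1) * a q + 1 * φ' q := by
      funext q; ring
    rw [e2, e3, e4]
    exact H465.lap_comb e.open_target hfa hga hz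
  have k2 : Gam E a (fun q => α * φ q + γ * φ' q) p = α * Gam E a φ p + γ * Gam E a φ' p := by
    have e2 : gamG (chartG e) (a ∘ e.symm) (fun y => α * (φ ∘ e.symm) y + γ * (φ' ∘ e.symm) y)
        (e p) = α * gamG (chartG e) (a ∘ e.symm) (φ ∘ e.symm) (e p) +
        γ * gamG (chartG e) (a ∘ e.symm) (φ' ∘ e.symm) (e p) := by
      rw [gamG, gamG, gamG, H465.grad_comb e.open_target hf hg hz, map_add, map_smul, map_smul]
      rfl
    exact e2
  have k3 : Gam E (fun q => α * φ q + γ * φ' q) (fun q => α * φ q + γ * φ' q) p ≤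
      α * Gam E φ φ p + γ * Gam E φ' φ' p :=
    H465.gam_comb hR hf hg hz hα hγ hαγ
  have h3 := mul_le_mul_of_nonneg_left h2 hα
  have h4 := mul_le_mul_of_nonneg_left h2' hγ
  have h5 : γ = 1 - α := by linarith
  unfold TwS at h3 h4 ⊢
  simp only at h3 h4 ⊢
  rw [k1, k2]
  have h6 : α * (((n : ℝ) - 1) * (n - 2) * Gam E a a p) +
      γ * (((n : ℝ) - 1) * (n - 2) * Gam E a a p) =
      ((n : ℝ) - 1) * (n - 2) * Gam E a a p := by rw [← add_mul, hαγ, one_mul]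
  nlinarith only [h3, h4, k3, h6]

/-- the scalar curvature of twisted products on compact sets -/
theorem tw_K (hΦ : PD E V Ω Φ) (hΩ : IsOpen Ω) {w : N → ℝ}
    (hw : ContMDiffOn 𝓘(ℝ, E) 𝓘(ℝ, ℝ) ∞ w Ω) (hw0 : ∀ x ∈ Ω, 0 < w x)
    (hT : IsTw (E := E) (V := V) w Φ) (hn : 1 ≤ Module.finrank ℝ E)
    (hS : ScalGE (E × V) M 1) {S σ : N → ℝ} {t : ℝ} (ht : t < 1)
    (hSc : ScalLEOn E N Ω fun x => S x - w x * (σ x - t)) {K : Set N} (hK : K ⊆ Ω)
    (hfib : ∃ (r : ℕ) (p : Fin r → ℝ) (Y : Fin r → Set F), (∀ j, 0 ≤ p j) ∧ ∑ j, p j = 1 ∧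
      (∀ j, PropOn Ω (fun x y => fibM (E := E) Φ.symm x (chartAt V y)) (fun y => chartAt V y y)
        (Y j)) ∧
      ∀ x ∈ K, ∃ (y : Fin r → F) (s : Fin r → ℝ),
      (∀ j, y j ∈ Y j ∧ ((Module.finrank ℝ V ≤ 1 ∧ 0 ≤ s j) ∨
        ScalLEAt (fibM (E := E) Φ.symm x (chartAt V (y j))) (chartAt V (y j) (y j)) (s j))) ∧
      ∑ j, p j * s j ≤ σ x + (1 - t) / 2) :
    ∃ φ : N → ℝ, ContMDiffOn 𝓘(ℝ, E) 𝓘(ℝ, ℝ) ∞ φ Ω ∧ ∀ p ∈ K,
      TwS E (Module.finrank ℝ E) (fun x => Real.exp (2 * (Real.log ((1 - t) * w x) / 2)) / 2)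
      (fun x => Real.log ((1 - t) * w x) / 2) φ p ≤ S p := by
  rcases K.eq_empty_or_nonempty with rfl | ⟨x0, hx0⟩
  · exact ⟨fun _ => 0, contMDiffOn_const, fun p hp => absurd hp (notMem_empty p)⟩
  obtain ⟨r, q, Y, hq, hq1, hY, hs⟩ := hfib
  have ht' : 0 < 1 - t := by linarith
  obtain ⟨y0, s0, hy0, -⟩ := hs x0 hx0
  set ψ : Fin r → N → ℝ := fun j => phO E Φ.symm (chartAt V (y0 j)) (chartAt V (y0 j) (y0 j))
    (Module.finBasis ℝ V) with hψ
  set a : N → ℝ := fun x => Real.log ((1 - t) * w x) / 2 with had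
  have ha : ContMDiffOn 𝓘(ℝ, E) 𝓘(ℝ, ℝ) ∞ a Ω := by
    have h3 : ContMDiffOn 𝓘(ℝ, E) 𝓘(ℝ, ℝ) ∞ (fun x => (1 - t) * w x) Ω :=
      contMDiffOn_const.mul hw
    have h2 : ContMDiffOn 𝓘(ℝ, E) 𝓘(ℝ, ℝ) ∞ (fun x => Real.log ((1 - t) * w x)) Ω := fun x hx =>
      ((Real.contDiffAt_log.2 (mul_pos ht' (hw0 x hx)).ne').contMDiffAt).comp_contMDiffWithinAt x
        (h3 x hx)
    exact h2.div_const 2
  have hψs : ∀ j, ContMDiffOn 𝓘(ℝ, E) 𝓘(ℝ, ℝ) ∞ (ψ j) Ω := fun j =>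
    contMDiffOn_phO hΦ hΩ (chart_mem_maximalAtlas _) (mem_chart_target V _)
  have key : ∀ p ∈ K, ContMDiffOn 𝓘(ℝ, E) 𝓘(ℝ, ℝ) ∞ (∑ j, q j • ψ j) Ω ∧
      TwS E (Module.finrank ℝ E) (fun x => Real.exp (2 * a x) / 2) a (∑ j, q j • ψ j) p ≤
        S p := by
    intro p hp
    have hpΩ := hK hp
    have hwp := hw0 p hpΩ
    obtain ⟨y, s, hys, hsum⟩ := hs p hp
    have hpe : chartAt E p ∈ maximalAtlas 𝓘(ℝ, E) ∞ N := chart_mem_maximalAtlas p
    have hzp : chartAt E p p ∈ (chartAt E p).target := mem_chart_target E p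
    obtain ⟨b, hb⟩ := exists_onb (chartG (chartAt E p) (chartAt E p p))
      (fun v w => chartG_symm _ _ v w) (fun v hv => chartG_pos hpe hzp v hv)
    set B := ∑ i, ∑ j, secG (chartG (chartAt E p)) (chartAt E p p) (b i) (b j) with hB
    have hbase : B ≤ S p - w p * (σ p - t) := by
      obtain ⟨Γ, hΓ, h1⟩ := hSc _ hpe _ hzp (by
        rw [(chartAt E p).left_inv (mem_chart_source E p)]
        exact hpΩ)
      have h2 := h1 b hb
      simp only [sectNum_eq hpe hzp hΓ] at h2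
      rwa [(chartAt E p).left_inv (mem_chart_source E p)] at h2
    have h1 : ∀ j, ((ψ j, B - w p * (1 - s j)) : (N → ℝ) × ℝ) ∈
        {q : (N → ℝ) × ℝ | ContMDiffOn 𝓘(ℝ, E) 𝓘(ℝ, ℝ) ∞ q.1 Ω ∧
          TwS E (Module.finrank ℝ E) (fun _ => 0) a q.1 p ≤ q.2} := by
      intro j
      refine ⟨hψs j, ?_⟩
      have h2 := tw_pt hΦ hΩ hw hw0 hT hn hS (hY j) (hy0 j).1 (hys j).1 ht' hpΩ (hys j).2 hb
      unfold TwS at h2 ⊢
      simp only at h2 ⊢
      linarith only [h2]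
    have h2 := (convex_tw hΩ ha hpΩ (Module.finrank ℝ E)).sum_mem (t := Finset.univ) (w := q)
      (z := fun j => ((ψ j, B - w p * (1 - s j)) : (N → ℝ) × ℝ))
      (fun j _ => hq j) hq1 (fun j _ => h1 j)
    obtain ⟨h3, h4⟩ := h2
    have e1 : (∑ j, q j • ((ψ j, B - w p * (1 - s j)) : (N → ℝ) × ℝ)).1 = ∑ j, q j • ψ j := by
      rw [Prod.fst_sum]
      rfl
    have e2 : (∑ j, q j • ((ψ j, B - w p * (1 - s j)) : (N → ℝ) × ℝ)).2 =
        B - w p * (1 - ∑ j, q j * s j) := by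
      rw [Prod.snd_sum]
      simp only [Prod.smul_snd, smul_eq_mul]
      have e4 : ∀ j, q j * (B - w p * (1 - s j)) = q j * (B - w p) + w p * (q j * s j) :=
        fun j => by ring
      rw [Finset.sum_congr rfl fun j _ => e4 j, Finset.sum_add_distrib, ← Finset.sum_mul,
        ← Finset.mul_sum, hq1]
      ring
    rw [e1] at h3 h4
    rw [e2] at h4
    refine ⟨h3, ?_⟩
    have e3 : Real.exp (2 * a p) = (1 - t) * w p := by
      rw [had]
      simp only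
      rw [show 2 * (Real.log ((1 - t) * w p) / 2) = Real.log ((1 - t) * w p) by ring,
        Real.exp_log (mul_pos ht' hwp)]
    unfold TwS at h4 ⊢
    simp only at h4 ⊢
    rw [e3]
    have h5 := mul_le_mul_of_nonneg_left hsum hwp.le
    nlinarith only [h4, h5, hbase]
  exact ⟨∑ j, q j • ψ j, (key x0 hx0).1, fun p hp => (key p hp).2⟩

end Vale.Agent.P210.Cw.Om
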